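import Mathlib

/-!
Schwarz-Pick on the upper half-plane and the two-point Loewner inequality on the real axis.
-/

set_option autoImplicit false

namespace Crest.Agent.R168

open Complex Filter Topology Set

lemma normSq_sub_conj (a b : ℂ) :
    normSq (a - (starRingEnd ℂ) b) = normSq (a - b) + 4 * (a.im * b.im) := by
  simp [normSq_apply]; ring

lemma schwarz_pick_strict {g : ℂ → ℂ} (hd : DifferentiableOn ℂ g {z | 0 < z.im})
    (hpos : ∀ z : ℂ, 0 < z.im → 0 < (g z).im) {z w : ℂ} (hz : 0 < z.im) (hw : 0 < w.im) :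
    normSq (g z - g w) * (z.im * w.im) ≤ normSq (z - w) * ((g z).im * (g w).im) := by
  set a := g w with ha
  have haim : 0 < a.im := hpos w hw
  let ψ : ℂ → ℂ := fun u => (w - (starRingEnd ℂ) w * u) / (1 - u)
  have h1u : ∀ u ∈ Metric.ball (0 : ℂ) 1, (1 - u) ≠ 0 := by
    intro u hu h
    have : u = 1 := by linear_combination -h
    simp [this] at hu
  have hψ : ∀ u ∈ Metric.ball (0 : ℂ) 1, 0 < (ψ u).im := by
    intro u hu
    have hn : normSq u < 1 := by
      rw [mem_ball_zero_iff] at hu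
      rw [normSq_eq_norm_sq]
      nlinarith [norm_nonneg u]
    have hp : 0 < normSq (1 - u) := normSq_pos.mpr (h1u u hu)
    have : (ψ u).im = w.im * (1 - normSq u) / normSq (1 - u) := by
      simp only [ψ, div_im]
      field_simp
      simp [normSq_apply]; ring
    rw [this]
    have : 0 < 1 - normSq u := by linarith
    positivity
  have hden : ∀ b : ℂ, 0 < b.im → b - (starRingEnd ℂ) a ≠ 0 := by
    intro b hb h
    have := congrArg Complex.im h
    simp at this
    linarith
  let f : ℂ → ℂ := fun u => (g (ψ u) - a) / (g (ψ u) - (starRingEnd ℂ) a)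
  have hψd : DifferentiableOn ℂ ψ (Metric.ball 0 1) := by
    apply DifferentiableOn.div _ _ h1u <;> fun_prop
  have hgψ : DifferentiableOn ℂ (fun u => g (ψ u)) (Metric.ball 0 1) :=
    hd.comp hψd (fun u hu => hψ u hu)
  have hfd : DifferentiableOn ℂ f (Metric.ball 0 1) := by
    apply DifferentiableOn.div (hgψ.sub_const _) (hgψ.sub_const _)
    intro u hu
    exact hden _ (hpos _ (hψ u hu))
  have hnorm : ∀ b : ℂ, 0 < b.im → ‖(b - a) / (b - (starRingEnd ℂ) a)‖ ≤ 1 := by
    intro b hb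
    rw [norm_div, div_le_one (norm_pos_iff.mpr (hden b hb))]
    rw [← sq_le_sq₀ (norm_nonneg _) (norm_nonneg _), ← normSq_eq_norm_sq, ← normSq_eq_norm_sq,
      normSq_sub_conj]
    have := mul_pos hb haim
    linarith
  have hmaps : MapsTo f (Metric.ball 0 1) (Metric.closedBall 0 1) := by
    intro u hu
    rw [mem_closedBall_zero_iff]
    exact hnorm _ (hpos _ (hψ u hu))
  have hf0 : f 0 = 0 := by simp [f, ψ, ha]
  have hzw : z - (starRingEnd ℂ) w ≠ 0 := by
    intro h
    have := congrArg Complex.im h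
    simp at this
    linarith
  set u₀ : ℂ := (z - w) / (z - (starRingEnd ℂ) w) with hu₀
  have hu₀n : ‖u₀‖ < 1 := by
    rw [hu₀, norm_div, div_lt_one (norm_pos_iff.mpr hzw)]
    rw [← sq_lt_sq₀ (norm_nonneg _) (norm_nonneg _), ← normSq_eq_norm_sq, ← normSq_eq_norm_sq,
      normSq_sub_conj]
    have := mul_pos hz hw
    linarith
  have hψu₀ : ψ u₀ = z := by
    have h1 : (1 - u₀) ≠ 0 := h1u u₀ (mem_ball_zero_iff.mpr hu₀n)
    simp only [ψ]
    rw [div_eq_iff h1, hu₀]
    field_simp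
    ring
  have key := Complex.norm_le_norm_of_mapsTo_ball hfd hmaps hf0 hu₀n
  simp only [f, hψu₀] at key
  rw [hu₀, norm_div, norm_div, div_le_div_iff₀ (norm_pos_iff.mpr (hden _ (hpos z hz)))
    (norm_pos_iff.mpr hzw)] at key
  have key2 := mul_self_le_mul_self (by positivity) key
  have e1 : ‖g z - a‖ * ‖z - (starRingEnd ℂ) w‖ * (‖g z - a‖ * ‖z - (starRingEnd ℂ) w‖)
      = normSq (g z - a) * normSq (z - (starRingEnd ℂ) w) := by
    rw [normSq_eq_norm_sq, normSq_eq_norm_sq]; ring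
  have e2 : ‖z - w‖ * ‖g z - (starRingEnd ℂ) a‖ * (‖z - w‖ * ‖g z - (starRingEnd ℂ) a‖)
      = normSq (z - w) * normSq (g z - (starRingEnd ℂ) a) := by
    rw [normSq_eq_norm_sq, normSq_eq_norm_sq]; ring
  rw [e1, e2, normSq_sub_conj, normSq_sub_conj] at key2
  nlinarith [key2]

/-- Schwarz-Pick for maps of the upper half-plane into its closure. -/
lemma schwarz_pick {g : ℂ → ℂ} (hd : DifferentiableOn ℂ g {z | 0 < z.im})
    (hpos : ∀ z : ℂ, 0 < z.im → 0 ≤ (g z).im) {z w : ℂ} (hz : 0 < z.im) (hw : 0 < w.im) :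
    normSq (g z - g w) * (z.im * w.im) ≤ normSq (z - w) * ((g z).im * (g w).im) := by
  have h : ∀ δ : ℝ, 0 < δ → normSq (g z - g w) * (z.im * w.im) ≤
      normSq (z - w) * (((g z).im + δ) * ((g w).im + δ)) := by
    intro δ hδ
    have := schwarz_pick_strict (g := fun u => g u + δ * I) (hd.add_const _)
      (fun u hu => by have := hpos u hu; simp; linarith) hz hw
    simpa using this
  have ht : Tendsto (fun δ : ℝ => normSq (z - w) * (((g z).im + δ) * ((g w).im + δ)))
      (𝓝[>] 0) (𝓝 (normSq (z - w) * (((g z).im + 0) * ((g w).im + 0)))) := by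
    apply Tendsto.mono_left _ nhdsWithin_le_nhds
    exact Continuous.tendsto (by fun_prop) 0
  simp only [add_zero] at ht
  exact ge_of_tendsto ht (eventually_nhdsWithin_of_forall fun δ hδ => h δ hδ)

/-- the vertical difference quotient of the imaginary part at a real point where `g` is real. -/
lemma tendsto_im_div {g : ℂ → ℂ} {t : ℝ} {g' : ℂ} (hd : HasDerivAt g g' t) (hr : (g t).im = 0) :
    Tendsto (fun η : ℝ => (g (t + η * I)).im / η) (𝓝[>] 0) (𝓝 g'.re) := by
  have h1 : HasDerivAt (fun η : ℝ => g (t + η * I)) (g' * I) 0 := by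
    have h2 : HasDerivAt (fun η : ℂ => (t : ℂ) + η * I) I 0 := by
      simpa using ((hasDerivAt_id (0 : ℂ)).mul_const I).const_add (t : ℂ)
    have h3 : HasDerivAt (fun η : ℂ => g (t + η * I)) (g' * I) 0 := by
      have hd' : HasDerivAt g g' ((t : ℂ) + 0 * I) := by simpa using hd
      exact hd'.comp (0 : ℂ) h2
    have h3' : HasDerivAt (fun η : ℂ => g (t + η * I)) (g' * I) ((0 : ℝ) : ℂ) := by
      rw [ofReal_zero]; exact h3
    exact h3'.comp_ofReal
  have h4 : HasDerivAt (fun η : ℝ => (g (t + η * I)).im) (g' * I).im 0 := by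
    exact (Complex.imCLM.hasFDerivAt.comp_hasDerivAt (0 : ℝ) h1)
  have h5 := h4.tendsto_slope_zero_right
  simp only [zero_add, ofReal_zero, zero_mul, add_zero, hr, sub_zero, smul_eq_mul, mul_im, I_im,
    mul_one, I_re, mul_zero] at h5
  refine h5.congr (fun η => ?_)
  rw [div_eq_inv_mul]

/-- Two-point Loewner inequality from the Schwarz-Pick inequality near the real axis. -/
lemma loewner_of_pick {g : ℂ → ℂ} {s t : ℝ} {gs gt : ℂ} (hs : HasDerivAt g gs s)
    (ht : HasDerivAt g gt t) (hrs : (g s).im = 0) (hrt : (g t).im = 0)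
    (h : ∀ᶠ η : ℝ in 𝓝[>] 0, normSq (g (s + η * I) - g (t + η * I)) * (η * η) ≤
      normSq ((s + η * I) - (t + η * I)) * ((g (s + η * I)).im * (g (t + η * I)).im)) :
    ((g s).re - (g t).re) ^ 2 ≤ (s - t) ^ 2 * (gs.re * gt.re) := by
  have c : ∀ {r : ℝ} {gr : ℂ}, HasDerivAt g gr r →
      Tendsto (fun η : ℝ => g (r + η * I)) (𝓝[>] 0) (𝓝 (g r)) := by
    intro r gr hr
    have : Tendsto (fun η : ℝ => (r : ℂ) + η * I) (𝓝[>] 0) (𝓝 (r : ℂ)) := by
      apply Tendsto.mono_left _ nhdsWithin_le_nhds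
      have : Continuous (fun η : ℝ => (r : ℂ) + η * I) := by fun_prop
      simpa using this.tendsto 0
    exact hr.continuousAt.tendsto.comp this
  have l1 : Tendsto (fun η : ℝ => normSq (g (s + η * I) - g (t + η * I))) (𝓝[>] 0)
      (𝓝 (normSq (g s - g t))) :=
    (Complex.continuous_normSq.tendsto _).comp ((c hs).sub (c ht))
  have l2 : Tendsto (fun η : ℝ => (s - t) ^ 2 * ((g (s + η * I)).im / η *
      ((g (t + η * I)).im / η))) (𝓝[>] 0) (𝓝 ((s - t) ^ 2 * (gs.re * gt.re))) :=
    ((tendsto_im_div hs hrs).mul (tendsto_im_div ht hrt)).const_mul _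
  have e : normSq (g s - g t) = ((g s).re - (g t).re) ^ 2 := by
    simp [normSq_apply, hrs, hrt]; ring
  rw [← e]
  refine le_of_tendsto_of_tendsto l1 l2 ?_
  filter_upwards [h, self_mem_nhdsWithin] with η hη hpos
  have hpos' : (0 : ℝ) < η := hpos
  have e2 : normSq (((s : ℂ) + η * I) - (t + η * I)) = (s - t) ^ 2 := by
    simp [normSq_apply]; ring
  rw [e2] at hη
  have : (s - t) ^ 2 * ((g (s + η * I)).im / η * ((g (t + η * I)).im / η)) =
      (s - t) ^ 2 * ((g (s + η * I)).im * (g (t + η * I)).im) / (η * η) := by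
    field_simp
  rw [this, le_div_iff₀ (by positivity)]
  exact hη

lemma deriv_nonneg_of_pick {g : ℂ → ℂ} {t : ℝ} {gt : ℂ}
    (ht : HasDerivAt g gt t) (hrt : (g t).im = 0)
    (h : ∀ᶠ η : ℝ in 𝓝[>] 0, 0 ≤ (g (t + η * I)).im) : 0 ≤ gt.re := by
  refine ge_of_tendsto (tendsto_im_div ht hrt) ?_
  filter_upwards [h, self_mem_nhdsWithin] with η hη hpos
  have hpos' : (0 : ℝ) < η := hpos
  positivity

/-- Calculus: a function on `(0, ∞)` with nonnegative derivative satisfying the two-point Loewner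
inequality lies below its tangent lines to the right. -/
lemma below_tangent {γ γ' : ℝ → ℝ} (hd : ∀ t, 0 < t → HasDerivAt γ (γ' t) t)
    (hnn : ∀ t, 0 < t → 0 ≤ γ' t)
    (hL : ∀ s t, 0 < s → 0 < t → (γ s - γ t) ^ 2 ≤ (s - t) ^ 2 * (γ' s * γ' t))
    {s t₀ : ℝ} (hs : 0 < s) (hst : s < t₀) : γ t₀ - γ s ≤ γ' s * (t₀ - s) := by
  by_contra hcon
  push Not at hcon
  have hmono : MonotoneOn γ (Ioi 0) := by
    apply monotoneOn_of_deriv_nonneg (convex_Ioi 0)
    · exact fun t ht => (hd t ht).continuousAt.continuousWithinAt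
    · intro t ht
      rw [interior_Ioi] at ht
      exact (hd t ht).differentiableAt.differentiableWithinAt
    · intro t ht
      rw [interior_Ioi] at ht
      rw [(hd t ht).deriv]; exact hnn t ht
  have hD0 : 0 < γ t₀ - γ s := lt_of_le_of_lt (mul_nonneg (hnn s hs) (by linarith)) hcon
  have hγs : 0 < γ' s := by
    rcases (hnn s hs).lt_or_eq with h | h
    · exact h
    · have := hL s t₀ hs (by linarith)
      rw [← h] at this
      nlinarith
  have hD : ∀ t, t₀ ≤ t → 0 < γ t - γ s := by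
    intro t ht
    have := hmono (show t₀ ∈ Ioi 0 from by simp; linarith) (show t ∈ Ioi 0 from by simp; linarith) ht
    linarith
  let k : ℝ → ℝ := fun t => -(γ t - γ s)⁻¹ + (γ' s * (t - s))⁻¹
  have hkd : ∀ t, t₀ ≤ t → HasDerivAt k
      (γ' t / (γ t - γ s) ^ 2 - γ' s / (γ' s * (t - s)) ^ 2) t := by
    intro t ht
    have h1 := ((hd t (by linarith)).sub_const (γ s)).inv (hD t ht).ne'
    have h2 : HasDerivAt (fun t => γ' s * (t - s)) (γ' s) t := by
      simpa using ((hasDerivAt_id t).sub_const s).const_mul (γ' s)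
    have h3 := h2.inv (mul_pos hγs (by linarith : 0 < t - s)).ne'
    have h4 := h1.neg.add h3
    have e : -(-γ' t / (γ t - γ s) ^ 2) + -γ' s / (γ' s * (t - s)) ^ 2 =
      γ' t / (γ t - γ s) ^ 2 - γ' s / (γ' s * (t - s)) ^ 2 := by ring
    rw [e] at h4
    exact h4
  have hkm : MonotoneOn k (Ici t₀) := by
    apply monotoneOn_of_deriv_nonneg (convex_Ici t₀)
    · exact fun t ht => (hkd t ht).continuousAt.continuousWithinAt
    · intro t ht
      rw [interior_Ici] at ht
      exact (hkd t (le_of_lt ht)).differentiableAt.differentiableWithinAt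
    · intro t ht
      rw [interior_Ici] at ht
      have ht' : t₀ < t := ht
      rw [(hkd t ht'.le).deriv, sub_nonneg,
        div_le_div_iff₀ (by have : 0 < t - s := by linarith
                            positivity) (by have := hD t ht'.le; positivity)]
      have := hL s t hs (by linarith)
      have h4 : γ' s * (γ t - γ s) ^ 2 ≤ γ' s * ((s - t) ^ 2 * (γ' s * γ' t)) := by
        apply mul_le_mul_of_nonneg_left _ hγs.le
        calc (γ t - γ s) ^ 2 = (γ s - γ t) ^ 2 := by ring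
          _ ≤ _ := this
      calc γ' s * (γ t - γ s) ^ 2 ≤ _ := h4
        _ = _ := by ring
  have hk0 : 0 < k t₀ := by
    simp only [k]
    have : (γ t₀ - γ s)⁻¹ < (γ' s * (t₀ - s))⁻¹ :=
      inv_strictAnti₀ (mul_pos hγs (by linarith)) hcon
    linarith
  -- choose `t` large
  set t : ℝ := max t₀ (s + (γ' s * k t₀)⁻¹) with ht
  have ht1 : t₀ ≤ t := le_max_left _ _
  have ht2 : (γ' s * k t₀)⁻¹ ≤ t - s := by
    have : s + (γ' s * k t₀)⁻¹ ≤ t := le_max_right _ _
    linarith
  have h5 := hkm (show t₀ ∈ Ici t₀ from mem_Ici.mpr le_rfl) (show t ∈ Ici t₀ from ht1) ht1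
  have h6 : k t < (γ' s * (t - s))⁻¹ := by
    simp only [k]
    have := inv_pos.mpr (hD t ht1)
    linarith
  have h7 : (γ' s * (t - s))⁻¹ ≤ k t₀ := by
    rw [inv_le_comm₀ (mul_pos hγs (by linarith)) hk0]
    calc (k t₀)⁻¹ = γ' s * (γ' s * k t₀)⁻¹ := by field_simp
      _ ≤ γ' s * (t - s) := mul_le_mul_of_nonneg_left ht2 hγs.le
  linarith

/-- If moreover the function has oscillation at most one then `t γ'(t) ≤ 1`. -/
lemma mul_deriv_le_one {γ γ' : ℝ → ℝ} (hd : ∀ t, 0 < t → HasDerivAt γ (γ' t) t)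
    (hnn : ∀ t, 0 < t → 0 ≤ γ' t)
    (hL : ∀ s t, 0 < s → 0 < t → (γ s - γ t) ^ 2 ≤ (s - t) ^ 2 * (γ' s * γ' t))
    (hosc : ∀ s t, 0 < s → 0 < t → γ t - γ s ≤ 1) {t : ℝ} (ht : 0 < t) : t * γ' t ≤ 1 := by
  let φ : ℝ → ℝ := fun s => (γ t - γ s) / (t - s)
  have hφd : ∀ s, 0 < s → s < t → HasDerivAt φ
      ((-γ' s * (t - s) - (γ t - γ s) * (-1)) / (t - s) ^ 2) s := by
    intro s hs hst
    have h1 : HasDerivAt (fun s => γ t - γ s) (-γ' s) s := (hd s hs).const_sub (γ t)
    have h2 : HasDerivAt (fun s => t - s) (-1) s := (hasDerivAt_id s).const_sub t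
    exact h1.div h2 (by linarith)
  have hanti : AntitoneOn φ (Ioo 0 t) := by
    apply antitoneOn_of_deriv_nonpos (convex_Ioo 0 t)
    · exact fun s hs => (hφd s hs.1 hs.2).continuousAt.continuousWithinAt
    · intro s hs
      rw [interior_Ioo] at hs
      exact (hφd s hs.1 hs.2).differentiableAt.differentiableWithinAt
    · intro s hs
      rw [interior_Ioo] at hs
      rw [(hφd s hs.1 hs.2).deriv]
      apply div_nonpos_of_nonpos_of_nonneg _ (sq_nonneg _)
      have := below_tangent hd hnn hL hs.1 hs.2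
      linarith
  have hlim : Tendsto φ (𝓝[<] t) (𝓝 (γ' t)) := by
    have := (hasDerivAt_iff_tendsto_slope_left_right.mp (hd t ht)).1
    refine this.congr (fun s => ?_)
    rw [slope_def_field]
    simp only [φ]
    rw [← neg_sub (γ t), ← neg_sub t, neg_div_neg_eq]
  have h1 : ∀ s, 0 < s → s < t → γ' t * (t - s) ≤ 1 := by
    intro s hs hst
    have h2 : γ' t ≤ φ s := by
      refine le_of_tendsto hlim ?_
      filter_upwards [Ioo_mem_nhdsLT hst] with u hu
      exact hanti ⟨hs, hst⟩ ⟨hs.trans hu.1, hu.2⟩ hu.1.le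
    have h3 : φ s * (t - s) = γ t - γ s := by
      simp only [φ]
      have : t - s ≠ 0 := by linarith
      field_simp
    have := hosc s t hs ht
    have h4 : γ' t * (t - s) ≤ φ s * (t - s) := mul_le_mul_of_nonneg_right h2 (by linarith)
    linarith
  have hl2 : Tendsto (fun s : ℝ => γ' t * (t - s)) (𝓝[>] 0) (𝓝 (γ' t * (t - 0))) := by
    apply Tendsto.mono_left _ nhdsWithin_le_nhds
    exact Continuous.tendsto (by fun_prop) 0
  have := le_of_tendsto hl2 (by
    filter_upwards [Ioo_mem_nhdsGT ht] with s hs using h1 s hs.1 hs.2)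
  linarith

end Crest.Agent.R168
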