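import Mathlib
import Crest.Agent.R168.Pick

/-!
Consequences of stability of a multi-affine polynomial with nonnegative coefficients along the
one-parameter families in which the variables of a block `G` are multiplied by `t`.
-/

set_option autoImplicit false

namespace Crest.Agent.R168

open Complex Filter Topology Set

section OneVar

variable {κ : Type*}

/-- real polynomial `∑ d_S t^{n_S}` -/
noncomputable def rp (T : Finset κ) (d : κ → ℝ) (n : κ → ℕ) (t : ℝ) : ℝ := ∑ S ∈ T, d S * t ^ n S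

/-- complex polynomial `∑ d_S t^{n_S}` -/
noncomputable def cp (T : Finset κ) (d : κ → ℝ) (n : κ → ℕ) (t : ℂ) : ℂ :=
  ∑ S ∈ T, (d S : ℂ) * t ^ n S

lemma cp_ofReal (T : Finset κ) (d : κ → ℝ) (n : κ → ℕ) (t : ℝ) :
    cp T d n t = (rp T d n t : ℂ) := by
  simp [cp, rp]

lemma hasDerivAt_pow_div {𝕜 : Type*} [NontriviallyNormedField 𝕜] (n : ℕ) {t : 𝕜} (ht : t ≠ 0) :
    HasDerivAt (fun u : 𝕜 => u ^ n) (n * t ^ n / t) t := by
  have := hasDerivAt_pow n t
  convert this using 1
  rcases n with _ | n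
  · simp
  · rw [pow_succ]; field_simp; simp

lemma hasDerivAt_rp (T : Finset κ) (d : κ → ℝ) (n : κ → ℕ) {t : ℝ} (ht : t ≠ 0) :
    HasDerivAt (rp T d n) (rp T (fun S => d S * n S) n t / t) t := by
  have : HasDerivAt (fun u : ℝ => ∑ S ∈ T, d S * u ^ n S)
      (∑ S ∈ T, d S * (n S * t ^ n S / t)) t :=
    HasDerivAt.fun_sum fun S _ => (hasDerivAt_pow_div (n S) ht).const_mul (d S)
  refine HasDerivAt.congr_deriv this ?_
  simp only [rp, Finset.sum_div]
  refine Finset.sum_congr rfl fun S _ => by ring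

lemma hasDerivAt_cp (T : Finset κ) (d : κ → ℝ) (n : κ → ℕ) {t : ℝ} (ht : t ≠ 0) :
    HasDerivAt (cp T d n) ((rp T (fun S => d S * n S) n t / t : ℝ) : ℂ) t := by
  have ht' : (t : ℂ) ≠ 0 := by exact_mod_cast ht
  have : HasDerivAt (fun u : ℂ => ∑ S ∈ T, (d S : ℂ) * u ^ n S)
      (∑ S ∈ T, (d S : ℂ) * (n S * (t : ℂ) ^ n S / t)) t :=
    HasDerivAt.fun_sum fun S _ => (hasDerivAt_pow_div (n S) ht').const_mul (d S : ℂ)
  refine HasDerivAt.congr_deriv this ?_
  simp only [rp, Finset.sum_div]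
  push_cast
  refine Finset.sum_congr rfl fun S _ => by ring

lemma continuous_cp (T : Finset κ) (d : κ → ℝ) (n : κ → ℕ) : Continuous (cp T d n) := by
  unfold cp; fun_prop

/-- From the Pick property of `-num/den` off the zeros of `den` to the real inequalities. -/
lemma real_ineqs (T : Finset κ) (d e : κ → ℝ) (n : κ → ℕ)
    (hden : ∀ t : ℝ, 0 < t → 0 < rp T d n t)
    (hnum : ∀ t : ℝ, 0 < t → 0 ≤ rp T e n t ∧ rp T e n t ≤ rp T d n t)
    (him : ∀ z : ℂ, 0 < z.im → cp T d n z ≠ 0 → 0 ≤ (-(cp T e n z) / cp T d n z).im)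
    (hsp : ∀ z w : ℂ, 0 < z.im → 0 < w.im → cp T d n z ≠ 0 → cp T d n w ≠ 0 →
      normSq (-(cp T e n z) / cp T d n z - -(cp T e n w) / cp T d n w) * (z.im * w.im) ≤
        normSq (z - w) * ((-(cp T e n z) / cp T d n z).im * (-(cp T e n w) / cp T d n w).im))
    (c : ℝ → ℝ)
    (hc : ∀ t, c t = rp T e n t / rp T d n t * (rp T (fun S => d S * n S) n t / rp T d n t) -
      rp T (fun S => e S * n S) n t / rp T d n t) :
    (∀ t, 0 < t → 0 ≤ c t) ∧ (∀ t, 0 < t → c t ≤ 1) ∧
      ∀ s t, 0 < s → 0 < t → (rp T e n s / rp T d n s - rp T e n t / rp T d n t) ^ 2 ≤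
        (s - t) ^ 2 * (c s / s * (c t / t)) := by
  let g : ℂ → ℂ := fun z => -(cp T e n z) / cp T d n z
  let γ : ℝ → ℝ := fun t => -(rp T e n t) / rp T d n t
  have hgr : ∀ t : ℝ, g t = (γ t : ℂ) := by
    intro t; simp only [g, γ, cp_ofReal]; push_cast; ring
  have hne : ∀ t : ℝ, 0 < t → cp T d n t ≠ 0 := by
    intro t ht; rw [cp_ofReal]; exact_mod_cast (hden t ht).ne'
  have hgd : ∀ t : ℝ, 0 < t → HasDerivAt g ((c t / t : ℝ) : ℂ) t := by
    intro t ht
    have h := (hasDerivAt_cp T e n ht.ne').neg.div (hasDerivAt_cp T d n ht.ne') (hne t ht)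
    refine HasDerivAt.congr_deriv h ?_
    rw [hc]
    simp only [Pi.neg_apply, cp_ofReal]
    have h1 : (rp T d n t : ℂ) ≠ 0 := by exact_mod_cast (hden t ht).ne'
    have h2 : (t : ℂ) ≠ 0 := by exact_mod_cast ht.ne'
    push_cast
    field_simp
    ring
  have hγd : ∀ t : ℝ, 0 < t → HasDerivAt γ (c t / t) t := by
    intro t ht
    have h := (hasDerivAt_rp T e n ht.ne').neg.div (hasDerivAt_rp T d n ht.ne') (hden t ht).ne'
    refine HasDerivAt.congr_deriv h ?_
    rw [hc]
    simp only [Pi.neg_apply]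
    have h1 := (hden t ht).ne'
    field_simp
    ring
  have hev : ∀ t : ℝ, 0 < t → ∀ᶠ η : ℝ in 𝓝[>] 0, cp T d n (t + η * I) ≠ 0 := by
    intro t ht
    have h1 : Continuous (fun η : ℝ => cp T d n (t + η * I)) :=
      (continuous_cp T d n).comp (by fun_prop)
    have h2 : ∀ᶠ η : ℝ in 𝓝 0, cp T d n (t + η * I) ≠ 0 :=
      h1.continuousAt.eventually_ne (by simpa using hne t ht)
    exact h2.filter_mono nhdsWithin_le_nhds
  have him' : ∀ (t η : ℝ), ((t : ℂ) + η * I).im = η := by intro t η; simp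
  have hnn : ∀ t, 0 < t → 0 ≤ c t / t := by
    intro t ht
    have := deriv_nonneg_of_pick (hgd t ht) (by rw [hgr]; simp) (by
      filter_upwards [hev t ht, self_mem_nhdsWithin] with η h1 h2
      exact him _ (by rw [him']; exact h2) h1)
    simpa using this
  have hL : ∀ s t, 0 < s → 0 < t → (γ s - γ t) ^ 2 ≤ (s - t) ^ 2 * (c s / s * (c t / t)) := by
    intro s t hs ht
    have := loewner_of_pick (hgd s hs) (hgd t ht) (by rw [hgr]; simp) (by rw [hgr]; simp) (by
      filter_upwards [hev s hs, hev t ht, self_mem_nhdsWithin] with η h1 h2 h3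
      have := hsp _ _ (by rw [him']; exact h3) (by rw [him']; exact h3) h1 h2
      rw [him', him'] at this
      exact this)
    rw [hgr, hgr] at this
    simpa using this
  refine ⟨fun t ht => ?_, fun t ht => ?_, fun s t hs ht => ?_⟩
  · have := mul_nonneg ht.le (hnn t ht)
    rwa [mul_div_cancel₀ _ ht.ne'] at this
  · have := mul_deriv_le_one hγd hnn hL (fun s t hs ht => by
      simp only [γ]
      have h1 : 0 ≤ rp T e n t / rp T d n t := div_nonneg (hnum t ht).1 (hden t ht).le
      have h2 : rp T e n s / rp T d n s ≤ 1 := (div_le_one (hden s hs)).mpr (hnum s hs).2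
      rw [neg_div, neg_div]
      linarith) ht
    rwa [mul_div_cancel₀ _ ht.ne'] at this
  · have := hL s t hs ht
    simp only [γ] at this
    calc _ = (-rp T e n s / rp T d n s - -rp T e n t / rp T d n t) ^ 2 := by ring
      _ ≤ _ := this

end OneVar

section Multi

variable {I' : Type*} [DecidableEq I']

/-- multi-affine polynomial with coefficients `p` on subsets of `F` -/
noncomputable def mp (F : Finset I') (p : Finset I' → ℝ) (z : I' → ℂ) : ℂ :=
  ∑ S ∈ F.powerset, (p S : ℂ) * ∏ j ∈ S, z j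

/-- part not containing `i` -/
noncomputable def mpA (F : Finset I') (p : Finset I' → ℝ) (i : I') (z : I' → ℂ) : ℂ :=
  ∑ S ∈ F.powerset, (if i ∈ S then 0 else (p S : ℂ)) * ∏ j ∈ S.erase i, z j

/-- coefficient of `z i` -/
noncomputable def mpB (F : Finset I') (p : Finset I' → ℝ) (i : I') (z : I' → ℂ) : ℂ :=
  ∑ S ∈ F.powerset, (if i ∈ S then (p S : ℂ) else 0) * ∏ j ∈ S.erase i, z j

lemma mp_eq (F : Finset I') (p : Finset I' → ℝ) (i : I') (z : I' → ℂ) :
    mp F p z = mpA F p i z + z i * mpB F p i z := by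
  simp only [mp, mpA, mpB, Finset.mul_sum, ← Finset.sum_add_distrib]
  refine Finset.sum_congr rfl fun S _ => ?_
  by_cases h : i ∈ S
  · simp only [h, if_true, zero_mul, zero_add]
    rw [← Finset.mul_prod_erase S z h]; ring
  · simp [h]

lemma mp_update (F : Finset I') (p : Finset I' → ℝ) (i : I') (z : I' → ℂ) (w : ℂ) :
    mp F p (Function.update z i w) = mpA F p i z + w * mpB F p i z := by
  rw [mp_eq F p i]
  have h : ∀ S : Finset I', ∏ j ∈ S.erase i, Function.update z i w j = ∏ j ∈ S.erase i, z j := by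
    intro S
    refine Finset.prod_congr rfl fun j hj => ?_
    rw [Function.update_of_ne (Finset.ne_of_mem_erase hj)]
  simp only [mpA, mpB, h, Function.update_self]

lemma im_AB_nonneg {F : Finset I'} {p : Finset I' → ℝ}
    (hst : ∀ z : I' → ℂ, (∀ j ∈ F, 0 < (z j).im) → mp F p z ≠ 0) (i : I') {z : I' → ℂ}
    (hz : ∀ j ∈ F, 0 < (z j).im) :
    0 ≤ (mpA F p i z * (starRingEnd ℂ) (mpB F p i z)).im := by
  by_contra hcon
  push Not at hcon
  set A := mpA F p i z
  set B := mpB F p i z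
  have hB : B ≠ 0 := by
    intro h; simp [h] at hcon
  have hw : 0 < (-A / B).im := by
    have : (-A / B).im = -(A * (starRingEnd ℂ) B).im / normSq B := by
      rw [div_im]; simp; ring
    rw [this]
    exact div_pos (by linarith) (normSq_pos.mpr hB)
  apply hst (Function.update z i (-A / B))
  · intro j hj
    by_cases h : j = i
    · subst h; simpa using hw
    · rw [Function.update_of_ne h]; exact hz j hj
  · rw [mp_update]
    change A + -A / B * B = 0
    field_simp
    ring

lemma im_ratio_nonneg {F : Finset I'} {p : Finset I' → ℝ}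
    (hst : ∀ z : I' → ℂ, (∀ j ∈ F, 0 < (z j).im) → mp F p z ≠ 0) {i : I'} (hi : i ∈ F)
    {z : I' → ℂ} (hz : ∀ j ∈ F, 0 < (z j).im) {x : ℝ} (hx : 0 ≤ x) :
    0 ≤ (-(x * mpB F p i z) / mp F p z).im := by
  have h1 := im_AB_nonneg hst i hz
  have h2 := hz i hi
  have e : (-(x * mpB F p i z) / mp F p z).im =
      x * ((mpA F p i z * (starRingEnd ℂ) (mpB F p i z)).im + (z i).im * normSq (mpB F p i z)) /
        normSq (mp F p z) := by
    rw [div_im]
    have : ∀ a b c : ℝ, a / c - b / c = (a - b) / c := fun a b c => by ring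
    rw [this]
    congr 1
    rw [mp_eq F p i z]
    simp [normSq_apply]; ring
  rw [e]
  have := normSq_nonneg (mpB F p i z)
  have := normSq_nonneg (mp F p z)
  positivity

/-- The main inequalities along a block `G` of variables. -/
theorem block_ineqs {F : Finset I'} {p : Finset I' → ℝ} (hp : ∀ S, 0 ≤ p S)
    (hpos : ∃ S ∈ F.powerset, 0 < p S)
    (hst : ∀ z : I' → ℂ, (∀ j ∈ F, 0 < (z j).im) → mp F p z ≠ 0) {i : I'} (hi : i ∈ F)
    {G : Finset I'} (hiG : i ∉ G) {x : I' → ℝ} (hx : ∀ j, 0 < x j)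
    (d e : Finset I' → ℝ) (n : Finset I' → ℕ) (hd : ∀ S, d S = p S * ∏ j ∈ S, x j)
    (he : ∀ S, e S = if i ∈ S then d S else 0) (hn : ∀ S, n S = (S.filter (· ∈ G)).card)
    (c : ℝ → ℝ)
    (hc : ∀ t, c t = rp F.powerset e n t / rp F.powerset d n t *
      (rp F.powerset (fun S => d S * n S) n t / rp F.powerset d n t) -
      rp F.powerset (fun S => e S * n S) n t / rp F.powerset d n t) :
    (∀ t, 0 < t → 0 ≤ c t) ∧ (∀ t, 0 < t → c t ≤ 1) ∧
      ∀ s t, 0 < s → 0 < t → (rp F.powerset e n s / rp F.powerset d n s -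
        rp F.powerset e n t / rp F.powerset d n t) ^ 2 ≤
        (s - t) ^ 2 * (c s / s * (c t / t)) := by
  have hd0 : ∀ S, 0 ≤ d S := fun S => by
    rw [hd]; exact mul_nonneg (hp S) (Finset.prod_nonneg fun j _ => (hx j).le)
  -- the perturbed curve
  let a : I' → ℂ := fun j => if j ∈ G then (x j : ℂ) else 0
  let b : I' → ℂ := fun j => if j ∈ G then 0 else (x j : ℂ)
  let q : I' → ℂ := fun j => if j ∈ G then 0 else I
  let ζ : ℝ → ℂ → I' → ℂ := fun ε t j => a j * t + b j + q j * ε
  have hζ : ∀ ε : ℝ, 0 < ε → ∀ t : ℂ, 0 < t.im → ∀ j ∈ F, 0 < (ζ ε t j).im := by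
    intro ε hε t ht j _
    by_cases h : j ∈ G
    · simp [ζ, a, b, q, h, hx j, ht]
    · simp [ζ, a, b, q, h, hε]
  have hprod : ∀ (t : ℂ) (S : Finset I'),
      ∏ j ∈ S, ζ 0 t j = (∏ j ∈ S, x j : ℝ) * t ^ (S.filter (· ∈ G)).card := by
    intro t S
    have : ∀ j, ζ 0 t j = (x j : ℂ) * (if j ∈ G then t else 1) := by
      intro j
      by_cases h : j ∈ G <;> simp [ζ, a, b, q, h]
    simp only [this, Finset.prod_mul_distrib, Finset.prod_ite, Finset.prod_const, one_pow, mul_one]
    push_cast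
    rfl
  have hden0 : ∀ t : ℂ, mp F p (ζ 0 t) = cp F.powerset d n t := by
    intro t
    simp only [mp, cp, hprod, hd, hn]
    refine Finset.sum_congr rfl fun S _ => by push_cast; ring
  have hnum0 : ∀ t : ℂ, (x i : ℂ) * mpB F p i (ζ 0 t) = cp F.powerset e n t := by
    intro t
    simp only [mpB, cp, hprod, he, hd, hn, Finset.mul_sum]
    refine Finset.sum_congr rfl fun S _ => ?_
    by_cases h : i ∈ S
    · simp only [h, if_true]
      rw [← Finset.mul_prod_erase S x h]
      have : (S.erase i).filter (· ∈ G) = S.filter (· ∈ G) := by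
        ext j
        simp only [Finset.mem_filter, Finset.mem_erase]
        constructor
        · rintro ⟨⟨_, h1⟩, h2⟩; exact ⟨h1, h2⟩
        · rintro ⟨h1, h2⟩; exact ⟨⟨fun h3 => hiG (h3 ▸ h2), h1⟩, h2⟩
      rw [this]
      push_cast; ring
    · simp [h]
  let gε : ℝ → ℂ → ℂ := fun ε t => -((x i : ℂ) * mpB F p i (ζ ε t)) / mp F p (ζ ε t)
  have hlim : ∀ t : ℂ, cp F.powerset d n t ≠ 0 →
      Tendsto (fun ε => gε ε t) (𝓝[>] 0) (𝓝 (-(cp F.powerset e n t) / cp F.powerset d n t)) := by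
    intro t ht
    rw [← hnum0, ← hden0]
    apply Tendsto.mono_left _ nhdsWithin_le_nhds
    have c1 : Continuous (fun ε : ℝ => mpB F p i (ζ ε t)) := by
      simp only [mpB, ζ]; fun_prop
    have c2 : Continuous (fun ε : ℝ => mp F p (ζ ε t)) := by
      simp only [mp, ζ]; fun_prop
    exact ((c1.tendsto 0).const_mul _).neg.div (c2.tendsto 0) (by rwa [hden0])
  have hgd : ∀ ε : ℝ, 0 < ε → DifferentiableOn ℂ (gε ε) {z | 0 < z.im} := by
    intro ε hε
    have c1 : Differentiable ℂ (fun t : ℂ => mpB F p i (ζ ε t)) := by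
      simp only [mpB, ζ]; fun_prop
    have c2 : Differentiable ℂ (fun t : ℂ => mp F p (ζ ε t)) := by
      simp only [mp, ζ]; fun_prop
    exact DifferentiableOn.div (c1.const_mul _).neg.differentiableOn c2.differentiableOn
      (fun t ht => hst _ (hζ ε hε t ht))
  have hgi : ∀ ε : ℝ, 0 < ε → ∀ t : ℂ, 0 < t.im → 0 ≤ (gε ε t).im :=
    fun ε hε t ht => im_ratio_nonneg hst hi (hζ ε hε t ht) (hx i).le
  refine real_ineqs F.powerset d e n ?_ ?_ ?_ ?_ c hc
  · intro t ht
    obtain ⟨S, hS, hpS⟩ := hpos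
    refine Finset.sum_pos' (fun S _ => mul_nonneg (hd0 S) (by positivity)) ⟨S, hS, ?_⟩
    rw [hd]
    have : 0 < ∏ j ∈ S, x j := Finset.prod_pos fun j _ => hx j
    positivity
  · intro t ht
    constructor
    · refine Finset.sum_nonneg fun S _ => mul_nonneg ?_ (by positivity)
      rw [he]; split_ifs
      · exact hd0 S
      · exact le_rfl
    · refine Finset.sum_le_sum fun S _ => mul_le_mul_of_nonneg_right ?_ (by positivity)
      rw [he]; split_ifs
      · exact le_rfl
      · exact hd0 S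
  · intro z hz hne
    refine ge_of_tendsto ((Complex.continuous_im.tendsto _).comp (hlim z hne)) ?_
    filter_upwards [self_mem_nhdsWithin] with ε hε using hgi ε hε z hz
  · intro z w hz hw hnz hnw
    have l1 := ((Complex.continuous_normSq.tendsto _).comp
      ((hlim z hnz).sub (hlim w hnw))).mul_const (z.im * w.im)
    have l2 := (((Complex.continuous_im.tendsto _).comp (hlim z hnz)).mul
      ((Complex.continuous_im.tendsto _).comp (hlim w hnw))).const_mul (normSq (z - w))
    refine le_of_tendsto_of_tendsto l1 l2 ?_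
    filter_upwards [self_mem_nhdsWithin] with ε hε
    exact schwarz_pick (hgd ε hε) (hgi ε hε) hz hw

end Multi

end Crest.Agent.R168
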