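import Mathlib
import Crest.Agent.R168.StableSum
import Crest.Prelude.Def_StronglyRayleigh

/-!
Exponential tilts of a law on binary configurations by finitely supported fields, and the
covariance inequalities (`Good`) that hold for strongly Rayleigh laws.
-/

set_option autoImplicit false

namespace Crest.Agent.R168

open MeasureTheory Filter Topology Set

variable {I : Type*}

/-- the cylinder "occupied exactly at `S` within `F`" -/
def cyl (F S : Finset I) : Set (I → Bool) := {ω | ∀ i ∈ F, (ω i = true ↔ i ∈ S)}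

open Classical in
/-- indicator configuration of a finite set -/
noncomputable def indS (S : Finset I) : I → Bool := fun j => decide (j ∈ S)

lemma indS_eq_true {S : Finset I} {j : I} : indS S j = true ↔ j ∈ S := by simp [indS]

lemma measurableSet_cyl (F S : Finset I) : MeasurableSet (cyl F S) := by
  have : cyl F S = ⋂ i ∈ F, (fun ω : I → Bool => ω i) ⁻¹' {b | b = true ↔ i ∈ S} := by
    ext ω; simp [cyl]
  rw [this]
  exact Finset.measurableSet_biInter F fun i _ =>
    (measurable_pi_apply i) (MeasurableSet.of_discrete)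

lemma isClopen_cyl (F S : Finset I) : IsClopen (cyl F S) := by
  have : cyl F S = ⋂ i ∈ F, (fun ω : I → Bool => ω i) ⁻¹' {b | b = true ↔ i ∈ S} := by
    ext ω; simp [cyl]
  rw [this]
  exact isClopen_biInter_finset fun i _ =>
    (isClopen_discrete _).preimage (continuous_apply i)

lemma eq_sum_indicator {E : Type*} [AddCommMonoid E] {F : Finset I} {f : (I → Bool) → E}
    (hf : DependsOn f (F : Set I)) (σ : I → Bool) :
    f σ = ∑ S ∈ F.powerset, (cyl F S).indicator (fun _ => f (indS S)) σ := by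
  classical
  rw [Finset.sum_eq_single (F.filter fun j => σ j = true)]
  · rw [indicator_of_mem]
    · apply hf
      intro j hj
      have hj' : j ∈ F := hj
      rw [Bool.eq_iff_iff, indS_eq_true]
      simp [hj']
    · intro j hj; simp [hj]
  · intro S hS hne
    rw [indicator_of_notMem]
    intro h
    apply hne
    ext j
    rw [Finset.mem_filter]
    constructor
    · intro hj
      have hjF := Finset.mem_powerset.mp hS hj
      exact ⟨hjF, (h j hjF).mpr hj⟩
    · rintro ⟨h1, h2⟩
      exact (h j h1).mp h2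
  · intro h
    exact absurd (Finset.mem_powerset.mpr (Finset.filter_subset _ _)) h

lemma integrable_of_dep {E : Type*} [NormedAddCommGroup E] {F : Finset I} {f : (I → Bool) → E}
    (hf : DependsOn f (F : Set I)) (ν : Measure (I → Bool)) [IsFiniteMeasure ν] :
    Integrable f ν := by
  have : f = fun σ => ∑ S ∈ F.powerset, (cyl F S).indicator (fun _ => f (indS S)) σ :=
    funext (eq_sum_indicator hf)
  rw [this]
  exact integrable_finsetSum _ fun S _ => (integrable_const _).indicator (measurableSet_cyl F S)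

lemma integral_eq_sum_cyl {E : Type*} [NormedAddCommGroup E] [NormedSpace ℝ E] [CompleteSpace E]
    {F : Finset I} {f : (I → Bool) → E}
    (hf : DependsOn f (F : Set I)) (ν : Measure (I → Bool)) [IsFiniteMeasure ν] :
    ∫ σ, f σ ∂ν = ∑ S ∈ F.powerset, ν.real (cyl F S) • f (indS S) := by
  have : f = fun σ => ∑ S ∈ F.powerset, (cyl F S).indicator (fun _ => f (indS S)) σ :=
    funext (eq_sum_indicator hf)
  conv_lhs => rw [this]
  rw [integral_finsetSum _ fun S _ => (integrable_const _).indicator (measurableSet_cyl F S)]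
  refine Finset.sum_congr rfl fun S _ => ?_
  rw [integral_indicator_const _ (measurableSet_cyl F S)]

/-- occupation variable -/
def ind (i : I) (σ : I → Bool) : ℝ := if σ i then 1 else 0

/-- number of occupied sites in `G` -/
noncomputable def cnt (G : Finset I) (σ : I → Bool) : ℝ := ∑ j ∈ G, ind j σ

/-- the weight of the field `θ` on `F` -/
noncomputable def wt (F : Finset I) (θ : I → ℝ) (σ : I → Bool) : ℝ :=
  ∏ j ∈ F, if σ j then Real.exp (θ j) else 1

/-- unnormalised tilted expectation -/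
noncomputable def Zf (ν : Measure (I → Bool)) (F : Finset I) (θ : I → ℝ)
    (f : (I → Bool) → ℝ) : ℝ := ∫ σ, f σ * wt F θ σ ∂ν

/-- tilted expectation -/
noncomputable def Ex (ν : Measure (I → Bool)) (F : Finset I) (θ : I → ℝ)
    (f : (I → Bool) → ℝ) : ℝ := Zf ν F θ f / Zf ν F θ (fun _ => 1)

/-- tilted occupation probability -/
noncomputable def occ (ν : Measure (I → Bool)) (F : Finset I) (θ : I → ℝ) (i : I) : ℝ :=
  Ex ν F θ (ind i)

/-- minus the tilted covariance of the occupation of `i` with the number of points in `G` -/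
noncomputable def Cv (ν : Measure (I → Bool)) (F : Finset I) (θ : I → ℝ) (i : I)
    (G : Finset I) : ℝ :=
  Ex ν F θ (ind i) * Ex ν F θ (cnt G) - Ex ν F θ (fun σ => ind i σ * cnt G σ)

open Classical in
/-- add `δ` to the field on `G` -/
noncomputable def shift (θ : I → ℝ) (G : Finset I) (δ : ℝ) : I → ℝ :=
  fun j => if j ∈ G then θ j + δ else θ j

open Classical in
/-- restriction of a field -/
noncomputable def rest (θ : I → ℝ) (F : Finset I) : I → ℝ := fun j => if j ∈ F then θ j else 0

/-- the Harnack constant -/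
noncomputable def hk (δ : ℝ) : ℝ := (Real.exp δ - 1) ^ 2 / Real.exp δ

/-- The covariance inequalities. -/
structure Good (ν : Measure (I → Bool)) : Prop where
  nonneg : ∀ (F : Finset I) (θ : I → ℝ) (i : I) (G : Finset I), G ⊆ F → i ∉ G → 0 ≤ Cv ν F θ i G
  le_one : ∀ (F : Finset I) (θ : I → ℝ) (i : I) (G : Finset I), G ⊆ F → i ∉ G → Cv ν F θ i G ≤ 1
  harnack : ∀ (F : Finset I) (θ : I → ℝ) (i : I) (G : Finset I) (δ : ℝ), G ⊆ F → i ∉ G →
    (occ ν F (shift θ G δ) i - occ ν F θ i) ^ 2 ≤ Cv ν F θ i G * hk δ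

lemma ind_nonneg (i : I) (σ : I → Bool) : 0 ≤ ind i σ := by unfold ind; split_ifs <;> simp

lemma ind_le_one (i : I) (σ : I → Bool) : ind i σ ≤ 1 := by unfold ind; split_ifs <;> simp

lemma wt_pos (F : Finset I) (θ : I → ℝ) (σ : I → Bool) : 0 < wt F θ σ :=
  Finset.prod_pos fun j _ => by split_ifs; exacts [Real.exp_pos _, one_pos]

lemma dep_wt {F F' : Finset I} (h : F ⊆ F') (θ : I → ℝ) : DependsOn (wt F θ) (F' : Set I) := by
  intro σ σ' hσ
  exact Finset.prod_congr rfl fun j hj => by rw [hσ j (h hj)]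

lemma dep_ind {F : Finset I} {i : I} (h : i ∈ F) : DependsOn (ind i) (F : Set I) := by
  intro σ σ' hσ
  simp only [ind, hσ i h]

lemma dep_cnt {F G : Finset I} (h : G ⊆ F) : DependsOn (cnt G) (F : Set I) := by
  intro σ σ' hσ
  exact Finset.sum_congr rfl fun j hj => dep_ind (h hj) hσ

lemma dep_const {F : Finset I} (c : ℝ) : DependsOn (fun _ : I → Bool => c) (F : Set I) :=
  fun _ _ _ => rfl

lemma dep_mul {F : Finset I} {f g : (I → Bool) → ℝ} (hf : DependsOn f (F : Set I))
    (hg : DependsOn g (F : Set I)) : DependsOn (fun σ => f σ * g σ) (F : Set I) := by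
  intro σ σ' hσ
  simp only [hf hσ, hg hσ]

lemma wt_congr {F : Finset I} {θ θ' : I → ℝ} (h : ∀ j ∈ F, θ j = θ' j) : wt F θ = wt F θ' := by
  funext σ
  exact Finset.prod_congr rfl fun j hj => by rw [h j hj]

lemma wt_rest {F F' : Finset I} (h : F ⊆ F') (θ : I → ℝ) : wt F' (rest θ F) = wt F θ := by
  classical
  funext σ
  unfold wt
  symm
  refine Finset.prod_subset_one_on_sdiff h ?_ ?_
  · intro j hj
    have : j ∉ F := (Finset.mem_sdiff.mp hj).2
    simp [rest, this]
  · intro j hj
    simp [rest, hj]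

lemma Ex_congr (ν : Measure (I → Bool)) {F : Finset I} {θ θ' : I → ℝ} (h : ∀ j ∈ F, θ j = θ' j)
    (f : (I → Bool) → ℝ) : Ex ν F θ f = Ex ν F θ' f := by
  simp only [Ex, Zf, wt_congr h]

lemma Ex_rest (ν : Measure (I → Bool)) {F F' : Finset I} (h : F ⊆ F') (θ : I → ℝ)
    (f : (I → Bool) → ℝ) : Ex ν F' (rest θ F) f = Ex ν F θ f := by
  simp only [Ex, Zf, wt_rest h]

lemma occ_congr (ν : Measure (I → Bool)) {F : Finset I} {θ θ' : I → ℝ} (h : ∀ j ∈ F, θ j = θ' j)
    (i : I) : occ ν F θ i = occ ν F θ' i := Ex_congr ν h _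

lemma occ_rest (ν : Measure (I → Bool)) {F F' : Finset I} (h : F ⊆ F') (θ : I → ℝ)
    (i : I) : occ ν F' (rest θ F) i = occ ν F θ i := Ex_rest ν h θ _

lemma Cv_rest (ν : Measure (I → Bool)) {F F' : Finset I} (h : F ⊆ F') (θ : I → ℝ)
    (i : I) (G : Finset I) : Cv ν F' (rest θ F) i G = Cv ν F θ i G := by
  simp only [Cv, Ex_rest ν h]

lemma Cv_congr (ν : Measure (I → Bool)) {F : Finset I} {θ θ' : I → ℝ} (h : ∀ j ∈ F, θ j = θ' j)
    (i : I) (G : Finset I) : Cv ν F θ i G = Cv ν F θ' i G := by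
  simp only [Cv, Ex_congr ν h]

lemma Zf_eq_sum (ν : Measure (I → Bool)) [IsFiniteMeasure ν] {F F' : Finset I} (h : F ⊆ F')
    (θ : I → ℝ) {f : (I → Bool) → ℝ} (hf : DependsOn f (F' : Set I)) :
    Zf ν F θ f = ∑ S ∈ F'.powerset, ν.real (cyl F' S) * (f (indS S) * wt F θ (indS S)) := by
  unfold Zf
  rw [integral_eq_sum_cyl (dep_mul hf (dep_wt h θ))]
  rfl

lemma Zf_one_pos (ν : Measure (I → Bool)) [IsProbabilityMeasure ν] (F : Finset I) (θ : I → ℝ) :
    0 < Zf ν F θ (fun _ => 1) := by
  unfold Zf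
  rw [integral_pos_iff_support_of_nonneg]
  · have : (Function.support fun σ => 1 * wt F θ σ) = univ := by
      ext σ; simp [(wt_pos F θ σ).ne']
    rw [this]; simp
  · intro σ; simp [(wt_pos F θ σ).le]
  · exact integrable_of_dep (dep_mul (dep_const 1) (dep_wt (subset_refl F) θ)) ν

lemma wt_indS_shift [DecidableEq I] {F G S : Finset I} (hS : S ⊆ F) (θ : I → ℝ)
    (δ : ℝ) : wt F (shift θ G δ) (indS S) =
      (∏ j ∈ S, Real.exp (θ j)) * Real.exp δ ^ (S.filter (· ∈ G)).card := by
  unfold wt
  have h1 : ∀ j, (if indS S j = true then Real.exp (shift θ G δ j) else 1) =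
      if j ∈ S then Real.exp (θ j) * (if j ∈ G then Real.exp δ else 1) else 1 := by
    intro j
    by_cases h : j ∈ S <;> by_cases h' : j ∈ G <;> simp [indS_eq_true, h, h', shift, Real.exp_add]
  simp only [h1]
  rw [Finset.prod_ite_mem, Finset.inter_eq_right.mpr hS, Finset.prod_mul_distrib, Finset.prod_ite]
  simp

lemma cnt_indS [DecidableEq I] (G S : Finset I) :
    cnt G (indS S) = (S.filter (· ∈ G)).card := by
  unfold cnt ind
  simp only [indS_eq_true]
  rw [Finset.sum_ite, Finset.sum_const, Finset.sum_const_zero]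
  simp only [nsmul_eq_mul, mul_one, add_zero, Nat.cast_inj]
  congr 1
  ext j; simp [and_comm]

lemma shift_zero (θ : I → ℝ) (G : Finset I) : shift θ G 0 = θ := by
  funext j; simp [shift]

lemma hk_nonneg (δ : ℝ) : 0 ≤ hk δ := by unfold hk; positivity

open Crest.ProbabilityR.StronglyRayleigh in
/-- A law whose generating polynomials are stable for cofinally many finite sets is `Good`. -/
theorem good_of_stable (ν : Measure (I → Bool)) [IsProbabilityMeasure ν]
    (h : ∀ F₀ : Finset I, ∃ F : Finset I, F₀ ⊆ F ∧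
      ∀ z : I → ℂ, (∀ j ∈ F, 0 < (z j).im) → genPoly ν F z ≠ 0) : Good ν := by
  classical
  have main : ∀ (F : Finset I) (θ : I → ℝ) (i : I) (G : Finset I), G ⊆ F → i ∉ G →
      (∀ δ, 0 ≤ Cv ν F (shift θ G δ) i G) ∧ (∀ δ, Cv ν F (shift θ G δ) i G ≤ 1) ∧
      ∀ δ, (occ ν F (shift θ G δ) i - occ ν F (shift θ G 0) i) ^ 2 ≤
        Cv ν F (shift θ G 0) i G * Cv ν F (shift θ G δ) i G * hk δ := by
    intro F θ i G hG hi
    obtain ⟨F', hF', hst⟩ := h (insert i F)
    have hiF : i ∈ F' := hF' (Finset.mem_insert_self _ _)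
    have hFF : F ⊆ F' := (Finset.subset_insert _ _).trans hF'
    have hGF : G ⊆ F' := hG.trans hFF
    set θ' := rest θ F with hθ'
    let p : Finset I → ℝ := fun S => ν.real (cyl F' S)
    let x : I → ℝ := fun j => Real.exp (θ' j)
    let d : Finset I → ℝ := fun S => p S * ∏ j ∈ S, x j
    let e : Finset I → ℝ := fun S => if i ∈ S then d S else 0
    let n : Finset I → ℕ := fun S => (S.filter (· ∈ G)).card
    have hsh : ∀ δ, wt F (shift θ G δ) = wt F' (shift θ' G δ) := by
      intro δ
      rw [← wt_rest hFF]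
      apply wt_congr
      intro j _
      by_cases h1 : j ∈ G
      · simp [shift, rest, h1, hG h1, hθ']
      · simp [shift, rest, h1, hθ']
    have hZ : ∀ δ (f : (I → Bool) → ℝ), DependsOn f (F' : Set I) →
        Zf ν F (shift θ G δ) f =
          rp F'.powerset (fun S => d S * f (indS S)) n (Real.exp δ) := by
      intro δ f hf
      have : Zf ν F (shift θ G δ) f = Zf ν F' (shift θ' G δ) f := by simp only [Zf, hsh]
      rw [this, Zf_eq_sum ν (subset_refl F') _ hf]
      refine Finset.sum_congr rfl fun S hS => ?_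
      rw [wt_indS_shift (Finset.mem_powerset.mp hS)]
      simp only [d, p, x, n]; ring
    have hZ1 : ∀ δ, Zf ν F (shift θ G δ) (fun _ => 1) = rp F'.powerset d n (Real.exp δ) := by
      intro δ; rw [hZ δ _ (dep_const 1)]; simp
    have hie : ∀ S, d S * ind i (indS S) = e S := by
      intro S
      by_cases h1 : i ∈ S <;> simp [e, ind, indS_eq_true, h1]
    have hZ2 : ∀ δ, Zf ν F (shift θ G δ) (ind i) = rp F'.powerset e n (Real.exp δ) := by
      intro δ; rw [hZ δ _ (dep_ind hiF)]; simp only [hie]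
    have hZ3 : ∀ δ, Zf ν F (shift θ G δ) (cnt G) =
        rp F'.powerset (fun S => d S * n S) n (Real.exp δ) := by
      intro δ; rw [hZ δ _ (dep_cnt hGF)]; simp only [cnt_indS, n]
    have hZ4 : ∀ δ, Zf ν F (shift θ G δ) (fun σ => ind i σ * cnt G σ) =
        rp F'.powerset (fun S => e S * n S) n (Real.exp δ) := by
      intro δ; rw [hZ δ _ (dep_mul (dep_ind hiF) (dep_cnt hGF))]
      simp only [cnt_indS, ← mul_assoc, hie, n]
    have hpos : ∃ S ∈ F'.powerset, 0 < p S := by
      by_contra hcon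
      push Not at hcon
      have h1 := Zf_one_pos ν F' θ
      rw [Zf_eq_sum ν (subset_refl F') _ (dep_const 1)] at h1
      refine absurd h1 (not_lt.mpr (Finset.sum_nonpos fun S hS => ?_))
      exact mul_nonpos_of_nonpos_of_nonneg (hcon S hS) (by simp [(wt_pos F' θ _).le])
    obtain ⟨h1, h2, h3⟩ := block_ineqs (F := F') (p := p) (fun S => measureReal_nonneg) hpos
      (fun z hz => hst z hz) hiF hi (x := x) (fun j => Real.exp_pos _) d e n (fun _ => rfl)
      (fun _ => rfl) (fun _ => rfl) _ (fun _ => rfl)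
    have hC : ∀ δ, Cv ν F (shift θ G δ) i G = rp F'.powerset e n (Real.exp δ) /
        rp F'.powerset d n (Real.exp δ) * (rp F'.powerset (fun S => d S * n S) n (Real.exp δ) /
        rp F'.powerset d n (Real.exp δ)) - rp F'.powerset (fun S => e S * n S) n (Real.exp δ) /
        rp F'.powerset d n (Real.exp δ) := by
      intro δ; simp only [Cv, Ex, hZ1, hZ2, hZ3, hZ4]
    have hO : ∀ δ, occ ν F (shift θ G δ) i =
        rp F'.powerset e n (Real.exp δ) / rp F'.powerset d n (Real.exp δ) := by
      intro δ; simp only [occ, Ex, hZ1, hZ2]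
    refine ⟨fun δ => ?_, fun δ => ?_, fun δ => ?_⟩
    · rw [hC]; exact h1 _ (Real.exp_pos δ)
    · rw [hC]; exact h2 _ (Real.exp_pos δ)
    · rw [hC, hC, hO, hO]
      refine (h3 _ _ (Real.exp_pos δ) (Real.exp_pos 0)).trans_eq ?_
      simp only [hk, Real.exp_zero]
      ring
  refine ⟨fun F θ i G hG hi => ?_, fun F θ i G hG hi => ?_, fun F θ i G δ hG hi => ?_⟩
  · simpa [shift_zero] using (main F θ i G hG hi).1 0
  · simpa [shift_zero] using (main F θ i G hG hi).2.1 0
  · obtain ⟨h1, h2, h3⟩ := main F θ i G hG hi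
    have h4 := h3 δ
    have h5 := h1 0
    rw [shift_zero] at h4 h5
    refine h4.trans ?_
    apply mul_le_mul_of_nonneg_right _ (hk_nonneg δ)
    exact mul_le_of_le_one_right h5 (h2 δ)

/-- Tilted expectations of local observables are continuous along convergence of cylinder
probabilities. -/
lemma tendsto_Ex {α : Type*} {l : Filter α} {νs : α → Measure (I → Bool)}
    [∀ a, IsProbabilityMeasure (νs a)] {ν : Measure (I → Bool)} [IsProbabilityMeasure ν]
    (h : ∀ F S : Finset I, Tendsto (fun a => (νs a).real (cyl F S)) l (𝓝 (ν.real (cyl F S))))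
    {F F' : Finset I} (hF : F ⊆ F') (θ : I → ℝ) {f : (I → Bool) → ℝ}
    (hf : DependsOn f (F' : Set I)) :
    Tendsto (fun a => Ex (νs a) F θ f) l (𝓝 (Ex ν F θ f)) := by
  have hZ : ∀ {f : (I → Bool) → ℝ}, DependsOn f (F' : Set I) →
      Tendsto (fun a => Zf (νs a) F θ f) l (𝓝 (Zf ν F θ f)) := by
    intro f hf
    simp only [Zf_eq_sum _ hF θ hf]
    exact tendsto_finsetSum _ fun S _ => (h F' S).mul_const _
  exact (hZ hf).div (hZ (dep_const 1)) (Zf_one_pos ν F θ).ne'

/-- `Good` is closed under convergence of cylinder probabilities. -/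
theorem Good.of_tendsto {α : Type*} {l : Filter α} [l.NeBot] {νs : α → Measure (I → Bool)}
    [∀ a, IsProbabilityMeasure (νs a)] {ν : Measure (I → Bool)} [IsProbabilityMeasure ν]
    (h : ∀ F S : Finset I, Tendsto (fun a => (νs a).real (cyl F S)) l (𝓝 (ν.real (cyl F S))))
    (hg : ∀ᶠ a in l, Good (νs a)) : Good ν := by
  classical
  have hO : ∀ (F : Finset I) θ i, Tendsto (fun a => occ (νs a) F θ i) l (𝓝 (occ ν F θ i)) :=
    fun F θ i => tendsto_Ex h (Finset.subset_insert i F) θ (dep_ind (Finset.mem_insert_self _ _))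
  have hC : ∀ (F : Finset I) θ i G, G ⊆ F →
      Tendsto (fun a => Cv (νs a) F θ i G) l (𝓝 (Cv ν F θ i G)) := by
    intro F θ i G hG
    have h1 := dep_ind (Finset.mem_insert_self i F)
    have h2 := dep_cnt (hG.trans (Finset.subset_insert i F))
    exact ((tendsto_Ex h (Finset.subset_insert i F) θ h1).mul
      (tendsto_Ex h (Finset.subset_insert i F) θ h2)).sub
      (tendsto_Ex h (Finset.subset_insert i F) θ (dep_mul h1 h2))
  refine ⟨fun F θ i G hG hi => ?_, fun F θ i G hG hi => ?_, fun F θ i G δ hG hi => ?_⟩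
  · exact ge_of_tendsto (hC F θ i G hG) (hg.mono fun a ha => ha.nonneg F θ i G hG hi)
  · exact le_of_tendsto (hC F θ i G hG) (hg.mono fun a ha => ha.le_one F θ i G hG hi)
  · exact le_of_tendsto_of_tendsto (((hO F _ i).sub (hO F θ i)).pow 2)
      ((hC F θ i G hG).mul_const _) (hg.mono fun a ha => ha.harnack F θ i G δ hG hi)

end Crest.Agent.R168
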