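import Mathlib
import Crest.Agent.R168.Tilt

/-!
For a `Good` law the tilted occupation probabilities are monotone, Lipschitz in the sup norm, and
have an infinite-volume limit for bounded fields which is continuous in the product topology.
-/

set_option autoImplicit false

namespace Crest.Agent.R168

open MeasureTheory Filter Topology Set

variable {I : Type*} {ν : Measure (I → Bool)}

lemma integrable_mul_wt [IsFiniteMeasure ν] {F F' : Finset I} {f : (I → Bool) → ℝ}
    (hf : DependsOn f (F' : Set I)) (θ : I → ℝ) : Integrable (fun σ => f σ * wt F θ σ) ν := by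
  classical
  exact integrable_of_dep (F := F ∪ F') (dep_mul (hf.mono (by simp))
    (dep_wt Finset.subset_union_left θ)) ν

lemma Zf_nonneg (F : Finset I) (θ : I → ℝ) {f : (I → Bool) → ℝ} (hf : ∀ σ, 0 ≤ f σ) :
    0 ≤ Zf ν F θ f :=
  integral_nonneg fun σ => mul_nonneg (hf σ) (wt_pos F θ σ).le

lemma Ex_nonneg (F : Finset I) (θ : I → ℝ) {f : (I → Bool) → ℝ} (hf : ∀ σ, 0 ≤ f σ) :
    0 ≤ Ex ν F θ f := div_nonneg (Zf_nonneg F θ hf) (Zf_nonneg F θ fun _ => zero_le_one)

lemma occ_nonneg (F : Finset I) (θ : I → ℝ) (i : I) : 0 ≤ occ ν F θ i :=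
  Ex_nonneg F θ (ind_nonneg i)

lemma occ_le_one [IsFiniteMeasure ν] (F : Finset I) (θ : I → ℝ) (i : I) : occ ν F θ i ≤ 1 := by
  apply div_le_one_of_le₀ _ (Zf_nonneg F θ fun _ => zero_le_one)
  apply integral_mono (integrable_mul_wt (dep_ind (Finset.mem_singleton_self i)) θ)
    (integrable_mul_wt (dep_const (F := ∅) 1) θ)
  intro σ
  exact mul_le_mul_of_nonneg_right (ind_le_one i σ) (wt_pos F θ σ).le

lemma wt_shift_single {F : Finset I} {j : I} (hj : j ∈ F) (θ : I → ℝ) (δ : ℝ) (σ : I → Bool) :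
    wt F (shift θ {j} δ) σ = wt F θ σ * (1 + (Real.exp δ - 1) * ind j σ) := by
  classical
  unfold wt
  rw [← Finset.mul_prod_erase F _ hj, ← Finset.mul_prod_erase F _ hj]
  have : ∏ k ∈ F.erase j, (if σ k = true then Real.exp (shift θ {j} δ k) else 1) =
      ∏ k ∈ F.erase j, (if σ k = true then Real.exp (θ k) else 1) := by
    refine Finset.prod_congr rfl fun k hk => ?_
    simp [shift, Finset.ne_of_mem_erase hk]
  rw [this]
  by_cases h : σ j = true
  · simp [h, shift, ind, Real.exp_add]; ring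
  · simp [h, ind]

lemma Zf_shift_single [IsFiniteMeasure ν] {F F' : Finset I} {j : I} (hj : j ∈ F) (θ : I → ℝ)
    (δ : ℝ) {f : (I → Bool) → ℝ} (hf : DependsOn f (F' : Set I)) :
    Zf ν F (shift θ {j} δ) f =
      Zf ν F θ f + (Real.exp δ - 1) * Zf ν F θ (fun σ => f σ * ind j σ) := by
  classical
  unfold Zf
  have h2 : DependsOn (fun σ => f σ * ind j σ) ((insert j F' : Finset I) : Set I) :=
    dep_mul (hf.mono (by simp)) (dep_ind (Finset.mem_insert_self _ _))
  rw [← integral_const_mul, ← integral_add (integrable_mul_wt hf θ)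
    ((integrable_mul_wt h2 θ).const_mul _)]
  refine integral_congr_ae (Eventually.of_forall fun σ => ?_)
  simp only [wt_shift_single hj]
  ring

lemma Ex_shift_single [IsProbabilityMeasure ν] {F F' : Finset I} {j : I} (hj : j ∈ F) (θ : I → ℝ)
    (δ : ℝ) {f : (I → Bool) → ℝ} (hf : DependsOn f (F' : Set I)) :
    Ex ν F (shift θ {j} δ) f =
      (Ex ν F θ f + (Real.exp δ - 1) * Ex ν F θ (fun σ => f σ * ind j σ)) /
        (1 + (Real.exp δ - 1) * occ ν F θ j) := by
  have hZ := (Zf_one_pos ν F θ).ne'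
  simp only [occ, Ex]
  rw [Zf_shift_single hj θ δ hf, Zf_shift_single hj θ δ (dep_const (F := ∅) 1)]
  simp only [one_mul]
  field_simp

lemma one_add_pos' {p δ : ℝ} (h0 : 0 ≤ p) (h1 : p ≤ 1) : 0 < 1 + (Real.exp δ - 1) * p := by
  have := Real.exp_pos δ
  rcases h1.lt_or_eq with h | h
  · nlinarith
  · rw [h]; linarith

lemma cnt_singleton (j : I) : cnt {j} = ind j := by
  funext σ; simp [cnt]

lemma Good.mono_single [IsProbabilityMeasure ν] (hg : Good ν) {F : Finset I} {i j : I}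
    (hj : j ∈ F) (hij : i ≠ j) (θ : I → ℝ) {δ : ℝ} (hδ : 0 ≤ δ) :
    occ ν F (shift θ {j} δ) i ≤ occ ν F θ i := by
  have h := hg.nonneg F θ i {j} (by simpa using hj) (by simpa using hij)
  simp only [Cv, cnt_singleton] at h
  have e := Ex_shift_single (ν := ν) hj θ δ (dep_ind (Finset.mem_singleton_self i))
  have h1 : 0 ≤ Real.exp δ - 1 := by linarith [Real.one_le_exp hδ]
  change Ex ν F (shift θ {j} δ) (ind i) ≤ Ex ν F θ (ind i)
  rw [e, div_le_iff₀ (one_add_pos' (occ_nonneg F θ j) (occ_le_one F θ j))]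
  simp only [occ]
  nlinarith [mul_nonneg h1 h]

lemma Good.mono [IsProbabilityMeasure ν] (hg : Good ν) {F : Finset I} {i : I}
    {θ θ' : I → ℝ} (h : ∀ j ∈ F, θ j ≤ θ' j) (hi : θ i = θ' i) :
    occ ν F θ' i ≤ occ ν F θ i := by
  classical
  have key : ∀ G : Finset I, G ⊆ F →
      occ ν F (fun j => if j ∈ G then θ' j else θ j) i ≤ occ ν F θ i := by
    intro G
    induction G using Finset.induction_on with
    | empty => intro _; simp
    | insert k G hk ih =>
      intro hG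
      have hkF : k ∈ F := hG (Finset.mem_insert_self _ _)
      refine le_trans ?_ (ih ((Finset.subset_insert _ _).trans hG))
      have e : (fun j => if j ∈ insert k G then θ' j else θ j) =
          shift (fun j => if j ∈ G then θ' j else θ j) {k} (θ' k - θ k) := by
        funext j
        by_cases hjk : j = k
        · subst hjk; simp [shift, hk]
        · simp [shift, hjk]
      rw [e]
      by_cases hik : i = k
      · subst hik
        rw [hi, sub_self, shift_zero]
      · exact hg.mono_single hkF hik _ (sub_nonneg.mpr (h k hkF))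
  have := key F (subset_refl F)
  rwa [occ_congr ν (θ' := θ') (fun j hj => by simp [hj])] at this

lemma hk_neg (δ : ℝ) : hk (-δ) = hk δ := by
  unfold hk
  rw [Real.exp_neg]
  have := (Real.exp_pos δ).ne'
  field_simp
  ring

lemma abs_le_of_sq_le_hk {x δ : ℝ} (h1 : |x| ≤ 1) (h2 : x ^ 2 ≤ hk δ) : |x| ≤ 2 * |δ| := by
  by_cases h : 1 ≤ |δ|
  · linarith
  · push Not at h
    have e : hk δ = (Real.exp δ - 1 - δ) + (Real.exp (-δ) - 1 - (-δ)) := by
      unfold hk
      rw [Real.exp_neg]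
      have := (Real.exp_pos δ).ne'
      field_simp
      ring
    have a1 := Real.abs_exp_sub_one_sub_id_le h.le
    have a2 := Real.abs_exp_sub_one_sub_id_le (x := -δ) (by rw [abs_neg]; exact h.le)
    have a3 := le_abs_self (Real.exp δ - 1 - δ)
    have a4 := le_abs_self (Real.exp (-δ) - 1 - (-δ))
    have h3 : x ^ 2 ≤ (2 * |δ|) ^ 2 := by
      rw [mul_pow, sq_abs]
      nlinarith [sq_nonneg δ]
    exact abs_le_of_sq_le_sq' h3 (by positivity) |> abs_le.mpr

lemma abs_occ_sub_le_one [IsFiniteMeasure ν] (F F' : Finset I) (θ θ' : I → ℝ) (i : I) :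
    |occ ν F θ i - occ ν F' θ' i| ≤ 1 := by
  rw [abs_le]
  constructor <;>
    linarith [occ_nonneg (ν := ν) F θ i, occ_le_one (ν := ν) F θ i, occ_nonneg (ν := ν) F' θ' i,
      occ_le_one (ν := ν) F' θ' i]

lemma occ_own [IsProbabilityMeasure ν] {F : Finset I} {i : I} (hi : i ∈ F) (θ : I → ℝ) (δ : ℝ) :
    |occ ν F (shift θ {i} δ) i - occ ν F θ i| ≤ 2 * |δ| := by
  apply abs_le_of_sq_le_hk (abs_occ_sub_le_one _ _ _ _ _)
  have e := Ex_shift_single (ν := ν) hi θ δ (dep_ind (Finset.mem_singleton_self i))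
  have e2 : (fun σ => ind i σ * ind i σ) = ind i := by
    funext σ; unfold ind; split_ifs <;> simp
  rw [e2] at e
  change occ ν F (shift θ {i} δ) i = (occ ν F θ i + (Real.exp δ - 1) * occ ν F θ i) /
    (1 + (Real.exp δ - 1) * occ ν F θ i) at e
  rw [e]
  have h0 := occ_nonneg (ν := ν) F θ i
  have h1 := occ_le_one (ν := ν) F θ i
  set p := occ ν F θ i
  have hpos := one_add_pos' (δ := δ) h0 h1
  have hE := Real.exp_pos δ
  set E := Real.exp δ with hEdef
  have e3 : (p + (E - 1) * p) / (1 + (E - 1) * p) - p =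
      (E - 1) * (p * (1 - p)) / (1 + (E - 1) * p) := by
    rw [div_sub' hpos.ne']; congr 1; ring
  rw [e3, div_pow, hk, ← hEdef, div_le_div_iff₀ (by positivity) hE, mul_pow, mul_assoc]
  apply mul_le_mul_of_nonneg_left _ (sq_nonneg _)
  have h2 : 0 ≤ p * (1 - p) := mul_nonneg h0 (by linarith)
  have h3 : p * (1 - p) ≤ 1 := by nlinarith
  have h4 : (p * (1 - p)) ^ 2 ≤ 4 * (p * (1 - p)) := by nlinarith
  have h5 : 4 * (p * (1 - p)) * E ≤ (1 + (E - 1) * p) ^ 2 := by
    nlinarith [sq_nonneg (1 - p - p * E)]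
  nlinarith

/-- Changing the field on a block `G` by at most `M`. -/
lemma Good.sandwich [IsProbabilityMeasure ν] (hg : Good ν) {F G : Finset I} {i : I} (hG : G ⊆ F)
    (hi : i ∉ G) {θ θ' : I → ℝ} {M : ℝ} (h1 : ∀ j ∈ F, j ∉ G → θ' j = θ j) (h1i : θ' i = θ i)
    (h2 : ∀ j ∈ G, |θ' j - θ j| ≤ M) :
    (occ ν F θ' i - occ ν F θ i) ^ 2 ≤ Cv ν F θ i G * hk M := by
  have a1 : occ ν F (shift θ G M) i ≤ occ ν F θ' i := by
    apply hg.mono
    · intro j hj
      by_cases h : j ∈ G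
      · simp only [shift, h, if_true]; linarith [(abs_le.mp (h2 j h)).2]
      · simp [shift, h, h1 j hj h]
    · simp [shift, hi, h1i]
  have a2 : occ ν F θ' i ≤ occ ν F (shift θ G (-M)) i := by
    apply hg.mono
    · intro j hj
      by_cases h : j ∈ G
      · simp only [shift, h, if_true]; linarith [(abs_le.mp (h2 j h)).1]
      · simp [shift, h, h1 j hj h]
    · simp [shift, hi, h1i]
  have b1 := hg.harnack F θ i G M hG hi
  have b2 := hg.harnack F θ i G (-M) hG hi
  rw [hk_neg] at b2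
  rcases le_total (occ ν F θ' i) (occ ν F θ i) with h | h
  · refine le_trans ?_ b1
    nlinarith
  · refine le_trans ?_ b2
    nlinarith

/-- Lipschitz continuity in the sup norm. -/
lemma Good.lipschitz [IsProbabilityMeasure ν] (hg : Good ν) (F : Finset I) (i : I)
    {θ θ' : I → ℝ} {δ : ℝ} (hδ : 0 ≤ δ) (h : ∀ j ∈ F, |θ' j - θ j| ≤ δ) :
    |occ ν F θ' i - occ ν F θ i| ≤ 4 * δ := by
  classical
  wlog hi : i ∈ F generalizing F θ θ'
  · have := this (insert i F) (θ := rest θ F) (θ' := rest θ' F) (fun j _ => by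
      by_cases hj : j ∈ F
      · simpa [rest, hj] using h j hj
      · simpa [rest, hj] using hδ) (Finset.mem_insert_self _ _)
    rwa [occ_rest ν (Finset.subset_insert _ _), occ_rest ν (Finset.subset_insert _ _)] at this
  set θ'' := shift θ' {i} (θ i - θ' i) with hθ''
  have a1 : |occ ν F θ'' i - occ ν F θ' i| ≤ 2 * δ := by
    refine (occ_own hi θ' _).trans ?_
    rw [abs_sub_comm]
    linarith [h i hi]
  have a2 : |occ ν F θ'' i - occ ν F θ i| ≤ 2 * δ := by
    have := hg.sandwich (F := F) (G := F.erase i) (i := i) (Finset.erase_subset _ _)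
      (Finset.notMem_erase _ _) (θ := θ) (θ' := θ'') (M := δ)
      (fun j hj hj' => by
        have : j = i := by
          by_contra hne
          exact hj' (Finset.mem_erase.mpr ⟨hne, hj⟩)
        subst this
        simp [hθ'', shift]) (by simp [hθ'', shift])
      (fun j hj => by
        have := Finset.mem_erase.mp hj
        simpa [hθ'', shift, this.1] using h j this.2)
    have h3 := hg.le_one F θ i (F.erase i) (Finset.erase_subset _ _) (Finset.notMem_erase _ _)
    have h4 : (occ ν F θ'' i - occ ν F θ i) ^ 2 ≤ hk δ :=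
      this.trans (mul_le_of_le_one_left (hk_nonneg δ) h3)
    have := abs_le_of_sq_le_hk (abs_occ_sub_le_one _ _ _ _ _) h4
    rwa [abs_of_nonneg hδ] at this
  rw [abs_le] at a1 a2 ⊢
  constructor <;> linarith [a1.1, a1.2, a2.1, a2.2]

lemma Cv_union [IsFiniteMeasure ν] [DecidableEq I] (F : Finset I) (θ : I → ℝ) (i : I)
    {G₁ G₂ : Finset I} (h : Disjoint G₁ G₂) :
    Cv ν F θ i (G₁ ∪ G₂) = Cv ν F θ i G₁ + Cv ν F θ i G₂ := by
  have hc : ∀ σ, cnt (G₁ ∪ G₂) σ = cnt G₁ σ + cnt G₂ σ := fun σ => Finset.sum_union h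
  have e1 : Zf ν F θ (cnt (G₁ ∪ G₂)) = Zf ν F θ (cnt G₁) + Zf ν F θ (cnt G₂) := by
    unfold Zf
    rw [← integral_add (integrable_mul_wt (dep_cnt (subset_refl _)) θ)
      (integrable_mul_wt (dep_cnt (subset_refl _)) θ)]
    simp only [hc, add_mul]
  have d : ∀ G : Finset I, DependsOn (fun σ => ind i σ * cnt G σ)
      ((insert i G : Finset I) : Set I) := fun G =>
    dep_mul (dep_ind (Finset.mem_insert_self _ _)) (dep_cnt (Finset.subset_insert _ _))
  have e2 : Zf ν F θ (fun σ => ind i σ * cnt (G₁ ∪ G₂) σ) =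
      Zf ν F θ (fun σ => ind i σ * cnt G₁ σ) + Zf ν F θ (fun σ => ind i σ * cnt G₂ σ) := by
    unfold Zf
    rw [← integral_add (integrable_mul_wt (d _) θ) (integrable_mul_wt (d _) θ)]
    simp only [hc, add_mul, mul_add]
  simp only [Cv, Ex, e1, e2]
  ring

lemma Good.nonneg' (hg : Good ν) (F : Finset I) (θ : I → ℝ) {i : I} {G : Finset I} (hi : i ∉ G) :
    0 ≤ Cv ν F θ i G := by
  classical
  rw [← Cv_rest ν (Finset.subset_union_left (s₂ := G))]
  exact hg.nonneg _ _ _ _ Finset.subset_union_right hi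

lemma Good.le_one' (hg : Good ν) (F : Finset I) (θ : I → ℝ) {i : I} {G : Finset I} (hi : i ∉ G) :
    Cv ν F θ i G ≤ 1 := by
  classical
  rw [← Cv_rest ν (Finset.subset_union_left (s₂ := G))]
  exact hg.le_one _ _ _ _ Finset.subset_union_right hi

/-- Far-away bounded fields have little influence when the nearby field is fixed. -/
lemma Good.tail [IsProbabilityMeasure ν] (hg : Good ν) {F₀ : Finset I} {i : I} (hi : i ∈ F₀)
    (ζ : I → ℝ) (M : ℝ) {ε : ℝ} (hε : 0 < ε) :
    ∃ F' : Finset I, F₀ ⊆ F' ∧ ∀ F'' : Finset I, F' ⊆ F'' → ∀ ξ : I → ℝ,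
      (∀ j ∈ F₀, ξ j = ζ j) → (∀ j ∈ F', j ∉ F₀ → ξ j = 0) → (∀ j, j ∉ F₀ → |ξ j| ≤ M) →
      |occ ν F'' ξ i - occ ν F₀ ζ i| ≤ ε := by
  classical
  set κ : ℝ := ε ^ 2 / (hk M + 1) with hκ
  have hκ0 : 0 < κ := by have := hk_nonneg M; positivity
  let T : Set ℝ := {c | ∃ G : Finset I, Disjoint G F₀ ∧ c = Cv ν F₀ ζ i G}
  have hTb : BddAbove T := by
    refine ⟨1, ?_⟩
    rintro c ⟨G, hG, rfl⟩
    exact hg.le_one' _ _ (fun h => Finset.disjoint_left.mp hG h hi)
  have hTn : T.Nonempty := ⟨_, ∅, Finset.disjoint_empty_left _, rfl⟩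
  obtain ⟨c, ⟨G₀, hG₀, rfl⟩, hc⟩ := exists_lt_of_lt_csSup hTn (sub_lt_self (sSup T) hκ0)
  refine ⟨F₀ ∪ G₀, Finset.subset_union_left, fun F'' hF'' ξ h1 h2 h3 => ?_⟩
  set G := F'' \ (F₀ ∪ G₀) with hG
  have hF0 : F₀ ⊆ F'' := Finset.subset_union_left.trans hF''
  have hd1 : Disjoint G F₀ := Finset.disjoint_of_subset_right Finset.subset_union_left
    Finset.sdiff_disjoint
  have hd2 : Disjoint G G₀ := Finset.disjoint_of_subset_right Finset.subset_union_right
    Finset.sdiff_disjoint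
  have hiG : i ∉ G := fun h => Finset.disjoint_left.mp hd1 h hi
  have hsm : Cv ν F₀ ζ i G ≤ κ := by
    have h4 : Cv ν F₀ ζ i (G ∪ G₀) ≤ sSup T :=
      le_csSup hTb ⟨_, Finset.disjoint_union_left.mpr ⟨hd1, hG₀⟩, rfl⟩
    rw [Cv_union _ _ _ hd2] at h4
    linarith
  have := hg.sandwich (F := F'') (G := G) (i := i) Finset.sdiff_subset hiG (θ := rest ζ F₀)
    (θ' := ξ) (M := M) (fun j hj hj' => by
      by_cases h : j ∈ F₀
      · simp [rest, h, h1 j h]
      · have : j ∈ F₀ ∪ G₀ := by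
          by_contra h'
          exact hj' (Finset.mem_sdiff.mpr ⟨hj, h'⟩)
        simp [rest, h, h2 j this h]) (by simp [rest, hi, h1 i hi])
    (fun j hj => by
      have h : j ∉ F₀ := fun h => Finset.disjoint_left.mp hd1 hj h
      simpa [rest, h] using h3 j h)
  rw [occ_rest ν hF0, Cv_rest ν hF0] at this
  have h5 : Cv ν F₀ ζ i G * hk M ≤ ε ^ 2 := by
    have := hk_nonneg M
    calc Cv ν F₀ ζ i G * hk M ≤ κ * (hk M + 1) :=
          mul_le_mul hsm (by linarith) this hκ0.le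
      _ = ε ^ 2 := by rw [hκ]; field_simp
  exact abs_le_of_sq_le_sq' (this.trans h5) hε.le |> abs_le.mpr

/-- The key locality property for bounded fields. -/
theorem Good.local [IsProbabilityMeasure ν] (hg : Good ν) (i : I) {θ : I → ℝ} {M : ℝ}
    (hθ : ∀ j, |θ j| ≤ M) {ε : ℝ} (hε : 0 < ε) :
    ∃ K : Finset I, i ∈ K ∧ ∀ F : Finset I, K ⊆ F → ∀ η : I → ℝ, (∀ j, |η j| ≤ M) →
      (∀ j ∈ K, η j = θ j) → |occ ν F η i - occ ν K θ i| ≤ ε := by
  classical
  by_contra hcon
  push Not at hcon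
  have hM : 0 ≤ M := (abs_nonneg _).trans (hθ i)
  set κ : ℝ := (ε / 4) ^ 2 / (hk (2 * M) + 1) with hκ
  have hκ0 : 0 < κ := by have := hk_nonneg (2 * M); positivity
  have step : ∀ K : Finset I, i ∈ K → ∃ F' : Finset I, K ⊆ F' ∧ ∀ F'' : Finset I, F' ⊆ F'' →
      κ ≤ Cv ν F'' θ i (F' \ K) := by
    intro K hK
    obtain ⟨F, hKF, η, hη1, hη2, hlt⟩ := hcon K hK
    obtain ⟨F₁, hF₁, h₁⟩ := hg.tail (hKF hK) η M (ε := ε / 4) (by positivity)
    obtain ⟨F₂, hF₂, h₂⟩ := hg.tail hK θ M (ε := ε / 4) (by positivity)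
    refine ⟨F₁ ∪ F₂, hF₂.trans Finset.subset_union_right, fun F'' hF'' => ?_⟩
    set F' := F₁ ∪ F₂ with hF'
    let ξ₁ : I → ℝ := fun j => if j ∈ F then η j else if j ∈ F' then 0 else θ j
    let ξ₂ : I → ℝ := fun j => if j ∈ K then θ j else if j ∈ F' then 0 else θ j
    have hFF' : F ⊆ F' := hF₁.trans Finset.subset_union_left
    have a1 := h₁ F'' (Finset.subset_union_left.trans hF'') ξ₁ (fun j hj => by simp [ξ₁, hj])
      (fun j hj hj' => by simp [ξ₁, hj', hF', hj]) (fun j hj => by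
        simp only [ξ₁, hj, if_false]; split_ifs
        · simpa using hM
        · exact hθ j)
    have a2 := h₂ F'' (Finset.subset_union_right.trans hF'') ξ₂ (fun j hj => by simp [ξ₂, hj])
      (fun j hj hj' => by simp [ξ₂, hj', hF', hj]) (fun j hj => by
        simp only [ξ₂, hj, if_false]; split_ifs
        · simpa using hM
        · exact hθ j)
    have hiG : i ∉ F' \ K := fun h => (Finset.mem_sdiff.mp h).2 hK
    have hs : ∀ ξ : I → ℝ, (∀ j, |ξ j| ≤ M) → (∀ j ∈ K, ξ j = θ j) → (∀ j, j ∉ F' → ξ j = θ j) →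
        (occ ν F'' ξ i - occ ν F'' θ i) ^ 2 ≤ Cv ν F'' θ i (F' \ K) * hk (2 * M) := by
      intro ξ b1 b2 b3
      refine hg.sandwich (Finset.sdiff_subset.trans hF'') hiG (fun j _ hj' => ?_) (b2 i hK)
        (fun j _ => ?_)
      · by_cases h : j ∈ K
        · exact b2 j h
        · exact b3 j (fun h' => hj' (Finset.mem_sdiff.mpr ⟨h', h⟩))
      · have := abs_sub (ξ j) (θ j)
        linarith [b1 j, hθ j]
    have c1 := hs ξ₁ (fun j => by
        simp only [ξ₁]; split_ifs
        · exact hη1 j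
        · simpa using hM
        · exact hθ j) (fun j hj => by simp [ξ₁, hKF hj, hη2 j hj])
      (fun j hj => by
        have : j ∉ F := fun h => hj (hFF' h)
        simp [ξ₁, hj, this])
    have c2 := hs ξ₂ (fun j => by
        simp only [ξ₂]; split_ifs
        · exact hθ j
        · simpa using hM
        · exact hθ j) (fun j hj => by simp [ξ₂, hj])
      (fun j hj => by simp [ξ₂, hj])
    by_contra hlt2
    push Not at hlt2
    have hb : Cv ν F'' θ i (F' \ K) * hk (2 * M) ≤ (ε / 4) ^ 2 := by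
      have := hk_nonneg (2 * M)
      calc Cv ν F'' θ i (F' \ K) * hk (2 * M) ≤ κ * (hk (2 * M) + 1) :=
            mul_le_mul hlt2.le (by linarith) this hκ0.le
        _ = (ε / 4) ^ 2 := by rw [hκ]; field_simp
    have d1 := abs_le_of_sq_le_sq' (c1.trans hb) (by positivity)
    have d2 := abs_le_of_sq_le_sq' (c2.trans hb) (by positivity)
    rw [abs_le] at a1 a2
    refine absurd hlt (not_lt.mpr (abs_le.mpr ⟨?_, ?_⟩)) <;>
      linarith [a1.1, a1.2, a2.1, a2.2, d1.1, d1.2, d2.1, d2.2]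
  have iter : ∀ m : ℕ, ∃ K : Finset I, i ∈ K ∧ ∀ F'' : Finset I, K ⊆ F'' →
      m * κ ≤ Cv ν F'' θ i (K.erase i) := by
    intro m
    induction m with
    | zero =>
      exact ⟨{i}, Finset.mem_singleton_self i, fun F'' _ => by
        simpa using hg.nonneg' F'' θ (Finset.notMem_erase i {i})⟩
    | succ m ih =>
      obtain ⟨K, hK, h⟩ := ih
      obtain ⟨F', hF', h'⟩ := step K hK
      refine ⟨F', hF' hK, fun F'' hF'' => ?_⟩
      have e : F'.erase i = K.erase i ∪ (F' \ K) := by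
        ext j
        simp only [Finset.mem_erase, Finset.mem_union, Finset.mem_sdiff]
        constructor
        · rintro ⟨h1, h2⟩
          by_cases h3 : j ∈ K
          · exact Or.inl ⟨h1, h3⟩
          · exact Or.inr ⟨h2, h3⟩
        · rintro (⟨h1, h2⟩ | ⟨h1, h2⟩)
          · exact ⟨h1, hF' h2⟩
          · exact ⟨fun h3 => h2 (h3 ▸ hK), h1⟩
      rw [e, Cv_union _ _ _ (Finset.disjoint_of_subset_left (Finset.erase_subset _ _)
        Finset.disjoint_sdiff)]
      have := h F'' (hF'.trans hF'')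
      have := h' F'' hF''
      push_cast
      linarith
  obtain ⟨m, hm⟩ := exists_nat_gt (1 / κ)
  obtain ⟨K, _, h⟩ := iter m
  have h1 := (h K (subset_refl K)).trans (hg.le_one' K θ (Finset.notMem_erase i K))
  rw [div_lt_iff₀ hκ0] at hm
  linarith

/-- the infinite-volume tilted occupation probability -/
noncomputable def drift (ν : Measure (I → Bool)) (θ : I → ℝ) (i : I) : ℝ :=
  limUnder (atTop : Filter (Finset I)) fun F => occ ν F θ i

lemma Good.tendsto_drift [IsProbabilityMeasure ν] (hg : Good ν) (i : I) {θ : I → ℝ} {M : ℝ}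
    (hθ : ∀ j, |θ j| ≤ M) : Tendsto (fun F => occ ν F θ i) atTop (𝓝 (drift ν θ i)) := by
  classical
  apply CauchySeq.tendsto_limUnder
  rw [Metric.cauchySeq_iff']
  intro ε hε
  obtain ⟨K, _, h⟩ := hg.local i hθ (ε := ε / 2) (by positivity)
  refine ⟨K, fun F hF => ?_⟩
  rw [Real.dist_eq]
  exact (h F hF θ hθ fun _ _ => rfl).trans_lt (by linarith)

/-- continuous convergence of the finite-volume drifts -/
theorem Good.tendsto_drift' [IsProbabilityMeasure ν] (hg : Good ν) (i : I) {α : Type*}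
    {l : Filter α} {Fs : α → Finset I} (hF : Tendsto Fs l atTop) {θs : α → I → ℝ} {θ : I → ℝ}
    {M : ℝ} (hθ : ∀ j, |θ j| ≤ M) (hθs : ∀ a j, |θs a j| ≤ M)
    (ht : ∀ j, Tendsto (fun a => θs a j) l (𝓝 (θ j))) :
    Tendsto (fun a => occ ν (Fs a) (θs a) i) l (𝓝 (drift ν θ i)) := by
  classical
  rw [Metric.tendsto_nhds]
  intro ε hε
  obtain ⟨K, _, h⟩ := hg.local i hθ (ε := ε / 7) (by positivity)
  have h1 : |drift ν θ i - occ ν K θ i| ≤ ε / 7 := by
    refine le_of_tendsto (((hg.tendsto_drift i hθ).sub_const _).abs) ?_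
    filter_upwards [eventually_ge_atTop K] with F hF using h F hF θ hθ fun _ _ => rfl
  have h2 : ∀ᶠ a in l, ∀ j ∈ K, |θs a j - θ j| ≤ ε / 7 := by
    rw [Finset.eventually_all]
    intro j _
    have := Metric.tendsto_nhds.mp (ht j) (ε / 7) (by positivity)
    filter_upwards [this] with a ha
    rw [Real.dist_eq] at ha
    exact ha.le
  filter_upwards [h2, hF.eventually (eventually_ge_atTop K)] with a ha hK
  let η : I → ℝ := fun j => if j ∈ K then θ j else θs a j
  have a1 := h (Fs a) hK η (fun j => by simp only [η]; split_ifs; exacts [hθ j, hθs a j])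
    (fun j hj => by simp [η, hj])
  have a2 := hg.lipschitz (Fs a) i (θ := η) (θ' := θs a) (δ := ε / 7) (by positivity)
    (fun j _ => by
      by_cases hj : j ∈ K
      · simpa [η, hj] using ha j hj
      · simp only [η, hj, if_false, sub_self, abs_zero]; positivity)
  rw [Real.dist_eq, abs_lt]
  rw [abs_le] at h1 a1 a2
  constructor <;> linarith [h1.1, h1.2, a1.1, a1.2, a2.1, a2.2]

lemma Good.drift_nonneg [IsProbabilityMeasure ν] (hg : Good ν) (i : I) {θ : I → ℝ} {M : ℝ}
    (hθ : ∀ j, |θ j| ≤ M) : 0 ≤ drift ν θ i :=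
  ge_of_tendsto' (hg.tendsto_drift i hθ) fun F => occ_nonneg F θ i

lemma Good.drift_le_one [IsProbabilityMeasure ν] (hg : Good ν) (i : I) {θ : I → ℝ} {M : ℝ}
    (hθ : ∀ j, |θ j| ≤ M) : drift ν θ i ≤ 1 :=
  le_of_tendsto' (hg.tendsto_drift i hθ) fun F => occ_le_one F θ i

lemma Good.drift_lipschitz [IsProbabilityMeasure ν] (hg : Good ν) (i : I) {θ θ' : I → ℝ}
    {M M' : ℝ} (hθ : ∀ j, |θ j| ≤ M) (hθ' : ∀ j, |θ' j| ≤ M') {δ : ℝ} (hδ : 0 ≤ δ)
    (h : ∀ j, |θ' j - θ j| ≤ δ) : |drift ν θ' i - drift ν θ i| ≤ 4 * δ :=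
  le_of_tendsto' (((hg.tendsto_drift i hθ').sub (hg.tendsto_drift i hθ)).abs)
    fun F => hg.lipschitz F i hδ fun j _ => h j

end Crest.Agent.R168
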