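import Mathlib
import Crest.Agent.R168.Drift

/-!
For a `Good` law the events "contains `F`" and "avoids `B`" are positively correlated.
-/

set_option autoImplicit false

namespace Crest.Agent.R168

open MeasureTheory Filter Topology Set

variable {I : Type*} {ν : Measure (I → Bool)}

/-- product weight: `a` per occupied and `b` per empty site of `G` -/
noncomputable def pw (G : Finset I) (a b : ℝ) (σ : I → Bool) : ℝ := ∏ k ∈ G, if σ k then a else b

lemma dep_pw (G : Finset I) (a b : ℝ) : DependsOn (pw G a b) (G : Set I) := by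
  intro σ σ' hσ
  exact Finset.prod_congr rfl fun j hj => by rw [hσ j hj]

lemma wt_shift {K G : Finset I} (hG : G ⊆ K) (θ : I → ℝ) (δ : ℝ) (σ : I → Bool) :
    wt K (shift θ G δ) σ = pw G (Real.exp δ) 1 σ * wt K θ σ := by
  classical
  unfold wt pw
  rw [← Finset.inter_eq_right.mpr hG, ← Finset.prod_ite_mem, ← Finset.prod_mul_distrib,
    Finset.inter_eq_right.mpr hG]
  refine Finset.prod_congr rfl fun j _ => ?_
  by_cases h1 : j ∈ G <;> by_cases h2 : σ j = true <;> simp [h1, h2, shift, Real.exp_add, mul_comm]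

lemma Zf_shift {K G : Finset I} (hG : G ⊆ K) (θ : I → ℝ) (δ : ℝ) (f : (I → Bool) → ℝ) :
    Zf ν K (shift θ G δ) f = Zf ν K θ (fun σ => f σ * pw G (Real.exp δ) 1 σ) := by
  simp only [Zf, wt_shift hG, mul_assoc]

lemma pw_scale (G : Finset I) (δ : ℝ) (σ : I → Bool) :
    pw G (Real.exp δ) 1 σ = Real.exp δ ^ G.card * pw G 1 (Real.exp (-δ)) σ := by
  unfold pw
  rw [← Finset.prod_const, ← Finset.prod_mul_distrib]
  refine Finset.prod_congr rfl fun j _ => ?_
  split_ifs
  · simp
  · rw [← Real.exp_add]; simp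

lemma tendsto_Zf_pw [IsFiniteMeasure ν] (K G : Finset I) (θ : I → ℝ) {F : Finset I}
    {f : (I → Bool) → ℝ} (hf : DependsOn f (F : Set I)) {α : Type*} {l : Filter α} {a b : α → ℝ}
    {a₀ b₀ : ℝ} (ha : Tendsto a l (𝓝 a₀)) (hb : Tendsto b l (𝓝 b₀)) :
    Tendsto (fun x => Zf ν K θ (fun σ => f σ * pw G (a x) (b x) σ)) l
      (𝓝 (Zf ν K θ (fun σ => f σ * pw G a₀ b₀ σ))) := by
  classical
  have hd : ∀ a b, DependsOn (fun σ => f σ * pw G a b σ) ((K ∪ (F ∪ G) : Finset I) : Set I) :=
    fun a b => dep_mul (hf.mono (by intro x; simp +contextual))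
      ((dep_pw G a b).mono (by intro x; simp +contextual))
  simp only [Zf_eq_sum ν Finset.subset_union_left θ (hd _ _)]
  refine tendsto_finsetSum _ fun S _ => Tendsto.const_mul _ (Tendsto.mul_const _
    (Tendsto.const_mul _ ?_))
  unfold pw
  refine tendsto_finsetProd _ fun j _ => ?_
  split_ifs
  exacts [ha, hb]

lemma Good.up_ind_le [IsProbabilityMeasure ν] (hg : Good ν) {K F : Finset I} (hF : F ⊆ K) {j : I}
    (hj : j ∉ F) (θ : I → ℝ) :
    Ex ν K θ (fun σ => pw F 1 0 σ * ind j σ) ≤ Ex ν K θ (pw F 1 0) * occ ν K θ j := by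
  have hZ := Zf_one_pos ν K θ
  have key : ∀ δ : ℝ, 0 ≤ δ →
      Zf ν K θ (fun σ => ind j σ * pw F 1 (Real.exp (-δ)) σ) * Zf ν K θ (fun _ => 1) ≤
      Zf ν K θ (ind j) * Zf ν K θ (fun σ => 1 * pw F 1 (Real.exp (-δ)) σ) := by
    intro δ hδ
    have h := hg.mono (F := K) (i := j) (θ := θ) (θ' := shift θ F δ)
      (fun k _ => by unfold shift; split_ifs <;> linarith) (by simp [shift, hj])
    simp only [occ, Ex] at h
    rw [div_le_div_iff₀ (Zf_one_pos ν K _) hZ, Zf_shift hF, Zf_shift hF] at h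
    have e : ∀ f : (I → Bool) → ℝ, Zf ν K θ (fun σ => f σ * pw F (Real.exp δ) 1 σ) =
        Real.exp δ ^ F.card * Zf ν K θ (fun σ => f σ * pw F 1 (Real.exp (-δ)) σ) := by
      intro f
      simp only [Zf, pw_scale F δ]
      rw [← integral_const_mul]
      congr 1; funext σ; ring
    rw [e, e] at h
    have hp : 0 < Real.exp δ ^ F.card := by positivity
    refine le_of_mul_le_mul_left ?_ hp
    linarith
  have ht : Tendsto (fun δ : ℝ => Real.exp (-δ)) atTop (𝓝 0) := Real.tendsto_exp_neg_atTop_nhds_zero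
  have l1 := (tendsto_Zf_pw (ν := ν) K F θ (dep_ind (Finset.mem_singleton_self j))
    (tendsto_const_nhds (x := (1 : ℝ))) ht).mul_const (Zf ν K θ (fun _ => 1))
  have l2 := (tendsto_Zf_pw (ν := ν) K F θ (dep_const (F := ∅) 1)
    (tendsto_const_nhds (x := (1 : ℝ))) ht).const_mul (Zf ν K θ (ind j))
  have := le_of_tendsto_of_tendsto l1 l2 ((eventually_ge_atTop 0).mono key)
  simp only [one_mul] at this
  simp only [occ, Ex]
  rw [div_mul_div_comm, div_le_div_iff₀ hZ (mul_pos hZ hZ)]
  have e : (fun σ => pw F 1 0 σ * ind j σ) = fun σ => ind j σ * pw F 1 0 σ := by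
    funext σ; ring
  rw [e]
  have := mul_le_mul_of_nonneg_right this hZ.le
  calc _ = Zf ν K θ (fun σ => ind j σ * pw F 1 0 σ) * Zf ν K θ (fun _ => 1) *
        Zf ν K θ (fun _ => 1) := by ring
    _ ≤ _ := this
    _ = _ := by ring

lemma Good.up_le_shift [IsProbabilityMeasure ν] (hg : Good ν) {K F : Finset I} (hF : F ⊆ K)
    (B : Finset I) (hB : B ⊆ K) (hd : Disjoint B F) (θ : I → ℝ) {δ : ℝ} (hδ : 0 ≤ δ) :
    Ex ν K θ (pw F 1 0) ≤ Ex ν K (shift θ B (-δ)) (pw F 1 0) := by
  classical
  induction B using Finset.induction_on with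
  | empty =>
    have : shift θ ∅ (-δ) = θ := by funext j; simp [shift]
    rw [this]
  | insert j B hj ih =>
    have hjK := hB (Finset.mem_insert_self _ _)
    have hjF : j ∉ F := Finset.disjoint_left.mp hd (Finset.mem_insert_self _ _)
    refine (ih ((Finset.subset_insert _ _).trans hB)
      (Finset.disjoint_of_subset_left (Finset.subset_insert _ _) hd)).trans ?_
    have e : shift θ (insert j B) (-δ) = shift (shift θ B (-δ)) {j} (-δ) := by
      funext k
      by_cases hk : k = j
      · subst hk; simp [shift, hj]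
      · simp [shift, hk]
    rw [e, Ex_shift_single hjK _ _ (dep_pw F 1 0),
      le_div_iff₀ (one_add_pos' (occ_nonneg _ _ _) (occ_le_one _ _ _))]
    have h1 := hg.up_ind_le hF hjF (shift θ B (-δ))
    have h2 : Real.exp (-δ) - 1 ≤ 0 := by
      have := Real.exp_le_one_iff.mpr (show -δ ≤ 0 by linarith)
      linarith
    nlinarith [mul_le_mul_of_nonpos_left h1 h2]

/-- the event "contains `F` and avoids `B`" -/
def ev (F B : Finset I) : Set (I → Bool) := {σ | (∀ j ∈ F, σ j = true) ∧ ∀ j ∈ B, σ j = false}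

lemma measurableSet_ev (F B : Finset I) : MeasurableSet (ev F B) := by
  have : ev F B = (⋂ j ∈ F, (fun σ : I → Bool => σ j) ⁻¹' {true}) ∩
      ⋂ j ∈ B, (fun σ : I → Bool => σ j) ⁻¹' {false} := by
    ext σ; simp [ev]
  rw [this]
  exact (Finset.measurableSet_biInter F fun j _ =>
    measurable_pi_apply j (measurableSet_singleton _)).inter
    (Finset.measurableSet_biInter B fun j _ => measurable_pi_apply j (measurableSet_singleton _))

lemma pw_mul_pw (F B : Finset I) (σ : I → Bool) :
    pw F 1 0 σ * pw B 0 1 σ = (ev F B).indicator 1 σ := by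
  by_cases h : σ ∈ ev F B
  · rw [indicator_of_mem h]
    have h1 : pw F 1 0 σ = 1 := Finset.prod_eq_one fun j hj => by simp [h.1 j hj]
    have h2 : pw B 0 1 σ = 1 := Finset.prod_eq_one fun j hj => by simp [h.2 j hj]
    simp [h1, h2]
  · rw [indicator_of_notMem h]
    simp only [ev, mem_ofPred_eq, not_and_or, not_forall] at h
    rcases h with ⟨j, hj, h⟩ | ⟨j, hj, h⟩
    · rw [pw, Finset.prod_eq_zero hj (by simp [h]), zero_mul]
    · rw [pw, pw, Finset.prod_eq_zero (s := B) hj (by simpa using h), mul_zero]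

lemma Zf_zero_pw (K F B : Finset I) :
    Zf ν K (fun _ => 0) (fun σ => pw F 1 0 σ * pw B 0 1 σ) = ν.real (ev F B) := by
  rw [← integral_indicator_one (measurableSet_ev F B)]
  simp [Zf, wt, pw_mul_pw]

theorem Good.ev_mul_le [IsProbabilityMeasure ν] (hg : Good ν) {F B : Finset I}
    (hd : Disjoint B F) : ν.real (ev F ∅) * ν.real (ev ∅ B) ≤ ν.real (ev F B) := by
  classical
  set K := F ∪ B
  have e0 : Zf ν K (fun _ => 0) (fun _ => 1) = 1 := by simp [Zf, wt]
  have e1 : Zf ν K (fun _ => 0) (pw F 1 0) = ν.real (ev F ∅) := by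
    rw [← Zf_zero_pw K]; congr 1; funext σ; simp [pw]
  have e2 : Zf ν K (fun _ => 0) (fun σ => 1 * pw B 0 1 σ) = ν.real (ev ∅ B) := by
    rw [← Zf_zero_pw K]; simp [pw]
  have ht : Tendsto (fun δ : ℝ => Real.exp (-δ)) atTop (𝓝 0) := Real.tendsto_exp_neg_atTop_nhds_zero
  have l1 := (tendsto_Zf_pw (ν := ν) K B (fun _ => 0) (dep_const (F := ∅) 1)
    ht (tendsto_const_nhds (x := (1 : ℝ)))).const_mul (ν.real (ev F ∅))
  have l2 := tendsto_Zf_pw (ν := ν) K B (fun _ => 0) (dep_pw F 1 0)
    ht (tendsto_const_nhds (x := (1 : ℝ)))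
  rw [e2] at l1
  rw [Zf_zero_pw] at l2
  refine le_of_tendsto_of_tendsto l1 l2 ((eventually_ge_atTop 0).mono fun δ hδ => ?_)
  have := hg.up_le_shift (K := K) Finset.subset_union_left B Finset.subset_union_right hd
    (fun _ => 0) hδ
  simp only [Ex] at this
  rwa [e0, e1, div_one, le_div_iff₀ (Zf_one_pos ν K _), Zf_shift Finset.subset_union_right,
    Zf_shift Finset.subset_union_right] at this

lemma real_ev_insert [IsFiniteMeasure ν] [DecidableEq I] (F B : Finset I) (j : I) :
    ν.real (ev F (insert j B)) = ν.real (ev F B) - ν.real (ev (insert j F) B) := by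
  have e : ev F B = ev F (insert j B) ∪ ev (insert j F) B := by
    ext σ
    simp only [ev, mem_union, mem_ofPred_eq, Finset.forall_mem_insert]
    cases σ j <;> simp
  have d : Disjoint (ev F (insert j B)) (ev (insert j F) B) := by
    rw [Set.disjoint_left]
    intro σ h1 h2
    have a := h1.2 j (Finset.mem_insert_self _ _)
    have b := h2.1 j (Finset.mem_insert_self _ _)
    simp [a] at b
  rw [e, measureReal_union d (measurableSet_ev _ _)]
  ring

lemma cyl_eq_ev [DecidableEq I] (K S : Finset I) : cyl K S = ev (K ∩ S) (K \ S) := by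
  ext σ
  simp only [cyl, ev, mem_ofPred_eq, Finset.mem_inter, Finset.mem_sdiff]
  constructor
  · intro h
    refine ⟨fun j hj => (h j hj.1).mpr hj.2, fun j hj => ?_⟩
    by_contra h'
    exact hj.2 ((h j hj.1).mp (by simpa using h'))
  · rintro ⟨h1, h2⟩ j hj
    by_cases hS : j ∈ S
    · simp [hS, h1 j ⟨hj, hS⟩]
    · simp [hS, h2 j ⟨hj, hS⟩]

/-- convergence on the events "contains `F`" gives convergence on all cylinders -/
lemma exists_tendsto_cyl {α : Type*} {l : Filter α} {νs : α → Measure (I → Bool)}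
    [∀ a, IsFiniteMeasure (νs a)]
    (h : ∀ F : Finset I, ∃ L, Tendsto (fun a => (νs a).real (ev F ∅)) l (𝓝 L)) (K S : Finset I) :
    ∃ L, Tendsto (fun a => (νs a).real (cyl K S)) l (𝓝 L) := by
  classical
  have key : ∀ B F : Finset I, ∃ L, Tendsto (fun a => (νs a).real (ev F B)) l (𝓝 L) := by
    intro B
    induction B using Finset.induction_on with
    | empty => exact h
    | insert j B _ ih =>
      intro F
      obtain ⟨L1, h1⟩ := ih F
      obtain ⟨L2, h2⟩ := ih (insert j F)
      exact ⟨L1 - L2, by simpa only [real_ev_insert] using h1.sub h2⟩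
  rw [cyl_eq_ev]
  exact key _ _

lemma ev_empty_eq_cyl (F : Finset I) : ev F ∅ = cyl F F := by
  ext σ
  simp only [ev, cyl, mem_ofPred_eq, Finset.notMem_empty, false_imp_iff, implies_true, and_true]
  exact forall₂_congr fun j hj => by simp [hj]

end Crest.Agent.R168
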