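import Mathlib

/-!
The two-sided exponential law on the line and the monotone transport between the mixtures
`A ρ(·) + B ρ(· - t)` and `A ρ(·) + B ρ(· - t - h)`.
-/

set_option autoImplicit false

namespace Crest.Agent.R168

open MeasureTheory Filter Topology Set

/-- two-sided exponential density -/
noncomputable def rho (x : ℝ) : ℝ := Real.exp (-|x|) / 2

lemma rho_pos (x : ℝ) : 0 < rho x := by unfold rho; positivity

lemma continuous_rho : Continuous rho := by unfold rho; fun_prop

lemma integral_rho : ∫ x, rho x = 1 := by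
  have := integral_comp_abs (f := fun x => Real.exp (-x) / 2)
  simp only [rho]
  rw [this, integral_div, integral_exp_neg_Ioi_zero]
  norm_num

lemma integrable_rho : Integrable rho := integrable_of_integral_eq_one integral_rho

/-- the two-sided exponential law -/
noncomputable def lap : Measure ℝ := volume.withDensity fun x => ENNReal.ofReal (rho x)

instance : IsProbabilityMeasure lap := ⟨by
  rw [lap, withDensity_apply _ MeasurableSet.univ, Measure.restrict_univ,
    ← ofReal_integral_eq_lintegral_ofReal integrable_rho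
      (Eventually.of_forall fun x => (rho_pos x).le), integral_rho]
  simp⟩

instance : NullSingletonClass lap := by unfold lap; infer_instance

/-- its distribution function -/
noncomputable def cdfR (c : ℝ) : ℝ := ∫ x in Iic c, rho x

lemma cdfR_sub (a b : ℝ) : cdfR b - cdfR a = ∫ x in a..b, rho x :=
  intervalIntegral.integral_Iic_sub_Iic integrable_rho.integrableOn integrable_rho.integrableOn

lemma cdfR_nonneg (c : ℝ) : 0 ≤ cdfR c :=
  setIntegral_nonneg measurableSet_Iic fun x _ => (rho_pos x).le

lemma continuous_cdfR : Continuous cdfR := by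
  have : cdfR = fun b => cdfR 0 + ∫ x in (0 : ℝ)..b, rho x := by
    funext b; rw [← cdfR_sub]; ring
  rw [this]
  exact continuous_const.add (intervalIntegral.continuous_primitive
    (fun a b => continuous_rho.intervalIntegrable a b) 0)

lemma rho_le {ξ c h : ℝ} (hh : |ξ - c| ≤ h) : rho ξ ≤ rho c * Real.exp h := by
  unfold rho
  rw [div_mul_eq_mul_div, ← Real.exp_add]
  gcongr
  have := abs_sub_abs_le_abs_sub c ξ
  rw [abs_sub_comm] at this
  linarith

lemma le_rho {ξ c h : ℝ} (hh : |ξ - c| ≤ h) : rho c * Real.exp (-h) ≤ rho ξ := by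
  unfold rho
  rw [div_mul_eq_mul_div, ← Real.exp_add]
  gcongr
  have := abs_sub_abs_le_abs_sub ξ c
  linarith

lemma cdfR_sub_le {a b c h : ℝ} (hab : a ≤ b) (hh : ∀ ξ ∈ Icc a b, |ξ - c| ≤ h) :
    cdfR b - cdfR a ≤ (b - a) * (rho c * Real.exp h) := by
  rw [cdfR_sub]
  have := intervalIntegral.integral_mono_on (μ := volume) hab
    (continuous_rho.intervalIntegrable a b) (g := fun _ => rho c * Real.exp h)
    (continuous_const.intervalIntegrable a b) (fun ξ hξ => rho_le (hh ξ hξ))
  rwa [intervalIntegral.integral_const, smul_eq_mul] at this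

lemma le_cdfR_sub {a b c h : ℝ} (hab : a ≤ b) (hh : ∀ ξ ∈ Icc a b, |ξ - c| ≤ h) :
    (b - a) * (rho c * Real.exp (-h)) ≤ cdfR b - cdfR a := by
  rw [cdfR_sub]
  have := intervalIntegral.integral_mono_on (μ := volume) hab
    (f := fun _ => rho c * Real.exp (-h)) (continuous_const.intervalIntegrable a b)
    (continuous_rho.intervalIntegrable a b) (fun ξ hξ => le_rho (hh ξ hξ))
  rwa [intervalIntegral.integral_const, smul_eq_mul] at this

lemma strictMono_cdfR : StrictMono cdfR := by
  intro a b hab
  have := le_cdfR_sub (c := a) (h := b - a) hab.le (fun ξ hξ => by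
    rw [abs_of_nonneg (by linarith [hξ.1])]; linarith [hξ.2])
  have h2 : 0 < (b - a) * (rho a * Real.exp (-(b - a))) :=
    mul_pos (by linarith) (mul_pos (rho_pos a) (Real.exp_pos _))
  linarith

/-- the log-likelihood ratio of the shift by `t` -/
noncomputable def th (t x : ℝ) : ℝ := |x| - |x - t|

lemma rho_sub (t x : ℝ) : rho (x - t) = rho x * Real.exp (th t x) := by
  unfold rho th
  rw [div_mul_eq_mul_div, ← Real.exp_add]
  congr 2; ring

lemma abs_th_le (t x : ℝ) : |th t x| ≤ |t| := by
  unfold th
  have := abs_abs_sub_abs_le_abs_sub x (x - t)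
  simpa using this

lemma abs_th_sub_le (t t' x x' : ℝ) : |th t x - th t' x'| ≤ 2 * |x - x'| + |t - t'| := by
  unfold th
  have h1 := abs_abs_sub_abs_le_abs_sub x x'
  have h2 := abs_abs_sub_abs_le_abs_sub (x - t) (x' - t')
  have h3 : |x - t - (x' - t')| ≤ |x - x'| + |t - t'| := by
    have := abs_sub (x - x') (t - t')
    rwa [show x - x' - (t - t') = x - t - (x' - t') by ring] at this
  have h4 := abs_sub (|x| - |x'|) (|x - t| - |x' - t'|)
  rw [show |x| - |x'| - (|x - t| - |x' - t'|) = |x| - |x - t| - (|x'| - |x' - t'|) by ring] at h4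
  linarith

lemma continuous_th (t : ℝ) : Continuous (th t) := by unfold th; fun_prop

lemma th_zero (x : ℝ) : th 0 x = 0 := by simp [th]

/-- the mixture measure -/
noncomputable def mix (A B t : ℝ) : Measure ℝ :=
  lap.withDensity fun y => ENNReal.ofReal (A + B * Real.exp (th t y))

/-- its distribution function -/
noncomputable def mixF (A B t c : ℝ) : ℝ := A * cdfR c + B * cdfR (c - t)

lemma measurable_mixDens (A B t : ℝ) :
    Measurable fun y => ENNReal.ofReal (A + B * Real.exp (th t y)) := by
  have := continuous_th t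
  exact ENNReal.measurable_ofReal.comp (by fun_prop : Continuous fun y =>
    A + B * Real.exp (th t y)).measurable

lemma mix_apply {A B : ℝ} (hA : 0 ≤ A) (hB : 0 ≤ B) (t : ℝ) {s : Set ℝ} (hs : MeasurableSet s) :
    mix A B t s = ENNReal.ofReal (A * (∫ y in s, rho y) + B * ∫ y in s, rho (y - t)) := by
  have hr : Measurable fun x => ENNReal.ofReal (rho x) :=
    ENNReal.measurable_ofReal.comp continuous_rho.measurable
  have i1 : IntegrableOn rho s := integrable_rho.integrableOn
  have i2 : IntegrableOn (fun y => rho (y - t)) s := (integrable_rho.comp_sub_right t).integrableOn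
  rw [mix, lap, ← withDensity_mul _ hr (measurable_mixDens A B t), withDensity_apply _ hs,
    ← integral_const_mul, ← integral_const_mul, ← integral_add (i1.const_mul A) (i2.const_mul B),
    ofReal_integral_eq_lintegral_ofReal (f := fun y => A * rho y + B * rho (y - t))
      ((i1.const_mul A).add (i2.const_mul B))
      (Eventually.of_forall fun y => add_nonneg (mul_nonneg hA (rho_pos _).le)
        (mul_nonneg hB (rho_pos _).le))]
  refine lintegral_congr fun y => ?_
  simp only [Pi.mul_apply]
  rw [← ENNReal.ofReal_mul (rho_pos y).le, rho_sub]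
  congr 1; ring

lemma mix_Iic {A B : ℝ} (hA : 0 ≤ A) (hB : 0 ≤ B) (t c : ℝ) :
    mix A B t (Iic c) = ENNReal.ofReal (mixF A B t c) := by
  rw [mix_apply hA hB t measurableSet_Iic, mixF, cdfR, cdfR]
  congr 3
  have := (measurePreserving_sub_right volume t).setIntegral_preimage_emb
    (Homeomorph.subRight t).measurableEmbedding rho (Iic (c - t))
  rw [← this]
  congr 2
  ext y; simp

lemma isFiniteMeasure_mix {A B : ℝ} (hA : 0 ≤ A) (hB : 0 ≤ B) (t : ℝ) :
    IsFiniteMeasure (mix A B t) :=
  ⟨by rw [mix_apply hA hB t MeasurableSet.univ]; exact ENNReal.ofReal_lt_top⟩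

lemma lap_Iic (c : ℝ) : lap (Iic c) = ENNReal.ofReal (cdfR c) := by
  have := mix_Iic zero_le_one le_rfl 0 c
  simpa [mix, mixF] using this

lemma mix_zero_one (t : ℝ) : mix 0 1 t = lap.map (· + t) := by
  have := isFiniteMeasure_mix le_rfl zero_le_one t
  refine Measure.ext_of_Iic _ _ fun c => ?_
  rw [mix_Iic le_rfl zero_le_one, Measure.map_apply (by fun_prop) measurableSet_Iic]
  have : (fun x => x + t) ⁻¹' Iic c = Iic (c - t) := by ext y; simp [le_sub_iff_add_le]
  rw [this, lap_Iic]
  simp [mixF]

lemma continuous_mixF (A B t : ℝ) : Continuous (mixF A B t) := by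
  have := continuous_cdfR
  unfold mixF; fun_prop

lemma strictMono_mixF {A B : ℝ} (hA : 0 ≤ A) (hB : 0 ≤ B) (hAB : 0 < A + B) (t : ℝ) :
    StrictMono (mixF A B t) := by
  intro a b hab
  unfold mixF
  have h1 := strictMono_cdfR hab
  have h2 := strictMono_cdfR (show a - t < b - t by linarith)
  rcases hA.lt_or_eq with h | h
  · nlinarith [mul_pos h (sub_pos.mpr h1), mul_nonneg hB (sub_pos.mpr h2).le]
  · have : 0 < B := by linarith
    nlinarith [mul_pos this (sub_pos.mpr h2), mul_nonneg hA (sub_pos.mpr h1).le]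

lemma mixF_le1 {A B : ℝ} (hB : 0 ≤ B) (t : ℝ) {h : ℝ} (hh : 0 ≤ h) (x : ℝ) :
    mixF A B (t + h) x ≤ mixF A B t x := by
  unfold mixF
  have := strictMono_cdfR.monotone (show x - (t + h) ≤ x - t by linarith)
  nlinarith [mul_nonneg hB (sub_nonneg.mpr this)]

lemma mixF_le2 {A B : ℝ} (hA : 0 ≤ A) (t : ℝ) {h : ℝ} (hh : 0 ≤ h) (x : ℝ) :
    mixF A B t x ≤ mixF A B (t + h) (x + h) := by
  unfold mixF
  have := strictMono_cdfR.monotone (show x ≤ x + h by linarith)
  rw [show x + h - (t + h) = x - t by ring]
  nlinarith [mul_nonneg hA (sub_nonneg.mpr this)]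

/-- the monotone transport map -/
noncomputable def tr (A B t h x : ℝ) : ℝ := Function.invFun (mixF A B (t + h)) (mixF A B t x)

section
variable {A B : ℝ} (hA : 0 ≤ A) (hB : 0 ≤ B) (hAB : 0 < A + B) (t : ℝ) {h : ℝ} (hh : 0 ≤ h)
include hA hB hh

lemma mixF_tr (x : ℝ) : mixF A B (t + h) (tr A B t h x) = mixF A B t x := by
  apply Function.invFun_eq
  have := intermediate_value_Icc (show x ≤ x + h by linarith)
    (continuous_mixF A B (t + h)).continuousOn ⟨mixF_le1 hB t hh x, mixF_le2 hA t hh x⟩
  obtain ⟨y, _, hy⟩ := this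
  exact ⟨y, hy⟩

include hAB

lemma tr_le_iff (x c : ℝ) : tr A B t h x ≤ c ↔ mixF A B t x ≤ mixF A B (t + h) c := by
  rw [← mixF_tr hA hB t hh x, (strictMono_mixF hA hB hAB _).le_iff_le]

lemma tr_le (x : ℝ) : tr A B t h x ≤ x + h :=
  (tr_le_iff hA hB hAB t hh x _).mpr (mixF_le2 hA t hh x)

lemma le_tr (x : ℝ) : x ≤ tr A B t h x := by
  rw [← (strictMono_mixF hA hB hAB (t + h)).le_iff_le, mixF_tr hA hB t hh]
  exact mixF_le1 hB t hh x

lemma measurable_tr : Measurable (tr A B t h) := by
  refine measurable_of_Iic fun c => ?_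
  have : tr A B t h ⁻¹' Iic c = {x | mixF A B t x ≤ mixF A B (t + h) c} := by
    ext x; simp [tr_le_iff hA hB hAB t hh]
  rw [this]
  exact measurableSet_le (continuous_mixF A B t).measurable measurable_const

lemma map_tr : (mix A B t).map (tr A B t h) = mix A B (t + h) := by
  have := isFiniteMeasure_mix hA hB t
  refine Measure.ext_of_Iic _ _ fun c => ?_
  rw [Measure.map_apply (measurable_tr hA hB hAB t hh) measurableSet_Iic, mix_Iic hA hB]
  have h1 := intermediate_value_Icc (show c - h ≤ c by linarith)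
    (continuous_mixF A B t).continuousOn (a := c - h) (b := c)
    (show mixF A B (t + h) c ∈ Icc _ _ from
      ⟨by simpa using mixF_le2 hA t hh (c - h), mixF_le1 hB t hh c⟩)
  obtain ⟨y, _, hy⟩ := h1
  have : tr A B t h ⁻¹' Iic c = Iic y := by
    ext x
    simp only [mem_preimage, mem_Iic, tr_le_iff hA hB hAB t hh, ← hy,
      (strictMono_mixF hA hB hAB t).le_iff_le]
  rw [this, mix_Iic hA hB, hy]

lemma tr_approx (hh1 : h ≤ 1) (x : ℝ) :
    |tr A B t h x - x - h * (B * Real.exp (th t x) / (A + B * Real.exp (th t x)))| ≤ 16 * h ^ 2 := by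
  set y := tr A B t h x with hy
  have hxy : x ≤ y := le_tr hA hB hAB t hh x
  have hyx : y ≤ x + h := tr_le hA hB hAB t hh x
  have heq := mixF_tr hA hB t hh x
  rw [← hy] at heq
  unfold mixF at heq
  have hE := Real.exp_pos (th t x)
  have hden : 0 < A + B * Real.exp (th t x) := by
    rcases hA.lt_or_eq with h1 | h1
    · positivity
    · have : 0 < B := by linarith
      positivity
  have r1 := rho_pos x
  have hb1 : ∀ ξ ∈ Icc x y, |ξ - x| ≤ h := fun ξ hξ => by
    rw [abs_le]; constructor <;> linarith [hξ.1, hξ.2]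
  have hb2 : ∀ ξ ∈ Icc (x - (t + h)) (y - (t + h)), |ξ - (x - t)| ≤ h := fun ξ hξ => by
    rw [abs_le]; constructor <;> linarith [hξ.1, hξ.2]
  have hb3 : ∀ ξ ∈ Icc (x - (t + h)) (x - t), |ξ - (x - t)| ≤ h := fun ξ hξ => by
    rw [abs_le]; constructor <;> linarith [hξ.1, hξ.2]
  have u1 := cdfR_sub_le hxy hb1
  have l1 := le_cdfR_sub hxy hb1
  have u2 := cdfR_sub_le (by linarith) hb2
  have l2 := le_cdfR_sub (by linarith) hb2
  have u3 := cdfR_sub_le (by linarith) hb3
  have l3 := le_cdfR_sub (by linarith) hb3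
  rw [rho_sub] at u2 l2 u3 l3
  rw [show y - (t + h) - (x - (t + h)) = y - x by ring] at u2 l2
  rw [show x - t - (x - (t + h)) = h by ring] at u3 l3
  set E := Real.exp (th t x)
  set d := y - x with hd
  set a := B * E / (A + B * E) with ha
  have ha0 : 0 ≤ a := by positivity
  have ha1 : a ≤ 1 := by rw [ha, div_le_one hden]; linarith
  have haE : B * E = a * (A + B * E) := by rw [ha]; field_simp
  have key : A * (cdfR y - cdfR x) + B * (cdfR (y - (t + h)) - cdfR (x - (t + h))) =
      B * (cdfR (x - t) - cdfR (x - (t + h))) := by linarith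
  have e1 : Real.exp h * Real.exp (-h) = 1 := by rw [← Real.exp_add]; simp
  have p1 := Real.exp_pos h
  have p2 := Real.exp_pos (-h)
  -- d e^{-h} ≤ h a e^{h}
  have k1 : d * Real.exp (-h) ≤ h * a * Real.exp h := by
    have : d * Real.exp (-h) * (rho x * (A + B * E)) ≤
        h * a * Real.exp h * (rho x * (A + B * E)) := by
      calc d * Real.exp (-h) * (rho x * (A + B * E))
          = A * (d * (rho x * Real.exp (-h))) + B * (d * (rho x * E * Real.exp (-h))) := by ring
        _ ≤ A * (cdfR y - cdfR x) + B * (cdfR (y - (t + h)) - cdfR (x - (t + h))) :=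
            add_le_add (mul_le_mul_of_nonneg_left l1 hA) (mul_le_mul_of_nonneg_left l2 hB)
        _ = _ := key
        _ ≤ B * (h * (rho x * E * Real.exp h)) := mul_le_mul_of_nonneg_left u3 hB
        _ = h * Real.exp h * rho x * (B * E) := by ring
        _ = h * Real.exp h * rho x * (a * (A + B * E)) := by rw [← haE]
        _ = _ := by ring
    exact le_of_mul_le_mul_right this (mul_pos r1 hden)
  have k2 : h * a * Real.exp (-h) ≤ d * Real.exp h := by
    have : h * a * Real.exp (-h) * (rho x * (A + B * E)) ≤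
        d * Real.exp h * (rho x * (A + B * E)) := by
      calc h * a * Real.exp (-h) * (rho x * (A + B * E))
          = h * Real.exp (-h) * rho x * (a * (A + B * E)) := by ring
        _ = B * (h * (rho x * E * Real.exp (-h))) := by rw [← haE]; ring
        _ ≤ B * (cdfR (x - t) - cdfR (x - (t + h))) := mul_le_mul_of_nonneg_left l3 hB
        _ = _ := key.symm
        _ ≤ A * (d * (rho x * Real.exp h)) + B * (d * (rho x * E * Real.exp h)) :=
            add_le_add (mul_le_mul_of_nonneg_left u1 hA) (mul_le_mul_of_nonneg_left u2 hB)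
        _ = _ := by ring
    exact le_of_mul_le_mul_right this (mul_pos r1 hden)
  have hd0 : 0 ≤ d := by linarith
  have hdh : d ≤ h := by linarith
  -- e^{2h} - 1 ≤ 16 h
  set W := Real.exp h * Real.exp h with hW
  have hWb : W - 1 ≤ 16 * h := by
    have b1 : |Real.exp h - 1| ≤ 2 * |h| := Real.abs_exp_sub_one_le (by rwa [abs_of_nonneg hh])
    rw [abs_of_nonneg hh] at b1
    have b2 := (abs_le.mp b1).2
    have b3 : Real.exp h ≤ 3 := by linarith
    rw [hW]
    nlinarith
  have k3 : d ≤ h * a * W := by
    have := mul_le_mul_of_nonneg_right k1 p1.le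
    calc d = d * Real.exp (-h) * Real.exp h := by rw [mul_assoc, mul_comm (Real.exp (-h)), e1, mul_one]
      _ ≤ _ := this
      _ = _ := by rw [hW]; ring
  have k4 : h * a ≤ d * W := by
    have := mul_le_mul_of_nonneg_right k2 p1.le
    calc h * a = h * a * Real.exp (-h) * Real.exp h := by
          rw [mul_assoc (h * a), mul_comm (Real.exp (-h)), e1, mul_one]
      _ ≤ _ := this
      _ = _ := by rw [hW]; ring
  have hha : h * a ≤ h := mul_le_of_le_one_right hh ha1
  have hW1 : 0 ≤ W - 1 := by
    have : 1 ≤ Real.exp h := Real.one_le_exp hh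
    rw [hW]; nlinarith
  rw [abs_le]
  constructor
  · have : d * (W - 1) ≤ h * (16 * h) := mul_le_mul hdh hWb hW1 hh
    have e2 : d * (W - 1) = d * W - d := by ring
    have e3 : h * (16 * h) = 16 * h ^ 2 := by ring
    linarith
  · have : h * a * (W - 1) ≤ h * (16 * h) := mul_le_mul hha hWb hW1 hh
    have e2 : h * a * (W - 1) = h * a * W - h * a := by ring
    have e3 : h * (16 * h) = 16 * h ^ 2 := by ring
    linarith

end

lemma lap_tail (r : ℝ) : lap {z | r < |z|} ≤ ENNReal.ofReal (Real.exp (-r)) := by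
  have h1 : {z : ℝ | r < |z|} ⊆ Iic (-r) ∪ Ioi r := by
    intro z hz
    simp only [mem_ofPred_eq, lt_abs] at hz
    rcases hz with h | h
    · exact Or.inr h
    · exact Or.inl (by simp; linarith)
  have hm : ∀ s : Set ℝ, MeasurableSet s → lap s = ENNReal.ofReal (∫ y in s, rho y) := by
    intro s hs
    have := mix_apply zero_le_one le_rfl 0 hs
    simpa [mix] using this
  have a1 : ∫ y in Iic (-r), rho y ≤ Real.exp (-r) / 2 := by
    rw [← integral_exp_Iic, ← integral_div]
    refine setIntegral_mono integrable_rho.integrableOn ((integrableOn_exp_Iic _).div_const 2) ?_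
    intro y
    simp only [rho]
    gcongr
    exact neg_abs_le y
  have a2 : ∫ y in Ioi r, rho y ≤ Real.exp (-r) / 2 := by
    rw [← integral_exp_neg_Ioi, ← integral_div]
    refine setIntegral_mono integrable_rho.integrableOn
      ((integrableOn_exp_neg_Ioi _).div_const 2) ?_
    intro y
    simp only [rho]
    gcongr
    exact le_abs_self y
  refine (measure_mono h1).trans ((measure_union_le _ _).trans ?_)
  rw [hm _ measurableSet_Iic, hm _ measurableSet_Ioi, ← ENNReal.ofReal_add
    (setIntegral_nonneg measurableSet_Iic fun x _ => (rho_pos x).le)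
    (setIntegral_nonneg measurableSet_Ioi fun x _ => (rho_pos x).le)]
  exact ENNReal.ofReal_le_ofReal (by linarith)

end Crest.Agent.R168
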