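import Mathlib
import Crest.Agent.R168.Drift
import Crest.Agent.R168.Laplace

/-!
The law of the noisy observation `τ σ + Z` in finite volume and exact one-coordinate transports.
-/

set_option autoImplicit false

namespace Crest.Agent.R168

open MeasureTheory Filter Topology Set
open scoped ENNReal

variable {I : Type*}

/-- independent two-sided exponential noise -/
noncomputable def noise (I : Type*) : Measure (I → ℝ) := Measure.infinitePi fun _ : I => lap

instance : IsProbabilityMeasure (noise I) := by unfold noise; infer_instance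

lemma noise_map_update [DecidableEq I] (i : I) :
    ((noise I).prod lap).map (fun p => Function.update p.1 i p.2) = noise I := by
  refine Measure.eq_infinitePi _ fun s t ht => ?_
  rw [Measure.map_apply (by fun_prop) (MeasurableSet.pi s.countable_toSet fun j _ => ht j)]
  by_cases hi : i ∈ s
  · have : (fun p : (I → ℝ) × ℝ => Function.update p.1 i p.2) ⁻¹' (Set.pi s t) =
        (Set.pi (s.erase i) t) ×ˢ t i := by
      ext p
      simp only [mem_preimage, Set.mem_pi, Finset.mem_coe, mem_prod, Finset.mem_erase]
      constructor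
      · intro h
        refine ⟨fun j hj => ?_, by simpa using h i hi⟩
        have := h j hj.2
        rwa [Function.update_of_ne hj.1] at this
      · rintro ⟨h1, h2⟩ j hj
        by_cases hji : j = i
        · subst hji; simpa using h2
        · rw [Function.update_of_ne hji]; exact h1 j ⟨hji, hj⟩
    rw [this, Measure.prod_prod, noise, Measure.infinitePi_pi _ (fun j _ => ht j),
      Finset.prod_erase_mul _ _ hi]
  · have : (fun p : (I → ℝ) × ℝ => Function.update p.1 i p.2) ⁻¹' (Set.pi s t) =
        (Set.pi s t) ×ˢ univ := by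
      ext p
      simp only [mem_preimage, Set.mem_pi, Finset.mem_coe, mem_prod, mem_univ, and_true]
      refine forall_congr' fun j => forall_congr' fun hj => ?_
      rw [Function.update_of_ne (fun h : j = i => hi (h ▸ hj))]
    rw [this, Measure.prod_prod, noise, Measure.infinitePi_pi _ (fun j _ => ht j)]
    simp

lemma lintegral_noise_update [DecidableEq I] (i : I) {f : (I → ℝ) → ℝ≥0∞} (hf : Measurable f) :
    ∫⁻ x, f x ∂noise I = ∫⁻ x, ∫⁻ y, f (Function.update x i y) ∂lap ∂noise I := by
  conv_lhs => rw [← noise_map_update i]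
  rw [lintegral_map hf (by fun_prop), lintegral_prod _ (by fun_prop)]

/-- one-coordinate transport of densities -/
lemma map_update_withDensity [DecidableEq I] (i : I) {D D' : (I → ℝ) → ℝ≥0∞} (hD : Measurable D)
    (hD' : Measurable D') {φ : (I → ℝ) → ℝ} (hφ : Measurable φ)
    (h : ∀ x, (lap.withDensity fun y => D (Function.update x i y)).map
      (fun y => φ (Function.update x i y)) = lap.withDensity fun y => D' (Function.update x i y)) :
    ((noise I).withDensity D).map (fun x => Function.update x i (φ x)) =
      (noise I).withDensity D' := by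
  have hT : Measurable fun x : I → ℝ => Function.update x i (φ x) := by fun_prop
  ext s hs
  set g : (I → ℝ) → ℝ≥0∞ := s.indicator 1 with hgdef
  have hg0 : Measurable g := measurable_one.indicator hs
  have hgT : Measurable fun x => g (Function.update x i (φ x)) := hg0.comp hT
  rw [← lintegral_indicator_one hs, ← lintegral_indicator_one hs, ← hgdef,
    lintegral_map hg0 hT,
    lintegral_withDensity_eq_lintegral_mul _ hD hgT,
    lintegral_withDensity_eq_lintegral_mul _ hD' hg0,
    lintegral_noise_update i (hD.mul hgT),
    lintegral_noise_update i (hD'.mul hg0)]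
  refine lintegral_congr fun x => ?_
  have hu : Measurable fun y : ℝ => Function.update x i y := by fun_prop
  have hg : Measurable fun y : ℝ => g (Function.update x i y) := hg0.comp hu
  have hφu : Measurable fun y : ℝ => φ (Function.update x i y) := hφ.comp hu
  have hDu : Measurable fun y : ℝ => D (Function.update x i y) := hD.comp hu
  have hD'u : Measurable fun y : ℝ => D' (Function.update x i y) := hD'.comp hu
  have hgφ : Measurable fun y : ℝ => g (Function.update x i (φ (Function.update x i y))) :=
    hg.comp hφu
  have e : ∫⁻ y, g (Function.update x i y) ∂(lap.withDensity fun y => D (Function.update x i y)).map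
      (fun y => φ (Function.update x i y)) =
      ∫⁻ y, g (Function.update x i y) ∂lap.withDensity fun y => D' (Function.update x i y) := by
    rw [h x]
  rw [lintegral_map hg hφu,
    lintegral_withDensity_eq_lintegral_mul _ hDu hgφ,
    lintegral_withDensity_eq_lintegral_mul _ hD'u hg] at e
  simpa using e

/-- the field seen at time vector `τ` and position `x` -/
noncomputable def thv (τ x : I → ℝ) : I → ℝ := fun j => th (τ j) (x j)

lemma measurable_wt {α : Type*} [MeasurableSpace α] (F : Finset I) {θ : α → I → ℝ}
    (hθ : ∀ j, Measurable fun a => θ a j) {σ : α → I → Bool} (hσ : ∀ j, Measurable fun a => σ a j) :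
    Measurable fun a => wt F (θ a) (σ a) := by
  unfold wt
  refine Finset.measurable_prod _ fun j _ => ?_
  refine Measurable.ite ?_ (Real.measurable_exp.comp (hθ j)) measurable_const
  exact (hσ j) (measurableSet_singleton true)

lemma measurable_Zf {α : Type*} [MeasurableSpace α] {νs : α → Measure (I → Bool)}
    [∀ a, IsFiniteMeasure (νs a)] (hν : ∀ F S, Measurable fun a => (νs a).real (cyl F S))
    {θ : α → I → ℝ} (hθ : ∀ j, Measurable fun a => θ a j) (F : Finset I) {F' : Finset I}
    {f : (I → Bool) → ℝ} (hf : DependsOn f (F' : Set I)) :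
    Measurable fun a => Zf (νs a) F (θ a) f := by
  classical
  have hf' : DependsOn f ((F ∪ F' : Finset I) : Set I) := hf.mono (by simp)
  simp only [Zf_eq_sum _ Finset.subset_union_left _ hf']
  refine Finset.measurable_sum _ fun S _ => (hν _ _).mul (measurable_const.mul ?_)
  exact measurable_wt F hθ fun _ => measurable_const

lemma measurable_occ {α : Type*} [MeasurableSpace α] {νs : α → Measure (I → Bool)}
    [∀ a, IsFiniteMeasure (νs a)] (hν : ∀ F S, Measurable fun a => (νs a).real (cyl F S))
    {θ : α → I → ℝ} (hθ : ∀ j, Measurable fun a => θ a j) (F : Finset I) (i : I) :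
    Measurable fun a => occ (νs a) F (θ a) i :=
  (measurable_Zf hν hθ F (dep_ind (Finset.mem_singleton_self i))).div
    (measurable_Zf hν hθ F (dep_const (F := ∅) 1))

lemma measurable_thv (τ : I → ℝ) (j : I) : Measurable fun x : I → ℝ => thv τ x j :=
  (continuous_th _).measurable.comp (measurable_pi_apply j)

variable (ν : Measure (I → Bool))

/-- density of the observation law -/
noncomputable def obsD (F : Finset I) (τ x : I → ℝ) : ℝ≥0∞ :=
  ENNReal.ofReal (Zf ν F (thv τ x) fun _ => 1)

/-- the observation law -/
noncomputable def obs (F : Finset I) (τ : I → ℝ) : Measure (I → ℝ) :=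
  (noise I).withDensity (obsD ν F τ)

lemma measurable_obsD [IsFiniteMeasure ν] (F : Finset I) (τ : I → ℝ) : Measurable (obsD ν F τ) :=
  ENNReal.measurable_ofReal.comp (measurable_Zf (νs := fun _ => ν) (fun _ _ => measurable_const)
    (measurable_thv τ) F (dep_const (F := ∅) 1))

lemma obs_zero [IsProbabilityMeasure ν] (F : Finset I) : obs ν F (fun _ => 0) = noise I := by
  have : obsD ν F (fun _ => 0) = 1 := by
    funext x
    simp [obsD, Zf, wt, thv, th_zero]
  rw [obs, this, withDensity_one]

lemma wt_erase [DecidableEq I] {F : Finset I} {i : I} (hi : i ∈ F) (θ : I → ℝ) (σ : I → Bool) :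
    wt F θ σ = wt (F.erase i) θ σ * ((1 - ind i σ) + ind i σ * Real.exp (θ i)) := by
  unfold wt
  rw [← Finset.prod_erase_mul _ _ hi]
  by_cases h : σ i = true <;> simp [h, ind]

lemma dep_one_sub_ind (i : I) : DependsOn (fun σ => 1 - ind i σ) (({i} : Finset I) : Set I) := by
  intro σ σ' h
  simp only [dep_ind (Finset.mem_singleton_self i) h]

lemma Zf_one_erase [DecidableEq I] [IsFiniteMeasure ν] {F : Finset I} {i : I} (hi : i ∈ F)
    (θ : I → ℝ) : Zf ν F θ (fun _ => 1) = Zf ν (F.erase i) θ (fun σ => 1 - ind i σ) +
      Zf ν (F.erase i) θ (ind i) * Real.exp (θ i) := by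
  unfold Zf
  rw [← integral_mul_const, ← integral_add (integrable_mul_wt (dep_one_sub_ind i) θ)
    ((integrable_mul_wt (dep_ind (Finset.mem_singleton_self i)) θ).mul_const _)]
  refine integral_congr_ae (Eventually.of_forall fun σ => ?_)
  simp only [wt_erase hi]; ring

lemma Zf_ind_erase [DecidableEq I] {F : Finset I} {i : I} (hi : i ∈ F)
    (θ : I → ℝ) : Zf ν F θ (ind i) = Zf ν (F.erase i) θ (ind i) * Real.exp (θ i) := by
  unfold Zf
  rw [← integral_mul_const]
  refine integral_congr_ae (Eventually.of_forall fun σ => ?_)
  simp only [wt_erase hi]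
  by_cases h : σ i = true <;> simp [h, ind]

lemma Zf_add_erase [IsFiniteMeasure ν] (F : Finset I) (i : I) (θ : I → ℝ) :
    Zf ν F θ (fun σ => 1 - ind i σ) + Zf ν F θ (ind i) = Zf ν F θ (fun _ => 1) := by
  unfold Zf
  rw [← integral_add (integrable_mul_wt (dep_one_sub_ind i) θ)
    (integrable_mul_wt (dep_ind (Finset.mem_singleton_self i)) θ)]
  refine integral_congr_ae (Eventually.of_forall fun σ => ?_)
  simp only; ring

/-- one exact step in one coordinate -/
lemma exists_step [DecidableEq I] [IsProbabilityMeasure ν] {F : Finset I} {i : I} (hi : i ∈ F)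
    (τ : I → ℝ) {h : ℝ} (hh : 0 ≤ h) (hh1 : h ≤ 1) :
    ∃ T : (I → ℝ) → (I → ℝ), Measurable T ∧
      (obs ν F τ).map T = obs ν F (Function.update τ i (τ i + h)) ∧
      ∀ x, (∀ j, j ≠ i → T x j = x j) ∧ |T x i - x i| ≤ h ∧
        |T x i - x i - h * occ ν F (thv τ x) i| ≤ 16 * h ^ 2 := by
  let A : (I → ℝ) → ℝ := fun x => Zf ν (F.erase i) (thv τ x) (fun σ => 1 - ind i σ)
  let B : (I → ℝ) → ℝ := fun x => Zf ν (F.erase i) (thv τ x) (ind i)
  have hA : ∀ x, 0 ≤ A x := fun x => Zf_nonneg _ _ fun σ => sub_nonneg.mpr (ind_le_one i σ)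
  have hB : ∀ x, 0 ≤ B x := fun x => Zf_nonneg _ _ (ind_nonneg i)
  have hAB : ∀ x, 0 < A x + B x := fun x => by
    simp only [A, B]; rw [Zf_add_erase]; exact Zf_one_pos ν _ _
  have mA : Measurable A := measurable_Zf (νs := fun _ => ν) (fun _ _ => measurable_const)
    (measurable_thv τ) _ (dep_one_sub_ind i)
  have mB : Measurable B := measurable_Zf (νs := fun _ => ν) (fun _ _ => measurable_const)
    (measurable_thv τ) _ (dep_ind (Finset.mem_singleton_self i))
  have hw : ∀ x y t, wt (F.erase i) (thv (Function.update τ i t) (Function.update x i y)) =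
      wt (F.erase i) (thv τ x) := by
    intro x y t
    apply wt_congr
    intro j hj
    simp [thv, Finset.ne_of_mem_erase hj]
  have hD : ∀ x y t, obsD ν F (Function.update τ i t) (Function.update x i y) =
      ENNReal.ofReal (A x + B x * Real.exp (th t y)) := by
    intro x y t
    rw [obsD, Zf_one_erase ν hi]
    simp only [Zf, hw, A, B]
    simp [thv]
  have hAu : ∀ x y, A (Function.update x i y) = A x := by
    intro x y
    have := hw x y (τ i)
    rw [Function.update_eq_self] at this
    simp only [A, Zf, this]
  have hBu : ∀ x y, B (Function.update x i y) = B x := by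
    intro x y
    have := hw x y (τ i)
    rw [Function.update_eq_self] at this
    simp only [B, Zf, this]
  let φ : (I → ℝ) → ℝ := fun x => tr (A x) (B x) (τ i) h (x i)
  have mφ : Measurable φ := by
    refine measurable_of_Iic fun c => ?_
    have : φ ⁻¹' Iic c =
        {x | mixF (A x) (B x) (τ i) (x i) ≤ mixF (A x) (B x) (τ i + h) c} := by
      ext x; simp [φ, tr_le_iff (hA x) (hB x) (hAB x) (τ i) hh]
    rw [this]
    have mc := continuous_cdfR.measurable
    apply measurableSet_le
    · unfold mixF; fun_prop
    · unfold mixF; fun_prop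
  refine ⟨fun x => Function.update x i (φ x), by fun_prop, ?_, fun x => ⟨?_, ?_, ?_⟩⟩
  · apply map_update_withDensity i (measurable_obsD ν F τ) (measurable_obsD ν F _) mφ
    intro x
    have e1 : (fun y => obsD ν F τ (Function.update x i y)) =
        fun y => ENNReal.ofReal (A x + B x * Real.exp (th (τ i) y)) := by
      funext y
      rw [← hD, Function.update_eq_self]
    have e2 : (fun y => φ (Function.update x i y)) = tr (A x) (B x) (τ i) h := by
      funext y
      simp [φ, hAu, hBu]
    simp only [e1, e2, hD]
    exact map_tr (hA x) (hB x) (hAB x) (τ i) hh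
  · intro j hj
    exact Function.update_of_ne hj _ _
  · simp only [Function.update_self, φ]
    rw [abs_le]
    constructor <;> linarith [le_tr (hA x) (hB x) (hAB x) (τ i) hh (x i),
      tr_le (hA x) (hB x) (hAB x) (τ i) hh (x i)]
  · simp only [Function.update_self, φ]
    have : occ ν F (thv τ x) i = B x * Real.exp (th (τ i) (x i)) /
        (A x + B x * Real.exp (th (τ i) (x i))) := by
      simp only [occ, Ex]
      rw [Zf_one_erase ν hi, Zf_ind_erase ν hi]
      rfl
    rw [this]
    exact tr_approx (hA x) (hB x) (hAB x) (τ i) hh hh1 (x i)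

variable {ν}

/-- an exact sweep through a set of coordinates -/
lemma Good.exists_sweep [DecidableEq I] [IsProbabilityMeasure ν] (hg : Good ν) {F : Finset I}
    (t : ℝ) {h : ℝ} (hh : 0 ≤ h) (hh1 : h ≤ 1) (G : Finset I) (hG : G ⊆ F) :
    ∃ T : (I → ℝ) → (I → ℝ), Measurable T ∧
      (obs ν F fun _ => t).map T = obs ν F (fun j => if j ∈ G then t + h else t) ∧
      ∀ x, (∀ j, j ∉ G → T x j = x j) ∧ (∀ j, |T x j - x j| ≤ h) ∧
        ∀ j ∈ G, |T x j - x j - h * occ ν F (thv (fun _ => t) x) j| ≤ 28 * h ^ 2 := by
  induction G using Finset.induction_on with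
  | empty => exact ⟨id, measurable_id, by simp, fun x => by simp [hh]⟩
  | insert i G hi ih =>
    obtain ⟨T, mT, hT, hT'⟩ := ih ((Finset.subset_insert _ _).trans hG)
    obtain ⟨S, mS, hS, hS'⟩ := exists_step ν (hG (Finset.mem_insert_self i G))
      (fun j => if j ∈ G then t + h else t) hh hh1
    refine ⟨S ∘ T, mS.comp mT, ?_, fun x => ?_⟩
    · rw [← Measure.map_map mS mT, hT, hS]
      congr 1
      funext j
      by_cases hj : j = i
      · subst hj; simp [hi]
      · simp [hj]
    obtain ⟨a1, a2, a3⟩ := hT' x
    obtain ⟨b1, b2, b3⟩ := hS' (T x)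
    refine ⟨fun j hj => ?_, fun j => ?_, fun j hj => ?_⟩
    · simp only [Finset.mem_insert, not_or] at hj
      simp only [Function.comp_apply]
      rw [b1 j hj.1, a1 j hj.2]
    · simp only [Function.comp_apply]
      by_cases hj : j = i
      · subst hj; rwa [a1 j hi] at b2
      · rw [b1 j hj]; exact a2 j
    · simp only [Function.comp_apply]
      by_cases hji : j = i
      · subst hji
        rw [a1 j hi] at b3
        have c := hg.lipschitz F j (θ := thv (fun _ => t) x)
          (θ' := thv (fun j => if j ∈ G then t + h else t) (T x)) (δ := 3 * h) (by positivity)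
          (fun k _ => by
            refine (abs_th_sub_le _ _ _ _).trans ?_
            have : |(if k ∈ G then t + h else t) - t| ≤ h := by
              split_ifs
              · simp [abs_of_nonneg hh]
              · simpa using hh
            linarith [a2 k])
        have c2 := mul_le_mul_of_nonneg_left c hh
        rw [← abs_of_nonneg hh, ← abs_mul, abs_of_nonneg hh] at c2
        rw [abs_le] at b3 c2 ⊢
        constructor <;> nlinarith [b3.1, b3.2, c2.1, c2.2]
      · rw [b1 j hji]
        exact a3 j ((Finset.mem_insert.mp hj).resolve_left hji)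

lemma obs_congr {F : Finset I} {τ τ' : I → ℝ} (h : ∀ j ∈ F, τ j = τ' j) :
    obs ν F τ = obs ν F τ' := by
  unfold obs
  congr 1
  funext x
  have : wt F (thv τ x) = wt F (thv τ' x) := wt_congr fun j hj => by simp [thv, h j hj]
  simp only [obsD, Zf, this]

/-- the exact scheme in finite volume -/
lemma Good.exists_scheme [IsProbabilityMeasure ν] (hg : Good ν) (F : Finset I)
    {h : ℝ} (hh : 0 ≤ h) (hh1 : h ≤ 1) :
    ∃ Y : ℕ → (I → ℝ) → (I → ℝ), (∀ k, Measurable (Y k)) ∧
      (∀ k : ℕ, (noise I).map (Y k) = obs ν F fun _ => k * h) ∧ (∀ z, Y 0 z = z) ∧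
      ∀ (k : ℕ) z, ∀ j ∈ F, |Y (k + 1) z j - Y k z j -
        h * occ ν F (thv (fun _ => k * h) (Y k z)) j| ≤ 28 * h ^ 2 := by
  classical
  choose T mT hT hT' using fun t : ℝ => hg.exists_sweep t hh hh1 F (subset_refl F)
  let Y : ℕ → (I → ℝ) → (I → ℝ) := fun k => Nat.rec id (fun k y => T (k * h) ∘ y) k
  have hY : ∀ k : ℕ, Y (k + 1) = T (k * h) ∘ Y k := fun k => rfl
  have mY : ∀ k, Measurable (Y k) := by
    intro k
    induction k with
    | zero => exact measurable_id
    | succ k ih => rw [hY]; exact (mT _).comp ih
  refine ⟨Y, mY, fun k => ?_, fun z => rfl, fun k z j hj => ?_⟩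
  · induction k with
    | zero =>
      simp only [Nat.cast_zero, zero_mul, obs_zero]
      exact Measure.map_id
    | succ k ih =>
      rw [hY, ← Measure.map_map (mT _) (mY k), ih, hT]
      apply obs_congr
      intro j hj
      simp only [hj, if_true]
      push_cast; ring
  · rw [hY]
    exact (hT' (k * h) (Y k z)).2.2 j hj

open Classical in
/-- the shift of the noise by the signal -/
noncomputable def sh (F : Finset I) (t : ℝ) (σ : I → Bool) (z : I → ℝ) : I → ℝ :=
  fun j => if j ∈ F then z j + t * ind j σ else z j

lemma measurable_sh (F : Finset I) (t : ℝ) (σ : I → Bool) : Measurable (sh F t σ) := by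
  refine measurable_pi_lambda _ fun j => ?_
  unfold sh
  split_ifs <;> fun_prop

lemma mix_shift {a : ℝ} (ha : 0 ≤ a) (c : ℝ) : (mix 0 a 0).map (· + c) = mix 0 a c := by
  have := isFiniteMeasure_mix le_rfl ha 0
  refine Measure.ext_of_Iic _ _ fun b => ?_
  rw [mix_Iic le_rfl ha, Measure.map_apply (by fun_prop) measurableSet_Iic]
  have : (fun x => x + c) ⁻¹' Iic b = Iic (b - c) := by ext y; simp [le_sub_iff_add_le]
  rw [this, mix_Iic le_rfl ha]
  simp [mixF]

lemma measurable_wtD (F : Finset I) (t : ℝ) (σ : I → Bool) :
    Measurable fun x : I → ℝ => ENNReal.ofReal (wt F (thv (fun _ => t) x) σ) :=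
  ENNReal.measurable_ofReal.comp (measurable_wt F (measurable_thv _) fun _ => measurable_const)

lemma withDensity_wt (F : Finset I) (t : ℝ) (σ : I → Bool) :
    (noise I).withDensity (fun x => ENNReal.ofReal (wt F (thv (fun _ => t) x) σ)) =
      (noise I).map (sh F t σ) := by
  classical
  induction F using Finset.induction_on with
  | empty =>
    have : sh (∅ : Finset I) t σ = id := by funext z j; simp [sh]
    simp [wt, this]
  | insert i F hi ih =>
    have e : sh (insert i F) t σ =
        (fun x => Function.update x i (x i + t * ind i σ)) ∘ sh F t σ := by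
      funext z j
      by_cases hj : j = i
      · subst hj; simp [sh, hi]
      · simp [sh, hj]
    rw [e, ← Measure.map_map (by fun_prop) (measurable_sh F t σ), ← ih]
    symm
    apply map_update_withDensity i (measurable_wtD F t σ) (measurable_wtD _ t σ) (by fun_prop)
    intro x
    have hw : ∀ y, wt F (thv (fun _ => t) (Function.update x i y)) σ =
        wt F (thv (fun _ => t) x) σ := by
      intro y
      rw [wt_congr]
      intro j hj
      have : j ≠ i := fun h => hi (h ▸ hj)
      simp [thv, this]
    have e1 : (fun y => ENNReal.ofReal (wt F (thv (fun _ => t) (Function.update x i y)) σ)) =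
        fun y => ENNReal.ofReal (0 + wt F (thv (fun _ => t) x) σ * Real.exp (th 0 y)) := by
      funext y; simp [hw, th_zero]
    have e2 : (fun y => ENNReal.ofReal
        (wt (insert i F) (thv (fun _ => t) (Function.update x i y)) σ)) =
        fun y => ENNReal.ofReal (0 + wt F (thv (fun _ => t) x) σ *
          Real.exp (th (t * ind i σ) y)) := by
      funext y
      rw [wt_erase (Finset.mem_insert_self i F), Finset.erase_insert hi, hw]
      by_cases h : σ i = true <;> simp [h, ind, thv, th_zero]
    rw [e1, e2]
    simp only [Function.update_self]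
    exact mix_shift (wt_pos _ _ _).le _

/-- the observation law is the mixture over `ν` of the shifted noise -/
lemma obs_apply [IsFiniteMeasure ν] (F : Finset I) (t : ℝ) {s : Set (I → ℝ)}
    (hs : MeasurableSet s) :
    obs ν F (fun _ => t) s = ∫⁻ σ, noise I (sh F t σ ⁻¹' s) ∂ν := by
  rw [obs, withDensity_apply _ hs]
  have e1 : ∀ x, obsD ν F (fun _ => t) x =
      ∫⁻ σ, ENNReal.ofReal (wt F (thv (fun _ => t) x) σ) ∂ν := by
    intro x
    rw [obsD, Zf, ofReal_integral_eq_lintegral_ofReal (integrable_mul_wt (dep_const (F := ∅) 1) _)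
      (Eventually.of_forall fun σ => by simp [(wt_pos _ _ _).le])]
    simp
  simp only [e1]
  rw [lintegral_lintegral_swap]
  · refine lintegral_congr fun σ => ?_
    rw [← withDensity_apply _ hs, withDensity_wt, Measure.map_apply (measurable_sh F t σ) hs]
  · refine (ENNReal.measurable_ofReal.comp (measurable_wt F (fun j => ?_) fun j => ?_)).aemeasurable
    · exact (measurable_thv (fun _ => t) j).comp measurable_fst
    · exact (measurable_pi_apply j).comp measurable_snd

end Crest.Agent.R168
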