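import Mathlib
import Crest.Agent.R168.Exact
import Crest.Prelude.Def_GraphTables

/-!
Independent labels on the edges of a locally finite graph obtained equivariantly from independent
label sequences on the vertices.
-/

set_option autoImplicit false

namespace Crest.Agent.R168

open MeasureTheory Filter Topology Set Crest.ProbabilityR.GraphTables
open scoped ENNReal

lemma noise_map_inj {D J : Type*} {ι : D → J} (hι : Function.Injective ι) :
    (noise J).map (fun b e => b (ι e)) = noise D := by
  classical
  refine Measure.eq_infinitePi _ fun s t ht => ?_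
  rw [Measure.map_apply (by fun_prop) (MeasurableSet.pi s.countable_toSet fun j _ => ht j)]
  have : (fun (b : J → ℝ) e => b (ι e)) ⁻¹' (Set.pi s t) =
      Set.pi (s.map ⟨ι, hι⟩) (Function.extend ι t fun _ => univ) := by
    ext b
    simp only [mem_preimage, Set.mem_pi, Finset.mem_coe, Finset.forall_mem_map,
      Function.Embedding.coeFn_mk, hι.extend_apply]
  rw [this, noise, Measure.infinitePi_pi, Finset.prod_map]
  · simp only [Function.Embedding.coeFn_mk, hι.extend_apply]
  · simp only [Finset.forall_mem_map, Function.Embedding.coeFn_mk, hι.extend_apply]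
    exact fun e _ => ht e

lemma noise_map_merge {J : Type*} (D : J → Prop) [DecidablePred D] :
    ((noise J).prod (noise J)).map (fun p j => if D j then p.1 j else p.2 j) = noise J := by
  refine Measure.eq_infinitePi _ fun s t ht => ?_
  have hm : Measurable fun (p : (J → ℝ) × (J → ℝ)) j => if D j then p.1 j else p.2 j :=
    measurable_pi_lambda _ fun j => by split_ifs <;> fun_prop
  rw [Measure.map_apply hm (MeasurableSet.pi s.countable_toSet fun j _ => ht j)]
  have : (fun (p : (J → ℝ) × (J → ℝ)) j => if D j then p.1 j else p.2 j) ⁻¹' (Set.pi s t) =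
      (Set.pi (s.filter D) t) ×ˢ (Set.pi (s.filter fun j => ¬ D j) t) := by
    ext p
    simp only [mem_preimage, Set.mem_pi, Finset.mem_coe, mem_prod, Finset.mem_filter]
    constructor
    · intro h
      exact ⟨fun j hj => by simpa [hj.2] using h j hj.1, fun j hj => by simpa [hj.2] using h j hj.1⟩
    · rintro ⟨h1, h2⟩ j hj
      split_ifs with h
      exacts [h1 j ⟨hj, h⟩, h2 j ⟨hj, h⟩]
  rw [this, Measure.prod_prod, noise, Measure.infinitePi_pi _ (fun j _ => ht j),
    Measure.infinitePi_pi _ (fun j _ => ht j), Finset.prod_filter_mul_prod_filter_not]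

lemma noise_ae_injective {J : Type*} [Countable J] : ∀ᵐ a ∂noise J, Function.Injective a := by
  classical
  have : ∀ i j : J, ∀ᵐ a ∂noise J, a i = a j → i = j := by
    intro i j
    by_cases h : i = j
    · simp [h]
    · have ms : MeasurableSet {a : J → ℝ | a i = a j} :=
        measurableSet_eq_fun (by fun_prop) (by fun_prop)
      have : noise J {a | a i = a j} = 0 := by
        rw [← lintegral_indicator_one ms, lintegral_noise_update i (measurable_one.indicator ms)]
        refine (lintegral_congr fun x => ?_).trans lintegral_zero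
        have : ∀ y, {a : J → ℝ | a i = a j}.indicator (1 : (J → ℝ) → ℝ≥0∞)
            (Function.update x i y) = ({x j} : Set ℝ).indicator 1 y := by
          intro y
          simp [indicator, Function.update_of_ne (Ne.symm h)]
        simp only [this]
        rw [lintegral_indicator_one (measurableSet_singleton _), measure_singleton]
      filter_upwards [measure_eq_zero_iff_ae_notMem.mp this] with a ha h' using absurd h' ha
  filter_upwards [ae_all_iff.mpr fun i => ae_all_iff.mpr (this i)] with a ha i j using ha i j

variable {V : Type*}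

/-- rank of the neighbour `u` among the neighbours of `v` -/
noncomputable def rank (G : SimpleGraph V) (r : V → ℝ) (v u : V) : ℕ :=
  {w | G.Adj v w ∧ r w < r u}.ncard

open Classical in
/-- the edge labels -/
noncomputable def lab (G : SimpleGraph V) (y : V → ℕ → ℝ) : Sym2 V → ℝ :=
  Sym2.lift ⟨fun u v => if y u 0 < y v 0 then y v (rank G (fun w => y w 0) v u + 1)
    else if y v 0 < y u 0 then y u (rank G (fun w => y w 0) u v + 1) else 0, by
      intro u v
      rcases lt_trichotomy (y u 0) (y v 0) with h | h | h
      · simp [h, h.not_gt]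
      · simp [h]
      · simp [h, h.not_gt]⟩

open Classical in
lemma lab_mk (G : SimpleGraph V) (y : V → ℕ → ℝ) (u v : V) :
    lab G y s(u, v) = if y u 0 < y v 0 then y v (rank G (fun w => y w 0) v u + 1)
      else if y v 0 < y u 0 then y u (rank G (fun w => y w 0) u v + 1) else 0 := rfl

lemma rank_comap (σ : Equiv.Perm V) (G : SimpleGraph V) (r : V → ℝ) (v u : V) :
    rank (G.comap σ) (fun w => r (σ w)) v u = rank G r (σ v) (σ u) := by
  unfold rank
  rw [← Set.ncard_image_of_injective _ σ.injective]
  congr 1
  ext w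
  obtain ⟨w, rfl⟩ := σ.surjective w
  simp

theorem lab_comap (σ : Equiv.Perm V) (G : SimpleGraph V) (y : V → ℕ → ℝ) :
    lab (G.comap σ) (y ∘ σ) = lab G y ∘ Sym2.map σ := by
  funext e
  induction e using Sym2.ind with
  | _ u v =>
  simp only [Function.comp_apply, Sym2.map_mk, lab_mk,
    rank_comap σ G (fun w => y w 0)]

theorem measurable_lab {α : Type*} [MeasurableSpace α] {p : α → ℕ → ℕ → Bool}
    (hp : Measurable p) {y : α → ℕ → ℕ → ℝ} (hy : ∀ v k, Measurable fun a => y a v k)
    (e : Sym2 ℕ) : Measurable fun a => lab (graphOfTable (p a)) (y a) e := by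
  have hr : ∀ v u, Measurable fun a => rank (graphOfTable (p a)) (fun w => y a w 0) v u := by
    intro v u
    refine measurable_ncard.comp (measurable_set_iff.mpr fun w => ?_)
    have h1 : ∀ i j, Measurable fun a => p a i j = true := fun i j =>
      measurableSet_setOfPred.mp (((measurable_pi_apply j).comp
        ((measurable_pi_apply i).comp hp)) (measurableSet_singleton true))
    simp only [mem_ofPred_eq, graphOfTable, SimpleGraph.fromRel_adj]
    exact (measurable_const.and ((h1 v w).or (h1 w v))).and
      (measurableSet_setOfPred.mp (measurableSet_lt (hy w 0) (hy u 0)))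
  have he : ∀ v (k : α → ℕ), Measurable k → Measurable fun a => y a v (k a + 1) := by
    intro v k hk
    have : Measurable fun q : α × ℕ => y q.1 v (q.2 + 1) :=
      measurable_from_prod_countable_left fun n => hy v (n + 1)
    exact this.comp (measurable_id.prodMk hk)
  induction e using Sym2.ind with
  | _ u v =>
  simp only [lab_mk]
  exact Measurable.ite (measurableSet_lt (hy u 0) (hy v 0)) (he v _ (hr v u))
    (Measurable.ite (measurableSet_lt (hy v 0) (hy u 0)) (he u _ (hr u v)) measurable_const)

lemma rank_inj {G : SimpleGraph V} (hfin : ∀ v, (G.neighborSet v).Finite) {r : V → ℝ}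
    (hr : Function.Injective r) {v u u' : V} (hu : G.Adj v u) (hu' : G.Adj v u')
    (h : rank G r v u = rank G r v u') : u = u' := by
  have key : ∀ a b : V, G.Adj v a → r a < r b → rank G r v a < rank G r v b := by
    intro a b ha hab
    refine Set.ncard_lt_ncard ⟨fun w hw => ⟨hw.1, hw.2.trans hab⟩, fun hsub => ?_⟩
      ((hfin v).subset fun w hw => hw.1)
    exact lt_irrefl _ (hsub ⟨ha, hab⟩).2
  rcases lt_trichotomy (r u) (r u') with h1 | h1 | h1
  · exact absurd h (key u u' hu h1).ne
  · exact hr h1
  · exact absurd h (key u' u hu' h1).ne'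

lemma exists_index {G : SimpleGraph V} (hfin : ∀ v, (G.neighborSet v).Finite) {r : V → ℝ}
    (hr : Function.Injective r) : ∃ ι : G.edgeSet → V × ℕ, Function.Injective ι ∧
      (∀ e, (ι e).2 ≠ 0) ∧ ∀ y : V → ℕ → ℝ, (∀ w, y w 0 = r w) →
        ∀ e : G.edgeSet, lab G y e = y (ι e).1 (ι e).2 := by
  have key : ∀ e : G.edgeSet, ∃ u v, (e : Sym2 V) = s(u, v) ∧ G.Adj v u ∧ r u < r v := by
    rintro ⟨e, he⟩
    induction e using Sym2.ind with
    | _ u v =>
    have hadj : G.Adj u v := he
    rcases lt_trichotomy (r u) (r v) with h | h | h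
    · exact ⟨u, v, rfl, hadj.symm, h⟩
    · exact absurd (hr h) hadj.ne
    · exact ⟨v, u, Sym2.eq_swap, hadj, h⟩
  choose u v h1 h2 h3 using key
  refine ⟨fun e => (v e, rank G r (v e) (u e) + 1), fun e e' h => ?_, fun e => Nat.succ_ne_zero _,
    fun y hy e => ?_⟩
  · simp only [Prod.mk.injEq, add_left_inj] at h
    obtain ⟨hv, hk⟩ := h
    have hu : u e = u e' := rank_inj hfin hr (h2 e) (hv ▸ h2 e') (by rw [hk, hv])
    apply Subtype.ext
    rw [h1, h1, hu, hv]
  · have : (fun w => y w 0) = r := funext hy
    rw [h1, lab_mk, hy, hy, if_pos (h3 e), this]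

/-- The labels of the edges are independent with the noise law. -/
theorem map_lab {G : SimpleGraph ℕ} (hfin : ∀ v, (G.neighborSet v).Finite) :
    (Measure.infinitePi fun _ : ℕ => noise ℕ).map (fun y (e : G.edgeSet) => lab G y e) =
      noise G.edgeSet := by
  classical
  have hG : graphOfTable (tableOf G) = G := by
    ext u v
    simp only [graphOfTable, tableOf, SimpleGraph.fromRel_adj, decide_eq_true_eq]
    exact ⟨fun h => h.2.elim id fun h => h.symm, fun h => ⟨h.ne, Or.inl h⟩⟩
  have mL : Measurable fun (y : ℕ → ℕ → ℝ) (e : G.edgeSet) => lab G y e := by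
    refine measurable_pi_lambda _ fun e => ?_
    have := measurable_lab (α := ℕ → ℕ → ℝ) (p := fun _ => tableOf G) measurable_const
      (y := fun a => a) (fun v k => by fun_prop) e
    rwa [hG] at this
  have e1 : (Measure.infinitePi fun _ : ℕ => noise ℕ) =
      (noise (ℕ × ℕ)).map (MeasurableEquiv.curry ℕ ℕ ℝ) :=
    (Measure.infinitePi_map_curry (fun _ _ => lap)).symm
  have hm : Measurable fun (p : (ℕ × ℕ → ℝ) × (ℕ × ℕ → ℝ)) (j : ℕ × ℕ) =>
      if j.2 = 0 then p.1 j else p.2 j :=
    measurable_pi_lambda _ fun j => by split_ifs <;> fun_prop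
  rw [e1, ← noise_map_merge (fun j : ℕ × ℕ => j.2 = 0),
    Measure.map_map (MeasurableEquiv.measurable _) hm,
    Measure.map_map mL ((MeasurableEquiv.measurable _).comp hm)]
  ext s hs
  have mT := mL.comp ((MeasurableEquiv.curry ℕ ℕ ℝ).measurable.comp hm)
  rw [Measure.map_apply mT hs, Measure.prod_apply (mT hs)]
  rw [lintegral_congr_ae (g := fun _ => noise G.edgeSet s)]
  · simp
  filter_upwards [noise_ae_injective (J := ℕ × ℕ)] with a ha
  obtain ⟨ι, h1, h2, h3⟩ := exists_index hfin (r := fun w => a (w, 0))
    (fun w w' h => (Prod.mk.inj (ha h)).1)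
  rw [← noise_map_inj h1, Measure.map_apply (by fun_prop) hs]
  congr 1
  ext b
  simp only [mem_preimage, Function.comp_apply]
  have : (fun e : G.edgeSet => lab G (MeasurableEquiv.curry ℕ ℕ ℝ
      fun j : ℕ × ℕ => if j.2 = 0 then a j else b j) e) = fun e => b (ι e) := by
    funext e
    rw [h3 _ (fun w => by simp [MeasurableEquiv.curry])]
    simp [MeasurableEquiv.curry, h2 e]
  rw [this]

end Crest.Agent.R168
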