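import Mathlib

/-!
Euler schemes for sup-norm Lipschitz drifts indexed by an arbitrary set.
-/

set_option autoImplicit false

namespace Crest.Agent.R168

open Filter Topology Set

variable {I : Type*}

/-- the Euler scheme with step `h` for the time-dependent drift `v` -/
noncomputable def euler (v : ℝ → (I → ℝ) → I → ℝ) (h : ℝ) : ℕ → (I → ℝ) → (I → ℝ)
  | 0, z => z
  | k + 1, z => fun i => euler v h k z i + h * v (k * h) (euler v h k z) i

lemma euler_zero (v : ℝ → (I → ℝ) → I → ℝ) (h : ℝ) (z : I → ℝ) : euler v h 0 z = z := rfl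

lemma euler_succ (v : ℝ → (I → ℝ) → I → ℝ) (h : ℝ) (k : ℕ) (z : I → ℝ) (i : I) :
    euler v h (k + 1) z i = euler v h k z i + h * v (k * h) (euler v h k z) i := rfl

/-- Lipschitz property with respect to time and the coordinates in `S` -/
def LipOn (S : Set I) (v : ℝ → (I → ℝ) → I → ℝ) : Prop :=
  ∀ (t t' : ℝ) (x x' : I → ℝ) (δ : ℝ), 0 ≤ δ → (∀ j ∈ S, |x j - x' j| ≤ δ) → |t - t'| ≤ δ →
    ∀ i, |v t x i - v t' x' i| ≤ 12 * δ

lemma pseudo_orbit {S : Set I} {v : ℝ → (I → ℝ) → I → ℝ} (hv : LipOn S v) {h : ℝ} (hh : 0 ≤ h)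
    {y : ℕ → I → ℝ} {z : I → ℝ} (h0 : ∀ j ∈ S, y 0 j = z j)
    (hy : ∀ (k : ℕ), ∀ j ∈ S, |y (k + 1) j - y k j - h * v (k * h) (y k) j| ≤ 28 * h ^ 2) (k : ℕ) :
    ∀ j ∈ S, |y k j - euler v h k z j| ≤ 28 * h ^ 2 * k * (1 + 12 * h) ^ k := by
  induction k with
  | zero => intro j hj; simp [euler_zero, h0 j hj]
  | succ k ih =>
    intro j hj
    set e := 28 * h ^ 2 * k * (1 + 12 * h) ^ k with he
    have he0 : 0 ≤ e := by positivity
    have a1 := hv (k * h) (k * h) (y k) (euler v h k z) e he0 ih (by simpa using he0) j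
    have a2 := hy k j hj
    have a3 := ih j hj
    have a4 := mul_le_mul_of_nonneg_left a1 hh
    rw [← abs_of_nonneg hh, ← abs_mul, abs_of_nonneg hh] at a4
    have a5 : (1 : ℝ) ≤ (1 + 12 * h) ^ (k + 1) := one_le_pow₀ (by linarith)
    have a6 : 28 * h ^ 2 * ((k + 1 : ℕ) : ℝ) * (1 + 12 * h) ^ (k + 1) =
        e * (1 + 12 * h) + 28 * h ^ 2 * (1 + 12 * h) ^ (k + 1) := by
      rw [he]; push_cast; ring
    have a7 : 28 * h ^ 2 ≤ 28 * h ^ 2 * (1 + 12 * h) ^ (k + 1) :=
      le_mul_of_one_le_right (by positivity) a5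
    rw [a6, euler_succ]
    rw [abs_le] at a2 a3 a4 ⊢
    constructor <;> nlinarith [a2.1, a2.2, a3.1, a3.2, a4.1, a4.2]

lemma euler_add_sub {v : ℝ → (I → ℝ) → I → ℝ} (h0 : ∀ t x i, 0 ≤ v t x i)
    (h1 : ∀ t x i, v t x i ≤ 1) {h : ℝ} (hh : 0 ≤ h) (k r : ℕ) (z : I → ℝ) (i : I) :
    |euler v h (k + r) z i - euler v h k z i| ≤ r * h := by
  induction r with
  | zero => simp
  | succ r ih =>
    rw [← add_assoc, euler_succ]
    have a := h0 (((k + r : ℕ) : ℝ) * h) (euler v h (k + r) z) i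
    have b := h1 (((k + r : ℕ) : ℝ) * h) (euler v h (k + r) z) i
    have c := mul_nonneg hh a
    have d := mul_le_of_le_one_right hh b
    push_cast at c d ⊢
    rw [abs_le] at ih ⊢
    constructor <;> nlinarith [ih.1, ih.2]

/-- the refined scheme, observed every `B` steps, is a pseudo-orbit of the coarse scheme -/
lemma refine_step {v : ℝ → (I → ℝ) → I → ℝ} (hv : LipOn univ v) (h0 : ∀ t x i, 0 ≤ v t x i)
    (h1 : ∀ t x i, v t x i ≤ 1) {h' : ℝ} (hh : 0 ≤ h') (B k : ℕ) (z : I → ℝ) (j : I) :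
    |euler v h' ((k + 1) * B) z j - euler v h' (k * B) z j -
      (B * h') * v (k * (B * h')) (euler v h' (k * B) z) j| ≤ 28 * (B * h') ^ 2 := by
  set h := B * h' with hdef
  have hh0 : 0 ≤ h := by positivity
  have key : ∀ r : ℕ, r ≤ B → |euler v h' (k * B + r) z j - euler v h' (k * B) z j -
      (r * h') * v (k * h) (euler v h' (k * B) z) j| ≤ r * h' * (12 * h) := by
    intro r
    induction r with
    | zero => simp
    | succ r ih =>
      intro hr
      have ih' := ih (by omega)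
      have hrB : (r : ℝ) * h' ≤ h := by
        rw [hdef]; gcongr; exact_mod_cast (by omega : r ≤ B)
      have a1 := hv (((k * B + r : ℕ) : ℝ) * h') (k * h) (euler v h' (k * B + r) z)
        (euler v h' (k * B) z) h hh0
        (fun i _ => (euler_add_sub h0 h1 hh (k * B) r z i).trans hrB) (by
          have : ((k * B + r : ℕ) : ℝ) * h' - k * h = r * h' := by rw [hdef]; push_cast; ring
          rw [this, abs_of_nonneg (by positivity)]; exact hrB) j
      have a4 := mul_le_mul_of_nonneg_left a1 hh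
      rw [← abs_of_nonneg hh, ← abs_mul, abs_of_nonneg hh] at a4
      rw [← add_assoc, euler_succ]
      push_cast at a4 ⊢
      rw [abs_le] at ih' a4 ⊢
      constructor <;> nlinarith [ih'.1, ih'.2, a4.1, a4.2]
  have := key B le_rfl
  rw [add_mul, one_mul]
  refine this.trans ?_
  rw [← hdef]
  nlinarith [sq_nonneg h]

/-- refinement factor -/
def BB : ℕ := 30000000

/-- number of steps per unit time used up to time `n` -/
def NN (n : ℕ) : ℕ := BB ^ n

lemma NN_pos (n : ℕ) : 0 < NN n := pow_pos (by unfold BB; norm_num) n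

lemma NN_succ (n : ℕ) : NN (n + 1) = NN n * BB := pow_succ _ _

lemma step_nonneg (n : ℕ) : (0 : ℝ) ≤ ((NN n : ℝ))⁻¹ := by positivity

lemma step_le_one (n : ℕ) : ((NN n : ℝ))⁻¹ ≤ 1 :=
  inv_le_one_of_one_le₀ (by exact_mod_cast NN_pos n)

lemma err_le_one (n : ℕ) : 28 * ((NN n : ℝ)⁻¹) ^ 2 * ((n * NN n : ℕ) : ℝ) *
    (1 + 12 * (NN n : ℝ)⁻¹) ^ (n * NN n) ≤ 1 := by
  have hN : (0 : ℝ) < NN n := by exact_mod_cast NN_pos n
  have a1 : (1 + 12 * (NN n : ℝ)⁻¹) ^ (n * NN n) ≤ (3 ^ 12) ^ n := by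
    calc (1 + 12 * (NN n : ℝ)⁻¹) ^ (n * NN n)
        ≤ (Real.exp (12 * (NN n : ℝ)⁻¹)) ^ (n * NN n) := by
          gcongr
          linarith [Real.add_one_le_exp (12 * (NN n : ℝ)⁻¹)]
      _ = (Real.exp 1 ^ 12) ^ n := by
          rw [← Real.exp_nat_mul, ← Real.exp_nat_mul, ← Real.exp_nat_mul]
          congr 1
          push_cast
          field_simp
      _ ≤ (3 ^ 12) ^ n := by
          gcongr
          exact Real.exp_one_lt_three.le
  have a2 : (28 : ℝ) * n ≤ 56 ^ n := by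
    rcases n with _ | n
    · simp
    · have : (n + 1 : ℕ) ≤ 2 ^ n := Nat.lt_two_pow_self
      have h2 : ((n + 1 : ℕ) : ℝ) ≤ 2 ^ n := by exact_mod_cast this
      have h3 : (2 : ℝ) ^ n ≤ 56 ^ n := by gcongr; norm_num
      rw [pow_succ]
      have : (0 : ℝ) ≤ 56 ^ n := by positivity
      linarith
  have a3 : (56 : ℝ) ^ n * (3 ^ 12) ^ n ≤ NN n := by
    rw [← mul_pow, NN]
    push_cast
    gcongr
    unfold BB
    norm_num
  have e : 28 * ((NN n : ℝ)⁻¹) ^ 2 * ((n * NN n : ℕ) : ℝ) = 28 * n / NN n := by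
    push_cast; field_simp
  rw [e, div_mul_eq_mul_div, div_le_one hN]
  exact le_trans (mul_le_mul a2 a1 (by positivity) (by positivity)) a3

/-- approximate position at time `n` -/
noncomputable def posn (v : ℝ → (I → ℝ) → I → ℝ) (n : ℕ) (z : I → ℝ) : I → ℝ :=
  euler v (NN n : ℝ)⁻¹ (n * NN n) z

lemma posn_succ_sub {v : ℝ → (I → ℝ) → I → ℝ} (hv : LipOn univ v) (h0 : ∀ t x i, 0 ≤ v t x i)
    (h1 : ∀ t x i, v t x i ≤ 1) (n : ℕ) (z : I → ℝ) (i : I) :
    |posn v (n + 1) z i - posn v n z i| ≤ 2 := by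
  have hN : (0 : ℝ) < NN n := by exact_mod_cast NN_pos n
  have hN' : (0 : ℝ) < NN (n + 1) := by exact_mod_cast NN_pos (n + 1)
  have hB : (BB : ℝ) * (NN (n + 1) : ℝ)⁻¹ = (NN n : ℝ)⁻¹ := by
    have : (0 : ℝ) < BB := by unfold BB; norm_num
    rw [NN_succ]; push_cast; field_simp
  have a1 := euler_add_sub h0 h1 (step_nonneg (n + 1)) (n * NN (n + 1)) (NN (n + 1)) z i
  rw [mul_inv_cancel₀ hN'.ne', ← add_one_mul] at a1
  have a2 := pseudo_orbit hv (step_nonneg n)
    (y := fun k => euler v (NN (n + 1) : ℝ)⁻¹ (k * BB) z) (z := z) (fun j _ => by simp [euler_zero])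
    (fun k j _ => by
      have := refine_step hv h0 h1 (step_nonneg (n + 1)) BB k z j
      rwa [hB] at this) (n * NN n) i (mem_univ i)
  have a3 := a2.trans (err_le_one n)
  simp only [mul_assoc, ← NN_succ] at a3
  unfold posn
  rw [abs_le] at a1 a3 ⊢
  constructor <;> linarith [a1.1, a1.2, a3.1, a3.2]

/-- stabilisation of the sign -/
lemma eventually_lt_of_not {x : ℕ → ℝ} (h1 : ∀ n, |x (n + 1) - x n| ≤ 2)
    (h2 : ∀ᶠ n : ℕ in atTop, ¬ |x n - n / 2| < 3) (h3 : ¬ ∀ᶠ n : ℕ in atTop, (n : ℝ) / 2 < x n) :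
    ∀ᶠ n : ℕ in atTop, x n < n / 2 := by
  obtain ⟨N, hN⟩ := eventually_atTop.mp h2
  refine eventually_atTop.mpr ⟨N, fun n hn => ?_⟩
  by_contra hcon
  push Not at hcon
  apply h3
  refine eventually_atTop.mpr ⟨n, fun m hm => ?_⟩
  have key : ∀ k : ℕ, 3 ≤ x (n + k) - ((n + k : ℕ) : ℝ) / 2 := by
    intro k
    induction k with
    | zero =>
      have := hN n hn
      rw [not_lt, abs_of_nonneg (by linarith)] at this
      simpa using this
    | succ k ih =>
      have a := hN (n + (k + 1)) (by omega)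
      have b := abs_le.mp (h1 (n + k))
      rw [not_lt, abs_of_nonneg] at a
      · exact a
      · rw [← add_assoc]; push_cast at ih ⊢; linarith [b.1]
  obtain ⟨k, rfl⟩ := Nat.exists_eq_add_of_le hm
  linarith [key k]

end Crest.Agent.R168
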