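import Mathlib
import Crest.Agent.R168.Exact
import Crest.Agent.R168.Euler

/-!
The factor map: a `Good` law on `I → Bool` is the image of independent noise under a canonical,
relabelling-equivariant measurable map.
-/

set_option autoImplicit false

namespace Crest.Agent.R168

open MeasureTheory Filter Topology Set
open scoped ENNReal

variable {I : Type*}

/-- infinite-volume drift -/
noncomputable def vInf (ν : Measure (I → Bool)) (t : ℝ) (x : I → ℝ) : I → ℝ :=
  drift ν (thv (fun _ => t) x)

/-- finite-volume drift -/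
noncomputable def vFin (ν : Measure (I → Bool)) (F : Finset I) (t : ℝ) (x : I → ℝ) : I → ℝ :=
  occ ν F (thv (fun _ => t) x)

open Classical in
/-- the factor map -/
noncomputable def fac (ν : Measure (I → Bool)) (z : I → ℝ) : I → Bool :=
  fun i => decide (∀ᶠ n : ℕ in atTop, (n : ℝ) / 2 < posn (vInf ν) n z i)

lemma abs_thv_le (t : ℝ) (x : I → ℝ) (j : I) : |thv (fun _ => t) x j| ≤ |t| := abs_th_le _ _

variable {ν : Measure (I → Bool)}

lemma Good.lip_vInf [IsProbabilityMeasure ν] (hg : Good ν) : LipOn univ (vInf ν) := by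
  intro t t' x x' δ hδ hx ht i
  have := hg.drift_lipschitz i (abs_thv_le t' x') (abs_thv_le t x) (δ := 3 * δ) (by positivity)
    (fun j => (abs_th_sub_le _ _ _ _).trans (by linarith [hx j (mem_univ j)]))
  unfold vInf
  linarith

lemma Good.lip_vFin [IsProbabilityMeasure ν] (hg : Good ν) (F : Finset I) :
    LipOn (F : Set I) (vFin ν F) := by
  intro t t' x x' δ hδ hx ht i
  have := hg.lipschitz F i (θ := thv (fun _ => t') x') (θ' := thv (fun _ => t) x) (δ := 3 * δ)
    (by positivity) (fun j hj => (abs_th_sub_le _ _ _ _).trans (by linarith [hx j hj]))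
  unfold vFin
  linarith

lemma Good.tendsto_euler [IsProbabilityMeasure ν] (hg : Good ν) {α : Type*} {l : Filter α}
    {Fs : α → Finset I} (hF : Tendsto Fs l atTop) (h : ℝ) (k : ℕ) (z : I → ℝ) (i : I) :
    Tendsto (fun a => euler (vFin ν (Fs a)) h k z i) l (𝓝 (euler (vInf ν) h k z i)) := by
  induction k generalizing i with
  | zero => exact tendsto_const_nhds
  | succ k ih =>
    simp only [euler_succ]
    refine (ih i).add (Tendsto.const_mul _ ?_)
    exact hg.tendsto_drift' i hF (abs_thv_le _ _) (fun a j => abs_thv_le _ _ j)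
      (fun j => ((continuous_th _).tendsto _).comp (ih j))

section Measurability

variable {α : Type*} [MeasurableSpace α] {νs : α → Measure (I → Bool)}
  [∀ a, IsProbabilityMeasure (νs a)]

lemma measurable_vInf [Countable I] (hg : ∀ a, Good (νs a))
    (hν : ∀ F S, Measurable fun a => (νs a).real (cyl F S)) (t : ℝ) {x : α → I → ℝ}
    (hx : ∀ j, Measurable fun a => x a j) (i : I) : Measurable fun a => vInf (νs a) t (x a) i := by
  classical
  refine measurable_of_tendsto_metrizable' (atTop : Filter (Finset I))
    (f := fun F a => occ (νs a) F (thv (fun _ => t) (x a)) i) (fun F => ?_) ?_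
  · exact measurable_occ hν (fun j => (continuous_th _).measurable.comp (hx j)) F i
  · exact tendsto_pi_nhds.mpr fun a => (hg a).tendsto_drift i (abs_thv_le t (x a))

lemma measurable_euler [Countable I] (hg : ∀ a, Good (νs a))
    (hν : ∀ F S, Measurable fun a => (νs a).real (cyl F S)) {z : α → I → ℝ}
    (hz : ∀ j, Measurable fun a => z a j) (h : ℝ) (k : ℕ) (i : I) :
    Measurable fun a => euler (vInf (νs a)) h k (z a) i := by
  induction k generalizing i with
  | zero => exact hz i
  | succ k ih =>
    simp only [euler_succ]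
    exact (ih i).add ((measurable_vInf hg hν _ ih i).const_mul _)

theorem measurable_fac [Countable I] (hg : ∀ a, Good (νs a))
    (hν : ∀ F S, Measurable fun a => (νs a).real (cyl F S)) {z : α → I → ℝ}
    (hz : ∀ j, Measurable fun a => z a j) : Measurable fun a => fac (νs a) (z a) := by
  refine measurable_pi_lambda _ fun i => ?_
  refine measurable_to_bool ?_
  have : (fun a => fac (νs a) (z a) i) ⁻¹' {true} =
      ⋃ N : ℕ, ⋂ n : ℕ, ⋂ _ : N ≤ n, {a | (n : ℝ) / 2 < posn (vInf (νs a)) n (z a) i} := by
    ext a
    simp [fac, eventually_atTop]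
  rw [this]
  refine MeasurableSet.iUnion fun N => MeasurableSet.iInter fun n => MeasurableSet.iInter fun _ =>
    measurableSet_lt measurable_const (measurable_euler hg hν hz _ _ i)

end Measurability

section Equivariance

variable {J : Type*}

lemma measurable_comp_equiv (e : J ≃ I) : Measurable fun (σ : I → Bool) => σ ∘ e :=
  measurable_pi_lambda _ fun j => measurable_pi_apply (e j)

lemma measurable_ind (i : I) : Measurable (ind i) := by
  unfold ind
  have h : Measurable fun σ : I → Bool => σ i := measurable_pi_apply i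
  exact Measurable.ite (h (measurableSet_singleton true)) measurable_const measurable_const

lemma occ_map (ν : Measure (I → Bool)) (e : J ≃ I) (F : Finset J) (θ : I → ℝ) (j : J) :
    occ (ν.map fun σ => σ ∘ e) F (θ ∘ e) j = occ ν (F.map e.toEmbedding) θ (e j) := by
  have hw : ∀ σ : I → Bool, wt F (θ ∘ e) (σ ∘ e) = wt (F.map e.toEmbedding) θ σ := by
    intro σ; simp [wt]
  have mw : Measurable (wt F (θ ∘ e)) :=
    measurable_wt F (θ := fun _ => θ ∘ e) (σ := fun σ => σ) (fun _ => measurable_const)
      fun j => measurable_pi_apply j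
  simp only [occ, Ex, Zf]
  have m1 : Measurable fun σ => ind j σ * wt F (θ ∘ e) σ := (measurable_ind j).mul mw
  have m2 : Measurable fun σ => 1 * wt F (θ ∘ e) σ := measurable_const.mul mw
  rw [integral_map (measurable_comp_equiv e).aemeasurable m1.aestronglyMeasurable,
    integral_map (measurable_comp_equiv e).aemeasurable m2.aestronglyMeasurable]
  simp only [hw]
  rfl

lemma drift_map (ν : Measure (I → Bool)) (e : J ≃ I) (θ : I → ℝ) (j : J) :
    drift (ν.map fun σ => σ ∘ e) (θ ∘ e) j = drift ν θ (e j) := by
  simp only [drift, occ_map]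
  let φ : Finset J ≃o Finset I := e.finsetCongr.toOrderIso
    (fun _ _ h => Finset.map_subset_map.mpr h) (fun _ _ h => Finset.map_subset_map.mpr h)
  have h : map (fun F : Finset J => occ ν (F.map e.toEmbedding) θ (e j)) atTop =
      map (fun F : Finset I => occ ν F θ (e j)) atTop := by
    rw [← φ.map_atTop, map_map]
    rfl
  unfold limUnder
  rw [h]

lemma euler_map (ν : Measure (I → Bool)) (e : J ≃ I) (h : ℝ) (k : ℕ) (z : I → ℝ) :
    euler (vInf (ν.map fun σ => σ ∘ e)) h k (z ∘ e) = euler (vInf ν) h k z ∘ e := by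
  induction k with
  | zero => rfl
  | succ k ih =>
    funext j
    simp only [euler_succ, Function.comp_apply, ih, vInf]
    rw [← drift_map]
    rfl

theorem fac_map (ν : Measure (I → Bool)) (e : J ≃ I) (z : I → ℝ) :
    fac (ν.map fun σ => σ ∘ e) (z ∘ e) = fac ν z ∘ e := by
  funext j
  simp only [fac, Function.comp_apply]
  rw [decide_eq_decide]
  simp only [posn, euler_map, Function.comp_apply]

end Equivariance

section Locality

lemma occ_local {D : Set I} (hD : ∀ j, j ∉ D → ν {σ | σ j = true} = 0) (F : Finset I)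
    {θ θ' : I → ℝ} (h : ∀ j ∈ D, θ j = θ' j) (i : I) : occ ν F θ i = occ ν F θ' i := by
  have hw : ∀ᵐ σ ∂ν, wt F θ σ = wt F θ' σ := by
    have : ∀ᵐ σ ∂ν, ∀ j ∈ F, j ∉ D → ¬ σ j = true := by
      rw [Finset.eventually_all]
      intro j _
      by_cases hj : j ∈ D
      · simp [hj]
      · have := measure_eq_zero_iff_ae_notMem.mp (hD j hj)
        filter_upwards [this] with σ hσ _ using hσ
    filter_upwards [this] with σ hσ
    refine Finset.prod_congr rfl fun j hj => ?_
    by_cases hjD : j ∈ D
    · rw [h j hjD]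
    · simp [hσ j hj hjD]
  have hZ : ∀ f, Zf ν F θ f = Zf ν F θ' f := fun f =>
    integral_congr_ae (hw.mono fun σ hσ => by simp only [hσ])
  simp only [occ, Ex, hZ]

lemma euler_local {D : Set I} (hD : ∀ j, j ∉ D → ν {σ | σ j = true} = 0) {z z' : I → ℝ}
    (hz : ∀ j ∈ D, z j = z' j) (h : ℝ) (k : ℕ) :
    ∀ j ∈ D, euler (vInf ν) h k z j = euler (vInf ν) h k z' j := by
  induction k with
  | zero => exact hz
  | succ k ih =>
    intro j hj
    have : ∀ F, occ ν F (thv (fun _ => k * h) (euler (vInf ν) h k z)) j =
        occ ν F (thv (fun _ => k * h) (euler (vInf ν) h k z')) j :=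
      fun F => occ_local hD F (fun i hi => by simp only [thv, ih i hi]) j
    simp only [euler_succ, ih j hj, vInf, drift, this]

theorem fac_local {D : Set I} (hD : ∀ j, j ∉ D → ν {σ | σ j = true} = 0) {z z' : I → ℝ}
    (hz : ∀ j ∈ D, z j = z' j) : ∀ j ∈ D, fac ν z j = fac ν z' j := by
  intro j hj
  simp only [fac]
  rw [decide_eq_decide]
  simp only [posn, euler_local hD hz _ _ j hj]

end Locality

section Law

lemma meas_le_of_eventually {Ω : Type*} [MeasurableSpace Ω] {μ : Measure Ω} {A : Set Ω}
    {As : ℕ → Set Ω} {cs : ℕ → ℝ≥0∞} {c : ℝ≥0∞}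
    (h1 : ∀ᵐ z ∂μ, z ∈ A → ∀ᶠ n in atTop, z ∈ As n) (h2 : ∀ᶠ n in atTop, μ (As n) ≤ cs n)
    (h3 : Tendsto cs atTop (𝓝 c)) : μ A ≤ c := by
  have a : A ≤ᵐ[μ] (⋃ N : ℕ, ⋂ n : ℕ, ⋂ _ : N ≤ n, As n : Set Ω) := by
    filter_upwards [h1] with z hz hA
    obtain ⟨N, hN⟩ := eventually_atTop.mp (hz hA)
    exact mem_iUnion.mpr ⟨N, mem_iInter₂.mpr hN⟩
  refine (measure_mono_ae a).trans ?_
  rw [Monotone.measure_iUnion (fun N M hNM => biInter_subset_biInter_left fun n hn => hNM.trans hn)]
  refine iSup_le fun N => ge_of_tendsto h3 ?_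
  filter_upwards [h2, eventually_ge_atTop N] with n hn hN
  exact (measure_mono (biInter_subset_of_mem hN)).trans hn

lemma Good.transfer [Countable I] [IsProbabilityMeasure ν] (hg : Good ν) (n : ℕ) (K : Finset I)
    {U V : Set (I → ℝ)} (hU : IsOpen U) (hV : MeasurableSet V)
    (hUV : ∀ x ∈ U, ∀ y : I → ℝ, (∀ i ∈ K, |y i - x i| ≤ 1) → y ∈ V) {c : ℝ≥0∞}
    (hc : ∀ F : Finset I, K ⊆ F → obs ν F (fun _ => n) V ≤ c) :
    noise I {z | posn (vInf ν) n z ∈ U} ≤ c := by
  classical
  obtain ⟨Fs, hFs⟩ := exists_seq_tendsto (atTop : Filter (Finset I))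
  choose Y mY hY h0 hstep using fun F : Finset I =>
    hg.exists_scheme F (step_nonneg n) (step_le_one n)
  have hN : (0 : ℝ) < NN n := by exact_mod_cast NN_pos n
  refine meas_le_of_eventually (As := fun m => Y (Fs m) (n * NN n) ⁻¹' V) (cs := fun _ => c)
    (Eventually.of_forall fun z hz => ?_) ?_ tendsto_const_nhds
  · have ht : Tendsto (fun m => posn (vFin ν (Fs m)) n z) atTop (𝓝 (posn (vInf ν) n z)) :=
      tendsto_pi_nhds.mpr fun i => hg.tendsto_euler hFs _ _ z i
    filter_upwards [ht.eventually (hU.mem_nhds hz), hFs.eventually (eventually_ge_atTop K)]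
      with m h1 h2
    refine hUV _ h1 _ fun i hi => ?_
    exact (pseudo_orbit (hg.lip_vFin (Fs m)) (step_nonneg n) (y := fun k => Y (Fs m) k z)
      (fun j _ => by rw [h0]) (fun k j hj => hstep (Fs m) k z j hj) (n * NN n) i (h2 hi)).trans
      (err_le_one n)
  · filter_upwards [hFs.eventually (eventually_ge_atTop K)] with m h2
    rw [← Measure.map_apply (mY _ _) hV, hY]
    have : ((n * NN n : ℕ) : ℝ) * (NN n : ℝ)⁻¹ = n := by push_cast; field_simp
    rw [this]
    exact hc _ h2

/-- tail bound -/
noncomputable def dl (n : ℕ) : ℝ≥0∞ := ENNReal.ofReal (Real.exp (-((n : ℝ) / 2 - 4)))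

lemma summable_dl_real : Summable fun n : ℕ => Real.exp (-((n : ℝ) / 2 - 4)) := by
  have : (fun n : ℕ => Real.exp (-((n : ℝ) / 2 - 4))) =
      fun n : ℕ => Real.exp 4 * Real.exp (-(1 / 2)) ^ n := by
    funext n
    rw [← Real.exp_nat_mul, ← Real.exp_add]
    congr 1; ring
  rw [this]
  exact (summable_geometric_of_lt_one (Real.exp_pos _).le
    (Real.exp_lt_one_iff.mpr (by norm_num))).mul_left _

lemma tsum_dl_ne_top : ∑' n, dl n ≠ ∞ := by
  unfold dl
  rw [← ENNReal.ofReal_tsum_of_nonneg (fun n => (Real.exp_pos _).le) summable_dl_real]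
  exact ENNReal.ofReal_ne_top

lemma tendsto_dl : Tendsto dl atTop (𝓝 0) := ENNReal.tendsto_atTop_zero_of_tsum_ne_top tsum_dl_ne_top

lemma noise_tail (i : I) (n : ℕ) : noise I {z | (n : ℝ) / 2 - 4 < |z i|} ≤ dl n := by
  have := (measurePreserving_eval_infinitePi (fun _ : I => lap) i).measure_preimage
    (s := {y : ℝ | (n : ℝ) / 2 - 4 < |y|})
    (measurableSet_lt measurable_const (by fun_prop)).nullMeasurableSet
  exact this.le.trans (lap_tail _)

lemma Good.bad_le [Countable I] [IsProbabilityMeasure ν] (hg : Good ν) (n : ℕ) (i : I) :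
    noise I {z | |posn (vInf ν) n z i - n / 2| < 3} ≤ dl n := by
  refine hg.transfer n {i} (U := {x | |x i - n / 2| < 3}) (V := {x | |x i - n / 2| < 4})
    (isOpen_lt (by fun_prop) continuous_const) (measurableSet_lt (by fun_prop) measurable_const)
    (fun x hx y hy => ?_) (fun F hF => ?_)
  · have h1 := hy i (Finset.mem_singleton_self i)
    simp only [mem_ofPred_eq] at hx ⊢
    rw [abs_lt] at hx ⊢
    rw [abs_le] at h1
    constructor <;> linarith [hx.1, hx.2, h1.1, h1.2]
  · rw [obs_apply F n (measurableSet_lt (by fun_prop) measurable_const)]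
    refine (lintegral_mono fun σ => (measure_mono ?_).trans (noise_tail i n)).trans (by simp)
    intro z hz
    have hi : i ∈ F := hF (Finset.mem_singleton_self i)
    simp only [mem_preimage, mem_ofPred_eq, sh, hi, if_true, ind] at hz ⊢
    rw [abs_lt] at hz
    split_ifs at hz
    · linarith [hz.2, neg_le_abs (z i)]
    · linarith [hz.1, le_abs_self (z i)]

lemma Good.pattern_le [Countable I] [IsProbabilityMeasure ν] (hg : Good ν) (n : ℕ)
    (K S : Finset I) :
    noise I {z | ∀ i ∈ K, (i ∈ S → (n : ℝ) / 2 < posn (vInf ν) n z i) ∧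
      (i ∉ S → posn (vInf ν) n z i < n / 2)} ≤ ν (cyl K S) + dl n := by
  have hV : MeasurableSet {x : I → ℝ | ∀ i ∈ K, (i ∈ S → (n : ℝ) / 2 - 1 < x i) ∧
      (i ∉ S → x i < n / 2 + 1)} := by
    simp only [ofPred_forall, ofPred_and]
    refine MeasurableSet.biInter K.countable_toSet fun i _ => MeasurableSet.inter ?_ ?_
    · exact MeasurableSet.iInter fun _ => measurableSet_lt measurable_const (by fun_prop)
    · exact MeasurableSet.iInter fun _ => measurableSet_lt (by fun_prop) measurable_const
  refine hg.transfer n K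
    (U := {x | ∀ i ∈ K, (i ∈ S → (n : ℝ) / 2 < x i) ∧ (i ∉ S → x i < n / 2)}) ?_ hV
    (fun x hx y hy i hi => ?_) (fun F hF => ?_)
  · simp only [ofPred_forall, ofPred_and]
    refine isOpen_biInter_finset fun i _ => IsOpen.inter ?_ ?_
    · exact isOpen_iInter_of_finite fun _ => isOpen_lt continuous_const (by fun_prop)
    · exact isOpen_iInter_of_finite fun _ => isOpen_lt (by fun_prop) continuous_const
  · have h1 := abs_le.mp (hy i hi)
    exact ⟨fun h => by linarith [(hx i hi).1 h, h1.1], fun h => by linarith [(hx i hi).2 h, h1.2]⟩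
  · rw [obs_apply F n hV]
    calc _ ≤ ∫⁻ σ, (cyl K S).indicator 1 σ + dl n ∂ν := by
          refine lintegral_mono fun σ => ?_
          by_cases hσ : σ ∈ cyl K S
          · rw [indicator_of_mem hσ]
            exact prob_le_one.trans le_self_add
          · rw [indicator_of_notMem hσ, zero_add]
            simp only [cyl, mem_ofPred_eq, not_forall] at hσ
            obtain ⟨i, hi, hne⟩ := hσ
            refine (measure_mono ?_).trans (noise_tail i n)
            intro z hz
            have h1 := hz i hi
            simp only [sh, hF hi, if_true, ind] at h1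
            simp only [mem_ofPred_eq]
            by_cases h2 : σ i = true
            · have h3 : i ∉ S := fun h => hne ⟨fun _ => h, fun _ => h2⟩
              have := h1.2 h3
              simp only [h2, if_true] at this
              linarith [neg_le_abs (z i)]
            · have h3 : i ∈ S := by
                by_contra h
                exact hne ⟨fun h' => absurd h' h2, fun h' => absurd h' h⟩
              have := h1.1 h3
              simp only [h2] at this
              simp only [Bool.false_eq_true, if_false, mul_zero, add_zero] at this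
              linarith [le_abs_self (z i)]
      _ = ν (cyl K S) + dl n := by
          rw [lintegral_add_right _ measurable_const,
            lintegral_indicator_one (measurableSet_cyl K S)]
          simp

lemma sum_real_cyl (μ : Measure (I → Bool)) [IsProbabilityMeasure μ] (K : Finset I) :
    ∑ S ∈ K.powerset, μ.real (cyl K S) = 1 := by
  have := integral_eq_sum_cyl (dep_const (F := K) 1) μ
  simpa using this.symm

lemma ext_cyl {μ ν : Measure (I → Bool)} [IsProbabilityMeasure μ] [IsProbabilityMeasure ν]
    (h : ∀ K S : Finset I, S ⊆ K → μ.real (cyl K S) = ν.real (cyl K S)) : μ = ν := by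
  refine ext_of_generate_finite _ generateFrom_measurableCylinders.symm
    isPiSystem_measurableCylinders (fun s hs => ?_) (by simp)
  have ms := MeasurableSet.of_mem_measurableCylinders hs
  obtain ⟨K, T, _, rfl⟩ := (mem_measurableCylinders s).mp hs
  have hd : DependsOn ((cylinder K T).indicator (1 : (I → Bool) → ℝ)) (K : Set I) := by
    intro σ σ' hσ
    have : K.restrict σ = K.restrict σ' := funext fun j => hσ j j.2
    classical
    simp only [indicator, mem_cylinder, this, Pi.one_apply]
  have e : μ.real (cylinder K T) = ν.real (cylinder K T) := by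
    rw [← integral_indicator_one ms, ← integral_indicator_one ms, integral_eq_sum_cyl hd,
      integral_eq_sum_cyl hd]
    exact Finset.sum_congr rfl fun S hS => by rw [h K S (Finset.mem_powerset.mp hS)]
  exact (measureReal_eq_measureReal_iff (measure_ne_top _ _) (measure_ne_top _ _)).mp e

lemma ext_cyl_le {μ ν : Measure (I → Bool)} [IsProbabilityMeasure μ] [IsProbabilityMeasure ν]
    (h : ∀ K S : Finset I, μ (cyl K S) ≤ ν (cyl K S)) : μ = ν := by
  refine ext_cyl fun K S hS => ?_
  exact (Finset.sum_eq_sum_iff_of_le (f := fun S => μ.real (cyl K S))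
    (g := fun S => ν.real (cyl K S))
    fun S _ => ENNReal.toReal_mono (measure_ne_top _ _) (h K S)).mp
    (by rw [sum_real_cyl, sum_real_cyl]) S (Finset.mem_powerset.mpr hS)

theorem Good.measurable_fac [Countable I] [IsProbabilityMeasure ν] (hg : Good ν) :
    Measurable (fac ν) :=
  R168.measurable_fac (νs := fun _ => ν) (fun _ => hg) (fun _ _ => measurable_const)
    fun j => measurable_pi_apply j

/-- The factor map sends the noise to `ν`. -/
theorem Good.map_fac [Countable I] [IsProbabilityMeasure ν] (hg : Good ν) :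
    (noise I).map (fac ν) = ν := by
  have := Measure.isProbabilityMeasure_map (μ := noise I) hg.measurable_fac.aemeasurable
  refine ext_cyl_le fun K S => ?_
  rw [Measure.map_apply hg.measurable_fac (measurableSet_cyl K S)]
  have hbc : ∀ᵐ z ∂noise I, ∀ i, ∀ᶠ n : ℕ in atTop, ¬ |posn (vInf ν) n z i - n / 2| < 3 := by
    rw [ae_all_iff]
    intro i
    exact ae_eventually_notMem (s := fun n : ℕ => {z | |posn (vInf ν) n z i - n / 2| < 3})
      (ne_top_of_le_ne_top tsum_dl_ne_top (ENNReal.tsum_le_tsum fun n => hg.bad_le n i))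
  refine meas_le_of_eventually ?_ (Eventually.of_forall fun n => hg.pattern_le n K S)
    (by simpa using tendsto_dl.const_add (ν (cyl K S)))
  filter_upwards [hbc] with z hz hmem
  rw [Finset.eventually_all]
  intro i hi
  have h1 := hmem i hi
  simp only [fac, decide_eq_true_eq] at h1
  by_cases hS : i ∈ S
  · filter_upwards [h1.mpr hS] with n hn using ⟨fun _ => hn, fun h => absurd hS h⟩
  · have := eventually_lt_of_not (x := fun n => posn (vInf ν) n z i)
      (fun n => posn_succ_sub hg.lip_vInf (fun t x i => hg.drift_nonneg i (abs_thv_le t x))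
        (fun t x i => hg.drift_le_one i (abs_thv_le t x)) n z i) (hz i) (fun h => hS (h1.mp h))
    filter_upwards [this] with n hn using ⟨fun h => absurd h hS, fun _ => hn⟩

end Law

end Crest.Agent.R168
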