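import Mathlib
import Crest.Prelude.Def_SpanningTrees

/-!
Rooted spanning forests of finite pieces of a graph, Kirchhoff's identities and the stability of
the forest polynomial.
-/

set_option autoImplicit false

namespace Crest.Agent.R168

open Crest.ProbabilityR.SpanningTrees Complex

variable {V : Type*}

/-- reachability using the edges of `A` -/
def Rch (A : Finset (Sym2 V)) (u v : V) : Prop :=
  (SimpleGraph.fromEdgeSet (A : Set (Sym2 V))).Reachable u v

lemma Rch.refl (A : Finset (Sym2 V)) (u : V) : Rch A u u := SimpleGraph.Reachable.refl u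

lemma Rch.symm {A : Finset (Sym2 V)} {u v : V} (h : Rch A u v) : Rch A v u :=
  SimpleGraph.Reachable.symm h

lemma Rch.trans {A : Finset (Sym2 V)} {u v w : V} (h : Rch A u v) (h' : Rch A v w) : Rch A u w :=
  SimpleGraph.Reachable.trans h h'

lemma Rch.mono {A B : Finset (Sym2 V)} (hAB : A ⊆ B) {u v : V} (h : Rch A u v) : Rch B u v :=
  SimpleGraph.Reachable.mono (SimpleGraph.fromEdgeSet_mono (by exact_mod_cast hAB)) h

lemma Rch.of_mem {A : Finset (Sym2 V)} {u v : V} (h : s(u, v) ∈ A) : Rch A u v := by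
  by_cases huv : u = v
  · subst huv; exact Rch.refl A u
  · exact SimpleGraph.Adj.reachable ((SimpleGraph.fromEdgeSet_adj _).mpr ⟨h, huv⟩)

lemma Rch.induction {A : Finset (Sym2 V)} {u : V} {P : V → Prop} (h0 : P u)
    (h1 : ∀ a b, Rch A u a → s(a, b) ∈ A → a ≠ b → P a → P b) {v : V} (h : Rch A u v) : P v := by
  have h' := (SimpleGraph.reachable_iff_reflTransGen u v).mp h
  clear h
  induction h' with
  | refl => exact h0
  | tail hab hbc ih =>
    have := (SimpleGraph.fromEdgeSet_adj _).mp hbc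
    exact h1 _ _ ((SimpleGraph.reachable_iff_reflTransGen _ _).mpr hab) this.1 this.2 ih

lemma Rch.eq_of_empty {u v : V} (h : Rch (∅ : Finset (Sym2 V)) u v) : u = v :=
  h.induction (P := fun v => u = v) rfl fun _ _ _ h _ _ => absurd h (Finset.notMem_empty _)

lemma Rch.of_insert [DecidableEq V] {A : Finset (Sym2 V)} {x y u v : V}
    (h : Rch (insert s(x, y) A) u v) :
    Rch A u v ∨ (Rch A u x ∧ Rch A y v) ∨ (Rch A u y ∧ Rch A x v) := by
  refine h.induction (P := fun v => Rch A u v ∨ (Rch A u x ∧ Rch A y v) ∨ (Rch A u y ∧ Rch A x v))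
    (Or.inl (Rch.refl A u)) fun a b _ hab _ ih => ?_
  rcases Finset.mem_insert.mp hab with h1 | h1
  · rcases Sym2.eq_iff.mp h1 with ⟨rfl, rfl⟩ | ⟨rfl, rfl⟩
    · rcases ih with h2 | h2 | h2
      · exact Or.inr (Or.inl ⟨h2, Rch.refl _ _⟩)
      · exact Or.inr (Or.inl ⟨h2.1, Rch.refl _ _⟩)
      · exact Or.inl h2.1
    · rcases ih with h2 | h2 | h2
      · exact Or.inr (Or.inr ⟨h2, Rch.refl _ _⟩)
      · exact Or.inl h2.1
      · exact Or.inr (Or.inr ⟨h2.1, Rch.refl _ _⟩)
  · have e := Rch.of_mem h1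
    rcases ih with h2 | h2 | h2
    · exact Or.inl (h2.trans e)
    · exact Or.inr (Or.inl ⟨h2.1, h2.2.trans e⟩)
    · exact Or.inr (Or.inr ⟨h2.1, h2.2.trans e⟩)

lemma Rch.exists_cross {A : Finset (Sym2 V)} {S : Set V} {u v : V} (h : Rch A u v) (hu : u ∈ S)
    (hv : v ∉ S) : ∃ x ∈ S, ∃ y, y ∉ S ∧ s(x, y) ∈ A := by
  by_contra hcon
  push Not at hcon
  apply hv
  refine h.induction (P := fun v => v ∈ S) hu fun a b _ hab _ ha => ?_
  by_contra hb
  exact hcon a ha b hb hab

lemma Rch.exists_first [DecidableEq V] {A : Finset (Sym2 V)} {x r : V} (h : Rch A x r)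
    (hxr : x ≠ r) : ∃ w, s(x, w) ∈ A ∧ x ≠ w ∧ Rch (A.erase s(x, w)) w r := by
  obtain ⟨p, hp⟩ := SimpleGraph.Reachable.exists_isPath h
  cases p with
  | nil => exact absurd rfl hxr
  | cons hadj q =>
    rename_i w
    have h1 := (SimpleGraph.fromEdgeSet_adj _).mp hadj
    refine ⟨w, h1.1, h1.2, ⟨q.transfer _ fun e he => ?_⟩⟩
    have h2 := q.edges_subset_edgeSet he
    rw [SimpleGraph.edgeSet_fromEdgeSet] at h2 ⊢
    refine ⟨?_, h2.2⟩
    rw [Finset.coe_erase]
    refine ⟨h2.1, ?_⟩
    rintro rfl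
    exact ((SimpleGraph.Walk.cons_isPath_iff _ _).mp hp).2 (q.fst_mem_support_of_mem_edges he)

/-- lower bound on the number of edges needed to connect everything to the roots -/
lemma card_le_of_rch [DecidableEq V] (S : Finset V) (A : Finset (Sym2 V)) :
    ∀ R : Finset V, (∀ v ∈ S, ∃ r ∈ R, Rch A v r) → S.card ≤ A.card + R.card := by
  induction A using Finset.induction_on with
  | empty =>
    intro R h
    rw [Finset.card_empty, zero_add]
    refine Finset.card_le_card fun v hv => ?_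
    obtain ⟨r, hr, h'⟩ := h v hv
    rwa [h'.eq_of_empty]
  | insert e A he ih =>
    intro R h
    induction e using Sym2.ind with
    | _ x y =>
    rw [Finset.card_insert_of_notMem he]
    by_cases hx : ∃ r ∈ R, Rch A x r
    · have := ih (insert y R) fun v hv => by
        obtain ⟨r, hr, h'⟩ := h v hv
        rcases h'.of_insert with h2 | h2 | h2
        · exact ⟨r, Finset.mem_insert_of_mem hr, h2⟩
        · obtain ⟨r', hr', h3⟩ := hx
          exact ⟨r', Finset.mem_insert_of_mem hr', h2.1.trans h3⟩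
        · exact ⟨y, Finset.mem_insert_self _ _, h2.1⟩
      have := Finset.card_insert_le y R
      omega
    · have := ih (insert x R) fun v hv => by
        obtain ⟨r, hr, h'⟩ := h v hv
        rcases h'.of_insert with h2 | h2 | h2
        · exact ⟨r, Finset.mem_insert_of_mem hr, h2⟩
        · exact ⟨x, Finset.mem_insert_self _ _, h2.1⟩
        · exact absurd ⟨r, hr, h2.2⟩ hx
      have := Finset.card_insert_le x R
      omega

lemma mem_edgesIn {G : SimpleGraph V} {S : Finset V} {x y : V} :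
    s(x, y) ∈ edgesIn G S ↔ x ∈ S ∧ y ∈ S ∧ G.Adj x y := by
  simp [edgesIn, and_assoc]

open Classical in
/-- spanning forests of the piece `S` rooted at `R` -/
noncomputable def Fo (G : SimpleGraph V) (S R : Finset V) : Finset (Finset (Sym2 V)) :=
  (edgesIn G S).powerset.filter fun A => A.card + R.card = S.card ∧ ∀ v ∈ S, ∃ r ∈ R, Rch A v r

lemma mem_Fo {G : SimpleGraph V} {S R : Finset V} {A : Finset (Sym2 V)} :
    A ∈ Fo G S R ↔ A ⊆ edgesIn G S ∧ A.card + R.card = S.card ∧ ∀ v ∈ S, ∃ r ∈ R, Rch A v r := by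
  simp [Fo]

lemma root_unique {G : SimpleGraph V} {S R : Finset V} {A : Finset (Sym2 V)} (hA : A ∈ Fo G S R)
    {r₁ r₂ : V} (h1 : r₁ ∈ R) (h2 : r₂ ∈ R) (h : Rch A r₁ r₂) : r₁ = r₂ := by
  classical
  by_contra hne
  obtain ⟨_, hc, hr⟩ := mem_Fo.mp hA
  have := card_le_of_rch S A (R.erase r₁) fun v hv => by
    obtain ⟨r, hr', h'⟩ := hr v hv
    by_cases hrr : r = r₁
    · subst hrr
      exact ⟨r₂, Finset.mem_erase.mpr ⟨fun h => hne h.symm, h2⟩, h'.trans h⟩
    · exact ⟨r, Finset.mem_erase.mpr ⟨hrr, hr'⟩, h'⟩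
  rw [Finset.card_erase_of_mem h1] at this
  have := Finset.card_pos.mpr ⟨r₁, h1⟩
  omega

section Decomp

variable [DecidableEq V] {G : SimpleGraph V} {S R : Finset V} {x : V}

lemma not_rch_root {A : Finset (Sym2 V)} (hA : A ∈ Fo G S (insert x R)) (hx : x ∉ R) {r : V}
    (hr : r ∈ R) : ¬ Rch A x r := fun h =>
  hx (root_unique hA (Finset.mem_insert_self _ _) (Finset.mem_insert_of_mem hr) h ▸ hr)

lemma edge_notMem {A : Finset (Sym2 V)} (hA : A ∈ Fo G S (insert x R)) (hx : x ∉ R) {w : V}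
    (hw : ∃ r ∈ R, Rch A w r) : s(x, w) ∉ A := fun h => by
  obtain ⟨r, hr, h'⟩ := hw
  exact not_rch_root hA hx hr ((Rch.of_mem h).trans h')

open Classical in
/-- decomposition of the forests rooted at `R` along the first edge out of `x` -/
lemma sum_Fo_decomp (hxS : x ∈ S) (hx : x ∉ R) (f : Finset (Sym2 V) → ℂ) :
    ∑ T ∈ Fo G S R, f T = ∑ A ∈ Fo G S (insert x R), ∑ w ∈ S.filter (G.Adj x),
      if ∃ r ∈ R, Rch A w r then f (insert s(x, w) A) else 0 := by
  rw [← Finset.sum_product', ← Finset.sum_filter]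
  symm
  refine Finset.sum_bij (fun p _ => insert s(x, p.2) p.1) ?_ ?_ ?_ (fun _ _ => rfl)
  · rintro ⟨A, w⟩ hp
    simp only [Finset.mem_filter, Finset.mem_product] at hp
    obtain ⟨⟨hA, hwS, hadj⟩, hw⟩ := hp
    obtain ⟨h1, h2, h3⟩ := mem_Fo.mp hA
    refine mem_Fo.mpr ⟨Finset.insert_subset (mem_edgesIn.mpr ⟨hxS, hwS, hadj⟩) h1, ?_,
      fun v hv => ?_⟩
    · rw [Finset.card_insert_of_notMem (edge_notMem hA hx hw)]
      rw [Finset.card_insert_of_notMem hx] at h2
      omega
    · obtain ⟨r, hr, h4⟩ := h3 v hv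
      have h4' := h4.mono (Finset.subset_insert s(x, w) A)
      rcases Finset.mem_insert.mp hr with rfl | hr
      · obtain ⟨r', hr', h5⟩ := hw
        exact ⟨r', hr', h4'.trans ((Rch.of_mem (Finset.mem_insert_self _ _)).trans
          (h5.mono (Finset.subset_insert _ _)))⟩
      · exact ⟨r, hr, h4'⟩
  · rintro ⟨A₁, w₁⟩ hp₁ ⟨A₂, w₂⟩ hp₂ heq
    simp only [Finset.mem_filter, Finset.mem_product] at hp₁ hp₂ heq
    obtain ⟨⟨hA₁, _, _⟩, hw₁⟩ := hp₁
    obtain ⟨⟨hA₂, _, _⟩, hw₂⟩ := hp₂
    have n1 := edge_notMem hA₁ hx hw₁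
    have n2 := edge_notMem hA₂ hx hw₂
    by_cases he : s(x, w₁) = s(x, w₂)
    · have hw : w₁ = w₂ := Sym2.congr_right.mp he
      subst hw
      have : A₁ = A₂ := by
        rw [← Finset.erase_insert n1, heq, Finset.erase_insert n2]
      rw [this]
    · exfalso
      have m1 : s(x, w₁) ∈ A₂ := by
        have : s(x, w₁) ∈ insert s(x, w₂) A₂ := heq ▸ Finset.mem_insert_self _ _
        exact (Finset.mem_insert.mp this).resolve_left he
      have m2 : s(x, w₂) ∈ A₁ := by
        have : s(x, w₂) ∈ insert s(x, w₁) A₁ := heq ▸ Finset.mem_insert_self _ _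
        exact (Finset.mem_insert.mp this).resolve_left (Ne.symm he)
      have hC : A₁.erase s(x, w₂) ⊆ A₂ := by
        intro e he'
        have h1 := Finset.mem_erase.mp he'
        have : e ∈ insert s(x, w₂) A₂ := heq ▸ Finset.mem_insert_of_mem h1.2
        exact (Finset.mem_insert.mp this).resolve_left h1.1
      have hC' : A₁.erase s(x, w₂) ⊆ A₁ := Finset.erase_subset _ _
      obtain ⟨r, hr, h⟩ := hw₁
      rw [← Finset.insert_erase m2] at h
      rcases h.of_insert with h2 | h2 | h2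
      · exact not_rch_root hA₂ hx hr ((Rch.of_mem m1).trans (h2.mono hC))
      · exact not_rch_root hA₁ hx hr ((Rch.of_mem m2).trans (h2.2.mono hC'))
      · exact not_rch_root hA₁ hx hr (h2.2.mono hC')
  · intro T hT
    obtain ⟨h1, h2, h3⟩ := mem_Fo.mp hT
    obtain ⟨r, hr, h4⟩ := h3 x hxS
    obtain ⟨w, hw, _, h5⟩ := h4.exists_first (fun h => hx (h ▸ hr))
    have h6 := mem_edgesIn.mp (h1 hw)
    refine ⟨(T.erase s(x, w), w), ?_, Finset.insert_erase hw⟩
    simp only [Finset.mem_filter, Finset.mem_product]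
    refine ⟨⟨mem_Fo.mpr ⟨(Finset.erase_subset _ _).trans h1, ?_, fun v hv => ?_⟩, h6.2.1, h6.2.2⟩,
      r, hr, h5⟩
    · rw [Finset.card_insert_of_notMem hx, Finset.card_erase_of_mem hw]
      have := Finset.card_pos.mpr ⟨_, hw⟩
      omega
    · obtain ⟨r', hr', h7⟩ := h3 v hv
      rw [← Finset.insert_erase hw] at h7
      rcases h7.of_insert with h8 | h8 | h8
      · exact ⟨r', Finset.mem_insert_of_mem hr', h8⟩
      · exact ⟨x, Finset.mem_insert_self _ _, h8.1⟩
      · exact ⟨r, Finset.mem_insert_of_mem hr, h8.1.trans h5⟩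

end Decomp

/-- the forest polynomial -/
noncomputable def forP (G : SimpleGraph V) (S R : Finset V) (z : Sym2 V → ℂ) : ℂ :=
  ∑ A ∈ Fo G S R, ∏ e ∈ A, z e

open Classical in
/-- Kirchhoff's potential -/
noncomputable def pot [DecidableEq V] (G : SimpleGraph V) (S R : Finset V) (a : V)
    (z : Sym2 V → ℂ) (y : V) : ℂ :=
  ∑ A ∈ Fo G S (insert a R), if Rch A y a then ∏ e ∈ A, z e else 0

section Kirchhoff

variable [DecidableEq V] {G : SimpleGraph V} {S R : Finset V} {a : V} (z : Sym2 V → ℂ)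

lemma pot_self : pot G S R a z a = forP G S (insert a R) z := by
  simp [pot, forP, Rch.refl]

lemma pot_root (ha : a ∉ R) {r : V} (hr : r ∈ R) : pot G S R a z r = 0 := by
  refine Finset.sum_eq_zero fun A hA => ?_
  rw [if_neg fun h => not_rch_root hA ha hr h.symm]

lemma rch_roots_iff {A : Finset (Sym2 V)} (hA : A ∈ Fo G S (insert a R)) (ha : a ∉ R) {y : V}
    (hy : y ∈ S) : (∃ r ∈ R, Rch A y r) ↔ ¬ Rch A y a := by
  constructor
  · rintro ⟨r, hr, h⟩ h'
    exact not_rch_root hA ha hr (h'.symm.trans h)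
  · intro h
    obtain ⟨r, hr, h'⟩ := (mem_Fo.mp hA).2.2 y hy
    rcases Finset.mem_insert.mp hr with rfl | hr
    · exact absurd h' h
    · exact ⟨r, hr, h'⟩

open Classical in
lemma kirchhoff_self (haS : a ∈ S) (ha : a ∉ R) :
    ∑ y ∈ S.filter (G.Adj a), z s(a, y) * (pot G S R a z a - pot G S R a z y) = forP G S R z := by
  rw [forP, sum_Fo_decomp haS ha, Finset.sum_comm]
  refine Finset.sum_congr rfl fun y hy => ?_
  have hyS := (Finset.mem_filter.mp hy).1
  simp only [pot, Rch.refl, if_true]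
  rw [← Finset.sum_sub_distrib, Finset.mul_sum]
  refine Finset.sum_congr rfl fun A hA => ?_
  by_cases h : Rch A y a
  · rw [if_pos h, if_neg (fun h' => (rch_roots_iff hA ha hyS).mp h' h)]; simp
  · have h' := (rch_roots_iff hA ha hyS).mpr h
    rw [if_neg h, if_pos h', Finset.prod_insert (edge_notMem hA ha h')]; simp

open Classical in
lemma kirchhoff_other {x : V} (hxS : x ∈ S) (hx : x ∉ insert a R) :
    ∑ y ∈ S.filter (G.Adj x), z s(x, y) * (pot G S R a z x - pot G S R a z y) = 0 := by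
  set N := S.filter (G.Adj x) with hN
  have key : ∀ y, pot G S R a z y = ∑ A ∈ Fo G S (insert x (insert a R)), (∏ e ∈ A, z e) *
      ((if Rch A y a then 1 else 0) * (∑ w ∈ N, z s(x, w) * (1 - if Rch A w x then 1 else 0)) +
        (if Rch A y x then 1 else 0) * ∑ w ∈ N, z s(x, w) * if Rch A w a then 1 else 0) := by
    intro y
    rw [pot, sum_Fo_decomp hxS hx]
    refine Finset.sum_congr rfl fun A hA => ?_
    rw [Finset.mul_sum, Finset.mul_sum, ← Finset.sum_add_distrib, Finset.mul_sum]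
    refine Finset.sum_congr rfl fun w hw => ?_
    have hwS := (Finset.mem_filter.mp hw).1
    have hxa : ¬ Rch A x a := not_rch_root hA hx (Finset.mem_insert_self _ _)
    by_cases h1 : Rch A w x
    · have h2 : ¬ Rch A w a := fun h => hxa (h1.symm.trans h)
      rw [if_neg (fun h' => (rch_roots_iff hA hx hwS).mp h' h1)]
      simp [h1, h2]
    · have h' := (rch_roots_iff hA hx hwS).mpr h1
      rw [if_pos h', Finset.prod_insert (edge_notMem hA hx h')]
      have sub := Finset.subset_insert s(x, w) A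
      by_cases h2 : Rch A y a
      · have h3 : ¬ Rch A y x := fun h => hxa (h.symm.trans h2)
        rw [if_pos (h2.mono sub)]
        simp [h1, h2, h3, mul_comm]
      · by_cases h3 : Rch A y x ∧ Rch A w a
        · rw [if_pos ((h3.1.mono sub).trans ((Rch.of_mem (Finset.mem_insert_self _ _)).trans
            (h3.2.mono sub)))]
          simp [h2, h3.1, h3.2, mul_comm]
        · rw [if_neg]
          · rcases not_and_or.mp h3 with h4 | h4 <;> simp [h2, h4]
          · intro h
            rcases h.of_insert with h4 | h4 | h4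
            · exact h2 h4
            · exact h3 h4
            · exact hxa h4.2
  simp only [key, ← Finset.sum_sub_distrib, Finset.mul_sum]
  rw [Finset.sum_comm]
  refine Finset.sum_eq_zero fun A hA => ?_
  have hxa : ¬ Rch A x a := not_rch_root hA hx (Finset.mem_insert_self _ _)
  simp only [← Finset.mul_sum]
  set a₁ := ∑ w ∈ N, z s(x, w) * if Rch A w a then 1 else 0 with ha₁
  set b₁ := ∑ w ∈ N, z s(x, w) * (1 - if Rch A w x then 1 else 0) with hb₁
  have e : ∀ y, z s(x, y) * ((∏ e ∈ A, z e) * ((if Rch A x a then 1 else 0) * b₁ +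
      (if Rch A x x then 1 else 0) * a₁) - (∏ e ∈ A, z e) * ((if Rch A y a then 1 else 0) * b₁ +
      (if Rch A y x then 1 else 0) * a₁)) = (∏ e ∈ A, z e) * (a₁ * (z s(x, y) *
        (1 - if Rch A y x then 1 else 0)) - b₁ * (z s(x, y) * if Rch A y a then 1 else 0)) := by
    intro y
    rw [if_neg hxa, if_pos (Rch.refl A x)]
    ring
  simp only [e]
  rw [← Finset.mul_sum, Finset.sum_sub_distrib, ← Finset.mul_sum, ← Finset.mul_sum, ← ha₁, ← hb₁]
  ring

omit [DecidableEq V] in
open Classical in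
lemma energy_zero {φ : V → ℂ} (hz : ∀ e ∈ edgesIn G S, 0 < (z e).im)
    (h : ∀ x ∈ S, (starRingEnd ℂ) (φ x) *
      ∑ y ∈ S.filter (G.Adj x), z s(x, y) * (φ x - φ y) = 0)
    {x y : V} (hxy : s(x, y) ∈ edgesIn G S) : φ x = φ y := by
  have h1 : ∑ x ∈ S, ∑ y ∈ S, (if G.Adj x y then
      (starRingEnd ℂ) (φ x) * (z s(x, y) * (φ x - φ y)) else 0) = 0 := by
    refine Finset.sum_eq_zero fun x hx => ?_
    rw [← Finset.sum_filter, ← Finset.mul_sum, h x hx]
  have h2 : ∑ x ∈ S, ∑ y ∈ S, (if G.Adj x y then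
      (starRingEnd ℂ) (φ y) * (z s(x, y) * (φ y - φ x)) else 0) = 0 := by
    rw [Finset.sum_comm]
    refine Eq.trans ?_ h1
    refine Finset.sum_congr rfl fun x _ => Finset.sum_congr rfl fun y _ => ?_
    simp only [G.adj_comm y x, Sym2.eq_swap (a := y)]
  have h3 : ∑ x ∈ S, ∑ y ∈ S, (if G.Adj x y then (z s(x, y)).im * normSq (φ x - φ y) else 0)
      = 0 := by
    have := congrArg Complex.im (congrArg₂ (· + ·) h1 h2)
    rw [add_zero, ← Finset.sum_add_distrib, Complex.im_sum, Complex.zero_im] at this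
    refine Eq.trans ?_ this
    refine Finset.sum_congr rfl fun x _ => ?_
    rw [← Finset.sum_add_distrib, Complex.im_sum]
    refine Finset.sum_congr rfl fun y _ => ?_
    split_ifs
    · simp [normSq_apply]; ring
    · simp
  have nn : ∀ x ∈ S, ∀ y ∈ S,
      0 ≤ (if G.Adj x y then (z s(x, y)).im * normSq (φ x - φ y) else 0) := by
    intro x hx y hy
    split_ifs with h4
    · exact mul_nonneg (hz _ (mem_edgesIn.mpr ⟨hx, hy, h4⟩)).le (normSq_nonneg _)
    · exact le_rfl
  obtain ⟨hx, hy, hadj⟩ := mem_edgesIn.mp hxy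
  have h4 := (Finset.sum_eq_zero_iff_of_nonneg
    (fun x hx => Finset.sum_nonneg (nn x hx))).mp h3 x hx
  have h5 := (Finset.sum_eq_zero_iff_of_nonneg (nn x hx)).mp h4 y hy
  rw [if_pos hadj, mul_eq_zero] at h5
  rcases h5 with h5 | h5
  · exact absurd h5 (hz _ hxy).ne'
  · exact sub_eq_zero.mp (normSq_eq_zero.mp h5)

/-- Stability of the forest polynomial of a connected piece. -/
theorem forP_ne_zero (hconn : ∀ u ∈ S, ∀ v ∈ S, Rch (edgesIn G S) u v)
    (hz : ∀ e ∈ edgesIn G S, 0 < (z e).im) (n : ℕ) :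
    ∀ R : Finset V, R ⊆ S → R.Nonempty → R.card + n = S.card → forP G S R z ≠ 0 := by
  classical
  induction n with
  | zero =>
    intro R hR _ hc
    have hRS : R = S := Finset.eq_of_subset_of_card_le hR (by omega)
    subst hRS
    have : Fo G R R = {∅} := by
      ext A
      rw [mem_Fo, Finset.mem_singleton]
      constructor
      · rintro ⟨_, h, _⟩
        exact Finset.card_eq_zero.mp (by omega)
      · rintro rfl
        exact ⟨Finset.empty_subset _, by simp, fun v hv => ⟨v, hv, Rch.refl _ _⟩⟩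
    simp [forP, this]
  | succ n ih =>
    intro R hR hne hc h0
    obtain ⟨a, haS, ha⟩ := Finset.exists_mem_notMem_of_card_lt_card (show R.card < S.card by omega)
    obtain ⟨r, hr⟩ := hne
    apply ih (insert a R) (Finset.insert_subset haS hR) (Finset.insert_nonempty _ _)
      (by rw [Finset.card_insert_of_notMem ha]; omega)
    have hE : ∀ {x y : V}, s(x, y) ∈ edgesIn G S → pot G S R a z x = pot G S R a z y := by
      intro x y hxy
      refine energy_zero z hz (fun x hx => ?_) hxy
      by_cases h1 : x ∈ R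
      · rw [pot_root z ha h1]; simp
      · by_cases h2 : x = a
        · subst h2
          rw [kirchhoff_self z hx h1, h0, mul_zero]
        · rw [kirchhoff_other z hx (by simp [h1, h2]), mul_zero]
    rw [← pot_self, ← pot_root (G := G) (S := S) z ha hr]
    exact (hconn a haS r (hR hr)).induction (P := fun v => pot G S R a z a = pot G S R a z v) rfl
      fun u v _ huv _ h => h.trans (hE huv)

end Kirchhoff

end Crest.Agent.R168
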