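import Mathlib
import Crest.Agent.R168.Forest
import Crest.Agent.R168.Assoc

/-!
The uniform spanning tree of a finite piece as a law on configurations: it is `Good`, and the
probability of containing a fixed edge set decreases when the piece grows.
-/

set_option autoImplicit false

namespace Crest.Agent.R168

open MeasureTheory Filter Topology Set Crest.ProbabilityR.SpanningTrees
open scoped ENNReal

section Unif

variable {E : Type*}

open Classical in
/-- the uniform law on a finite family of finite sets -/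
noncomputable def unif (T : Finset (Finset E)) : Measure (E → Bool) :=
  if T.Nonempty then (T.card : ℝ≥0∞)⁻¹ • ∑ A ∈ T, Measure.dirac (indS A)
  else Measure.dirac fun _ => false

instance (T : Finset (Finset E)) : IsProbabilityMeasure (unif T) := by
  unfold unif
  split_ifs with h
  · constructor
    have : (T.card : ℝ≥0∞) ≠ 0 := by exact_mod_cast h.card_pos.ne'
    simp [ENNReal.inv_mul_cancel this]
  · infer_instance

open Classical in
lemma unif_real {T : Finset (Finset E)} (h : T.Nonempty) {s : Set (E → Bool)}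
    (hs : MeasurableSet s) :
    (unif T).real s = ((T.filter fun A => indS A ∈ s).card : ℝ) / T.card := by
  rw [unif, if_pos h, Measure.real, Measure.smul_apply, Measure.finsetSum_apply]
  simp only [Measure.dirac_apply' _ hs, indicator, Pi.one_apply, smul_eq_mul]
  rw [Finset.sum_ite, Finset.sum_const, Finset.sum_const_zero, add_zero, nsmul_eq_mul, mul_one,
    ENNReal.toReal_mul, ENNReal.toReal_inv, div_eq_inv_mul]
  simp

open Crest.ProbabilityR.StronglyRayleigh in
lemma genPoly_unif {T : Finset (Finset E)} (h : T.Nonempty) {F : Finset E} (hF : ∀ A ∈ T, A ⊆ F)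
    (z : E → ℂ) : genPoly (unif T) F z = (∑ A ∈ T, ∏ e ∈ A, z e) / T.card := by
  classical
  have key : ∀ S ∈ F.powerset, (unif T).real (cyl F S) = (if S ∈ T then 1 else 0) / T.card := by
    intro S hS
    rw [unif_real h (measurableSet_cyl F S)]
    congr 1
    have : ∀ A ∈ T, (indS A ∈ cyl F S ↔ A = S) := by
      intro A hA
      simp only [cyl, mem_ofPred_eq, indS_eq_true]
      constructor
      · intro h'
        ext j
        exact ⟨fun hj => (h' j (hF A hA hj)).mp hj,
          fun hj => (h' j (Finset.mem_powerset.mp hS hj)).mpr hj⟩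
      · rintro rfl; simp
    rw [Finset.filter_congr this, Finset.filter_eq']
    split_ifs <;> simp
  change ∑ S ∈ F.powerset, (((unif T).real (cyl F S) : ℝ) : ℂ) * ∏ i ∈ S, z i = _
  rw [Finset.sum_congr rfl fun S hS => by rw [key S hS], Finset.sum_div]
  rw [← Finset.sum_subset (s₁ := T) (fun A hA => Finset.mem_powerset.mpr (hF A hA))]
  · refine Finset.sum_congr rfl fun A hA => ?_
    simp [hA]; ring
  · intro S _ hS
    simp [hS]

end Unif

variable {V : Type*}

open Classical in
/-- the spanning trees of the piece `S` -/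
noncomputable def Trees (G : SimpleGraph V) (S : Finset V) : Finset (Finset (Sym2 V)) :=
  (edgesIn G S).powerset.filter fun A => IsSpanningTreeOn G S A

/-- connectedness of a finite piece -/
def Conn (G : SimpleGraph V) (S : Finset V) : Prop :=
  S.Nonempty ∧ ∀ u ∈ S, ∀ v ∈ S, Rch (edgesIn G S) u v

lemma reachable_induce_iff {G : SimpleGraph V} {S : Finset V} {A : Finset (Sym2 V)}
    (hA : A ⊆ edgesIn G S) (u v : (S : Set V)) :
    ((SimpleGraph.fromEdgeSet (A : Set (Sym2 V))).induce (S : Set V)).Reachable u v ↔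
      Rch A u v := by
  constructor
  · intro h
    exact h.map (SimpleGraph.Embedding.induce (S : Set V)).toHom
  · intro h
    obtain ⟨v, hv⟩ := v
    refine h.induction (P := fun v => ∀ hv : v ∈ (S : Set V),
      ((SimpleGraph.fromEdgeSet (A : Set (Sym2 V))).induce (S : Set V)).Reachable u ⟨v, hv⟩)
      (fun _ => SimpleGraph.Reachable.refl _) (fun a b _ hab hne ih hb => ?_) hv
    have ha : a ∈ (S : Set V) := (mem_edgesIn.mp (hA hab)).1
    refine (ih ha).trans (SimpleGraph.Adj.reachable ?_)
    exact (SimpleGraph.fromEdgeSet_adj _).mpr ⟨hab, hne⟩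

lemma connected_induce_iff {G : SimpleGraph V} {S : Finset V} {A : Finset (Sym2 V)}
    (hA : A ⊆ edgesIn G S) :
    ((SimpleGraph.fromEdgeSet (A : Set (Sym2 V))).induce (S : Set V)).Connected ↔
      S.Nonempty ∧ ∀ u ∈ S, ∀ v ∈ S, Rch A u v := by
  rw [SimpleGraph.connected_iff]
  constructor
  · rintro ⟨h1, ⟨⟨x, hx⟩⟩⟩
    exact ⟨⟨x, hx⟩, fun u hu v hv => (reachable_induce_iff hA ⟨u, hu⟩ ⟨v, hv⟩).mp (h1 _ _)⟩
  · rintro ⟨⟨x, hx⟩, h⟩
    exact ⟨fun u v => (reachable_induce_iff hA u v).mpr (h _ u.2 _ v.2), ⟨⟨x, hx⟩⟩⟩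

lemma conn_iff {G : SimpleGraph V} {S : Finset V} :
    Conn G S ↔ (G.induce (S : Set V)).Connected := by
  have : G.induce (S : Set V) =
      (SimpleGraph.fromEdgeSet (edgesIn G S : Set (Sym2 V))).induce (S : Set V) := by
    ext u v
    simp only [SimpleGraph.induce_adj, SimpleGraph.fromEdgeSet_adj, Finset.mem_coe, mem_edgesIn]
    exact ⟨fun h => ⟨⟨u.2, v.2, h⟩, h.ne⟩, fun h => h.1.2.2⟩
  rw [this, connected_induce_iff (subset_refl _)]
  rfl

lemma card_edgeSet_induce {G : SimpleGraph V} {S : Finset V} {A : Finset (Sym2 V)}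
    (hA : A ⊆ edgesIn G S) :
    Nat.card ((SimpleGraph.fromEdgeSet (A : Set (Sym2 V))).induce (S : Set V)).edgeSet =
      A.card := by
  rw [Nat.card_coe_set_eq, ← Set.ncard_coe_finset,
    ← Set.ncard_image_of_injective _ (Sym2.map.injective Subtype.val_injective)]
  congr 1
  ext e
  constructor
  · rintro ⟨e', he', rfl⟩
    induction e' using Sym2.ind with
    | _ u v => exact ((SimpleGraph.fromEdgeSet_adj _).mp he').1
  · intro he
    induction e using Sym2.ind with
    | _ u v =>
    obtain ⟨hu, hv, hadj⟩ := mem_edgesIn.mp (hA he)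
    exact ⟨s(⟨u, hu⟩, ⟨v, hv⟩), (SimpleGraph.fromEdgeSet_adj _).mpr ⟨he, hadj.ne⟩, rfl⟩

lemma mem_Trees {G : SimpleGraph V} {S : Finset V} {A : Finset (Sym2 V)} :
    A ∈ Trees G S ↔ A ⊆ edgesIn G S ∧ A.card + 1 = S.card ∧ ∀ u ∈ S, ∀ v ∈ S, Rch A u v := by
  classical
  rw [Trees, Finset.mem_filter, Finset.mem_powerset, IsSpanningTreeOn, and_self_left]
  refine and_congr_right fun hA => ?_
  rw [SimpleGraph.isTree_iff_connected_and_card, connected_induce_iff hA, card_edgeSet_induce hA]
  have : Nat.card (S : Set V) = S.card := by simp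
  rw [this]
  exact ⟨fun h => ⟨h.2, h.1.2⟩, fun h => ⟨⟨Finset.card_pos.mp (by omega), h.2⟩, h.1⟩⟩

lemma Trees_eq_Fo {G : SimpleGraph V} {S : Finset V} {r : V} (hr : r ∈ S) :
    Trees G S = Fo G S {r} := by
  ext A
  rw [mem_Trees, mem_Fo]
  simp only [Finset.card_singleton, Finset.mem_singleton, exists_eq_left]
  refine and_congr_right fun _ => and_congr_right fun _ => ?_
  exact ⟨fun h v hv => h v hv r hr, fun h u hu v hv => (h u hu).trans (h v hv).symm⟩

lemma sum_Trees_ne_zero {G : SimpleGraph V} {S : Finset V} (h : Conn G S) {z : Sym2 V → ℂ}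
    (hz : ∀ e ∈ edgesIn G S, 0 < (z e).im) : ∑ A ∈ Trees G S, ∏ e ∈ A, z e ≠ 0 := by
  classical
  obtain ⟨⟨r, hr⟩, h⟩ := h
  rw [Trees_eq_Fo hr]
  have := Finset.card_pos.mpr ⟨r, hr⟩
  exact forP_ne_zero z h hz (S.card - 1) {r} (by simpa using hr) (Finset.singleton_nonempty r)
    (by rw [Finset.card_singleton]; omega)

lemma Trees_nonempty {G : SimpleGraph V} {S : Finset V} (h : Conn G S) : (Trees G S).Nonempty := by
  by_contra hne
  have := sum_Trees_ne_zero h (z := fun _ => Complex.I) (fun _ _ => by simp)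
  rw [Finset.not_nonempty_iff_eq_empty.mp hne] at this
  simp at this

/-- the uniform spanning tree law of the piece `S` -/
noncomputable def ust (G : SimpleGraph V) (S : Finset V) : Measure (Sym2 V → Bool) :=
  unif (Trees G S)

instance (G : SimpleGraph V) (S : Finset V) : IsProbabilityMeasure (ust G S) := by
  unfold ust; infer_instance

theorem good_ust {G : SimpleGraph V} {S : Finset V} (h : Conn G S) : Good (ust G S) := by
  classical
  refine good_of_stable _ fun F₀ => ⟨F₀ ∪ edgesIn G S, Finset.subset_union_left, fun z hz => ?_⟩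
  rw [ust, genPoly_unif (Trees_nonempty h)
    (fun A hA => (mem_Trees.mp hA).1.trans Finset.subset_union_right)]
  refine div_ne_zero (sum_Trees_ne_zero h fun e he => hz e (Finset.mem_union_right _ he)) ?_
  exact_mod_cast (Trees_nonempty h).card_pos.ne'

lemma indS_mem_ev {E : Type*} {A F B : Finset E} : indS A ∈ ev F B ↔ F ⊆ A ∧ Disjoint B A := by
  simp only [ev, mem_ofPred_eq, indS_eq_true, Finset.disjoint_left]
  refine and_congr Iff.rfl (forall₂_congr fun j _ => ?_)
  rw [← Bool.not_eq_true, indS_eq_true]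

open Classical in
lemma ust_real_ev {G : SimpleGraph V} {S : Finset V} (h : Conn G S) (F B : Finset (Sym2 V)) :
    (ust G S).real (ev F B) =
      (((Trees G S).filter fun A => F ⊆ A ∧ Disjoint B A).card : ℝ) / (Trees G S).card := by
  rw [ust, unif_real (Trees_nonempty h) (measurableSet_ev F B)]
  simp only [indS_mem_ev]

lemma ustContains_eq {G : SimpleGraph V} {S : Finset V} (h : Conn G S) (F : Finset (Sym2 V)) :
    ustContains G S F = (ust G S).real (ev F ∅) := by
  rw [ust_real_ev h, ustContains]
  simp only [Trees, Finset.filter_filter]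
  congr
  funext A
  simp

lemma edgesIn_mono (G : SimpleGraph V) {S S' : Finset V} (h : S ⊆ S') :
    edgesIn G S ⊆ edgesIn G S' := by
  intro e he
  induction e using Sym2.ind with
  | _ u v =>
  obtain ⟨h1, h2, h3⟩ := mem_edgesIn.mp he
  exact mem_edgesIn.mpr ⟨h h1, h h2, h3⟩

section Leaf

variable [DecidableEq V] {G : SimpleGraph V} {S : Finset V} {v w : V}

lemma Conn.insert (h : Conn G S) (hw : w ∈ S) (hadj : G.Adj v w) : Conn G (insert v S) := by
  have m := edgesIn_mono G (Finset.subset_insert v S)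
  have key : ∀ u ∈ Insert.insert v S, Rch (edgesIn G (Insert.insert v S)) u w := by
    intro u hu
    rcases Finset.mem_insert.mp hu with rfl | hu
    · exact Rch.of_mem (mem_edgesIn.mpr
        ⟨Finset.mem_insert_self _ _, Finset.mem_insert_of_mem hw, hadj⟩)
    · exact (h.2 u hu w hw).mono m
  exact ⟨Finset.insert_nonempty _ _, fun a ha b hb => (key a ha).trans (key b hb).symm⟩

omit [DecidableEq V] in
lemma rch_eq_of_notMem {A : Finset (Sym2 V)} (hA : A ⊆ edgesIn G S) (hv : v ∉ S) {u : V}
    (h : Rch A v u) : u = v := by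
  refine h.induction (P := fun u => u = v) rfl fun a b _ hab _ ha => ?_
  subst ha
  exact absurd (mem_edgesIn.mp (hA hab)).1 hv

open Classical in
lemma card_leaf (hv : v ∉ S) (hw : w ∈ S) (hadj : G.Adj v w) {F : Finset (Sym2 V)}
    (hF : F ⊆ edgesIn G S) :
    ((Trees G (insert v S)).filter fun A => F ⊆ A ∧
      Disjoint (edgesIn G (insert v S) \ insert s(v, w) (edgesIn G S)) A).card =
    ((Trees G S).filter fun A => F ⊆ A ∧ Disjoint ∅ A).card := by
  have hne : s(v, w) ∉ edgesIn G S := fun h => hv (mem_edgesIn.mp h).1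
  symm
  refine Finset.card_bij (fun A _ => insert s(v, w) A) ?_ ?_ ?_
  · intro A hA
    obtain ⟨hA, hFA, _⟩ := Finset.mem_filter.mp hA
    obtain ⟨h1, h2, h3⟩ := mem_Trees.mp hA
    have sub := Finset.subset_insert s(v, w) A
    refine Finset.mem_filter.mpr ⟨mem_Trees.mpr ⟨?_, ?_, ?_⟩, hFA.trans sub, ?_⟩
    · exact Finset.insert_subset (mem_edgesIn.mpr
        ⟨Finset.mem_insert_self _ _, Finset.mem_insert_of_mem hw, hadj⟩)
        (h1.trans (edgesIn_mono G (Finset.subset_insert v S)))
    · rw [Finset.card_insert_of_notMem (fun h => hne (h1 h)), Finset.card_insert_of_notMem hv, h2]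
    · have key : ∀ u ∈ insert v S, Rch (insert s(v, w) A) u w := by
        intro u hu
        rcases Finset.mem_insert.mp hu with rfl | hu
        · exact Rch.of_mem (Finset.mem_insert_self _ _)
        · exact (h3 u hu w hw).mono sub
      exact fun a ha b hb => (key a ha).trans (key b hb).symm
    · exact Finset.disjoint_of_subset_right (Finset.insert_subset_insert _ h1) Finset.sdiff_disjoint
  · intro A hA B hB h
    have a := (mem_Trees.mp (Finset.mem_filter.mp hA).1).1
    have b := (mem_Trees.mp (Finset.mem_filter.mp hB).1).1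
    rw [← Finset.erase_insert (fun h => hne (a h)), h, Finset.erase_insert (fun h => hne (b h))]
  · intro T hT
    obtain ⟨hT, hFT, hd⟩ := Finset.mem_filter.mp hT
    obtain ⟨h1, h2, h3⟩ := mem_Trees.mp hT
    have hsub : T ⊆ insert s(v, w) (edgesIn G S) := by
      intro e he
      by_contra h
      exact Finset.disjoint_left.mp hd (Finset.mem_sdiff.mpr ⟨h1 he, h⟩) he
    have hmem : s(v, w) ∈ T := by
      by_contra h
      have h4 : T ⊆ edgesIn G S := fun e he =>
        (Finset.mem_insert.mp (hsub he)).resolve_left fun h' => h (h' ▸ he)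
      have := rch_eq_of_notMem h4 hv
        (h3 v (Finset.mem_insert_self _ _) w (Finset.mem_insert_of_mem hw))
      exact hv (this ▸ hw)
    have h4 : T.erase s(v, w) ⊆ edgesIn G S := fun e he =>
      (Finset.mem_insert.mp (hsub (Finset.mem_of_mem_erase he))).resolve_left
        (Finset.ne_of_mem_erase he)
    refine ⟨T.erase s(v, w), Finset.mem_filter.mpr ⟨mem_Trees.mpr ⟨h4, ?_, ?_⟩, ?_,
      Finset.disjoint_empty_left _⟩, Finset.insert_erase hmem⟩
    · rw [Finset.card_erase_of_mem hmem]
      rw [Finset.card_insert_of_notMem hv] at h2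
      have := Finset.card_pos.mpr ⟨_, hmem⟩
      omega
    · intro a ha b hb
      have h5 := h3 a (Finset.mem_insert_of_mem ha) b (Finset.mem_insert_of_mem hb)
      rw [← Finset.insert_erase hmem] at h5
      rcases h5.of_insert with h6 | h6 | h6
      · exact h6
      · exact absurd (rch_eq_of_notMem h4 hv h6.1.symm ▸ ha) hv
      · exact absurd (rch_eq_of_notMem h4 hv h6.2 ▸ hb) hv
    · intro e he
      exact Finset.mem_erase.mpr ⟨fun h => hne (h ▸ hF he), hFT he⟩

lemma ust_insert_le (h : Conn G S) (hv : v ∉ S) (hw : w ∈ S) (hadj : G.Adj v w)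
    {F : Finset (Sym2 V)} (hF : F ⊆ edgesIn G S) :
    (ust G (insert v S)).real (ev F ∅) ≤ (ust G S).real (ev F ∅) := by
  classical
  have h' := h.insert hw hadj
  set B := edgesIn G (insert v S) \ insert s(v, w) (edgesIn G S) with hB
  have key := (good_ust h').ev_mul_le (F := F) (B := B)
    (Finset.disjoint_of_subset_right (hF.trans (Finset.subset_insert _ _)) Finset.sdiff_disjoint)
  rw [ust_real_ev h' ∅ B, ust_real_ev h' F B] at key
  have e1 := card_leaf hv hw hadj hF
  have e2 := card_leaf hv hw hadj (Finset.empty_subset _)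
  rw [ust_real_ev h]
  have e3 : ((Trees G S).filter fun A => ∅ ⊆ A ∧ Disjoint ∅ A) = Trees G S := by simp
  rw [e3] at e2
  have p1 : (0 : ℝ) < (Trees G S).card := by exact_mod_cast (Trees_nonempty h).card_pos
  have p2 : (0 : ℝ) < (Trees G (insert v S)).card := by exact_mod_cast (Trees_nonempty h').card_pos
  rw [le_div_iff₀ p1]
  rw [← mul_div_assoc, div_le_div_iff_of_pos_right p2] at key
  have e1' := congrArg (Nat.cast : ℕ → ℝ) e1
  have e2' := congrArg (Nat.cast : ℕ → ℝ) e2
  convert key using 2
  · convert e2'.symm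
  · convert e1.symm

end Leaf

theorem ust_anti {G : SimpleGraph V} {S' : Finset V} (h' : Conn G S') {F : Finset (Sym2 V)}
    (n : ℕ) : ∀ S : Finset V, Conn G S → S ⊆ S' → S.card + n = S'.card → F ⊆ edgesIn G S →
      (ust G S').real (ev F ∅) ≤ (ust G S).real (ev F ∅) := by
  classical
  induction n with
  | zero =>
    intro S _ hS hc _
    rw [Finset.eq_of_subset_of_card_le hS (by omega)]
  | succ n ih =>
    intro S h hS hc hF
    obtain ⟨a, haS', ha⟩ := Finset.exists_mem_notMem_of_card_lt_card
      (show S.card < S'.card by omega)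
    obtain ⟨r, hr⟩ := h.1
    obtain ⟨w, hw, v, hv, hvw⟩ := (h'.2 r (hS hr) a haS').exists_cross (S := (S : Set V)) hr ha
    obtain ⟨_, hvS', hadj⟩ := mem_edgesIn.mp hvw
    refine (ih (insert v S) (h.insert hw hadj.symm) (Finset.insert_subset hvS' hS)
      (by rw [Finset.card_insert_of_notMem hv]; omega)
      (hF.trans (edgesIn_mono G (Finset.subset_insert _ _)))).trans ?_
    exact ust_insert_le h hv hw hadj.symm hF

theorem ust_anti' {G : SimpleGraph V} {S S' : Finset V} (h : Conn G S) (h' : Conn G S')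
    (hS : S ⊆ S') {F : Finset (Sym2 V)} (hF : F ⊆ edgesIn G S) :
    (ust G S').real (ev F ∅) ≤ (ust G S).real (ev F ∅) :=
  ust_anti h' (S'.card - S.card) S h hS (by have := Finset.card_le_card hS; omega) hF

lemma ust_congr {G G' : SimpleGraph V} {S : Finset V} (h : edgesIn G S = edgesIn G' S) :
    ust G S = ust G' S := by
  unfold ust
  congr 1
  ext A
  rw [mem_Trees, mem_Trees, h]

end Crest.Agent.R168
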