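import Mathlib
import Crest.Agent.R168.UST
import Crest.Agent.R168.Factor
import Crest.Prelude.Def_GraphTables

/-!
The free uniform spanning forest law of a connected graph on `ℕ`: existence, the covariance
inequalities, equivariance under relabelling and measurability in the adjacency table.
-/

set_option autoImplicit false

namespace Crest.Agent.R168

open MeasureTheory Filter Topology Set Crest.ProbabilityR.SpanningTrees
  Crest.ProbabilityR.GraphTables
open scoped ENNReal

/-- the filter of large finite connected pieces -/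
def exh {V : Type*} (G : SimpleGraph V) : Filter (Finset V) := atTop ⊓ 𝓟 {S | Conn G S}

open Classical in
/-- the component of `0` in the piece `{0, …, n}` -/
noncomputable def Sn (G : SimpleGraph ℕ) (n : ℕ) : Finset ℕ :=
  (Finset.range (n + 1)).filter fun v => Rch (edgesIn G (Finset.range (n + 1))) 0 v

lemma mem_Sn {G : SimpleGraph ℕ} {n v : ℕ} :
    v ∈ Sn G n ↔ v < n + 1 ∧ Rch (edgesIn G (Finset.range (n + 1))) 0 v := by
  simp only [Sn, Finset.mem_filter, Finset.mem_range]

lemma conn_Sn (G : SimpleGraph ℕ) (n : ℕ) : Conn G (Sn G n) := by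
  have key : ∀ u ∈ Sn G n, Rch (edgesIn G (Sn G n)) 0 u := by
    intro u hu
    refine (mem_Sn.mp hu).2.induction (P := fun v => Rch (edgesIn G (Sn G n)) 0 v)
      (Rch.refl _ _) fun a b ha hab _ ih => ih.trans (Rch.of_mem ?_)
    obtain ⟨h1, h2, h3⟩ := mem_edgesIn.mp hab
    exact mem_edgesIn.mpr ⟨mem_Sn.mpr ⟨Finset.mem_range.mp h1, ha⟩,
      mem_Sn.mpr ⟨Finset.mem_range.mp h2, ha.trans (Rch.of_mem hab)⟩, h3⟩
  exact ⟨⟨0, mem_Sn.mpr ⟨Nat.succ_pos n, Rch.refl _ _⟩⟩,
    fun u hu v hv => (key u hu).symm.trans (key v hv)⟩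

lemma monotone_Sn (G : SimpleGraph ℕ) : Monotone (Sn G) := by
  intro m n hmn v hv
  obtain ⟨h1, h2⟩ := mem_Sn.mp hv
  exact mem_Sn.mpr ⟨by omega, h2.mono (edgesIn_mono G (Finset.range_mono (by omega)))⟩

lemma connected_iff_Sn {G : SimpleGraph ℕ} : G.Connected ↔ ∀ v, ∃ n, v ∈ Sn G n := by
  constructor
  · intro h v
    have h' := (SimpleGraph.reachable_iff_reflTransGen 0 v).mp (h 0 v)
    induction h' with
    | refl => exact ⟨0, mem_Sn.mpr ⟨Nat.one_pos, Rch.refl _ _⟩⟩
    | @tail a b _ hab ih =>
      obtain ⟨n, hn⟩ := ih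
      obtain ⟨h1, h2⟩ := mem_Sn.mp (monotone_Sn G (le_max_left n b) hn)
      have h3 : b < max n b + 1 := Nat.lt_succ_of_le (le_max_right n b)
      exact ⟨max n b, mem_Sn.mpr ⟨h3, h2.trans (Rch.of_mem (mem_edgesIn.mpr
        ⟨Finset.mem_range.mpr h1, Finset.mem_range.mpr h3, hab⟩))⟩⟩
  · intro h
    have key : ∀ v, G.Reachable 0 v := by
      intro v
      obtain ⟨n, hn⟩ := h v
      exact (mem_Sn.mp hn).2.induction (P := fun v => G.Reachable 0 v)
        (SimpleGraph.Reachable.refl _) fun a b _ hab _ ih =>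
          ih.trans (mem_edgesIn.mp hab).2.2.reachable
    exact ⟨fun u v => (key u).symm.trans (key v)⟩

lemma tendsto_exh {V α : Type*} {G : SimpleGraph V} {l : Filter α} {S : α → Finset V}
    (h1 : Tendsto S l atTop) (h2 : ∀ a, Conn G (S a)) : Tendsto S l (exh G) :=
  tendsto_inf.mpr ⟨h1, tendsto_principal.mpr (Eventually.of_forall h2)⟩

lemma tendsto_Sn {G : SimpleGraph ℕ} (h : G.Connected) : Tendsto (Sn G) atTop (exh G) :=
  tendsto_exh (tendsto_atTop_finset_of_monotone (monotone_Sn G) (connected_iff_Sn.mp h))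
    (conn_Sn G)

lemma exh_neBot {G : SimpleGraph ℕ} (h : G.Connected) : (exh G).NeBot := (tendsto_Sn h).neBot

lemma eventually_conn {V : Type*} (G : SimpleGraph V) : ∀ᶠ S in exh G, Conn G S :=
  mem_inf_of_right (mem_principal_self _)

lemma eventually_sup {V : Type*} (G : SimpleGraph V) (K : Finset V) : ∀ᶠ S in exh G, K ⊆ S :=
  mem_inf_of_left (eventually_ge_atTop K)

lemma eventually_edges {V : Type*} {G : SimpleGraph V} {F : Finset (Sym2 V)}
    (hF : (F : Set (Sym2 V)) ⊆ G.edgeSet) : ∀ᶠ S in exh G, F ⊆ edgesIn G S := by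
  classical
  have : ∀ᶠ S in exh G, ∀ e ∈ F, e ∈ edgesIn G S := by
    rw [Finset.eventually_all]
    intro e he
    induction e using Sym2.ind with
    | _ u v =>
    filter_upwards [eventually_sup G {u, v}] with S hS
    exact mem_edgesIn.mpr ⟨hS (by simp), hS (by simp), hF he⟩
  exact this

lemma ust_ev_eq_zero {V : Type*} {G : SimpleGraph V} {S : Finset V} (h : Conn G S)
    {F : Finset (Sym2 V)} (hF : ¬ (F : Set (Sym2 V)) ⊆ G.edgeSet) :
    (ust G S).real (ev F ∅) = 0 := by
  classical
  rw [ust_real_ev h, Finset.filter_false_of_mem, Finset.card_empty, Nat.cast_zero, zero_div]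
  intro A hA h'
  refine hF fun e he => ?_
  have := (mem_Trees.mp hA).1 (h'.1 he)
  induction e using Sym2.ind with
  | _ u v => exact (mem_edgesIn.mp this).2.2

lemma exists_tendsto_ust {G : SimpleGraph ℕ} (h : G.Connected) (F : Finset (Sym2 ℕ)) :
    ∃ L, Tendsto (fun S => (ust G S).real (ev F ∅)) (exh G) (𝓝 L) := by
  have := exh_neBot h
  by_cases hF : (F : Set (Sym2 ℕ)) ⊆ G.edgeSet
  · let T : Set ℝ := {c | ∃ S, Conn G S ∧ F ⊆ edgesIn G S ∧ c = (ust G S).real (ev F ∅)}
    have hb : BddBelow T := ⟨0, by rintro c ⟨S, _, _, rfl⟩; exact measureReal_nonneg⟩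
    have hn : T.Nonempty := by
      obtain ⟨S, h1, h2⟩ := ((eventually_conn G).and (eventually_edges hF)).exists
      exact ⟨_, S, h1, h2, rfl⟩
    refine ⟨sInf T, tendsto_order.mpr ⟨fun a ha => ?_, fun a ha => ?_⟩⟩
    · filter_upwards [eventually_conn G, eventually_edges hF] with S h1 h2
      exact ha.trans_le (csInf_le hb ⟨S, h1, h2, rfl⟩)
    · obtain ⟨c, ⟨S₀, h1, h2, rfl⟩, hc⟩ := exists_lt_of_csInf_lt hn ha
      filter_upwards [eventually_conn G, eventually_sup G S₀] with S h3 h4
      exact (ust_anti' h1 h3 h4 h2).trans_lt hc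
  · refine ⟨0, tendsto_const_nhds.congr' ?_⟩
    filter_upwards [eventually_conn G] with S hS using (ust_ev_eq_zero hS hF).symm

lemma exists_fusf {G : SimpleGraph ℕ} (h : G.Connected) :
    ∃ ν : ProbabilityMeasure (Sym2 ℕ → Bool), ∀ K S : Finset (Sym2 ℕ),
      Tendsto (fun T => (ust G T).real (cyl K S)) (exh G)
        (𝓝 ((ν : Measure (Sym2 ℕ → Bool)).real (cyl K S))) := by
  have := exh_neBot h
  let P : Finset ℕ → ProbabilityMeasure (Sym2 ℕ → Bool) := fun T => ⟨ust G T, inferInstance⟩
  let U : Ultrafilter (Finset ℕ) := Ultrafilter.of (exh G)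
  obtain ⟨ν, _, hν⟩ := isCompact_univ.ultrafilter_le_nhds (U.map P) (by simp)
  refine ⟨ν, fun K S => ?_⟩
  obtain ⟨L, hL⟩ := exists_tendsto_cyl (νs := fun T => ust G T) (exists_tendsto_ust h) K S
  have h1 : Tendsto P U (𝓝 ν) := hν
  have h2 := NNReal.tendsto_coe.mpr
    (ProbabilityMeasure.tendsto_measure_of_isClopen_of_tendsto h1 (isClopen_cyl K S))
  have h3 : Tendsto (fun T => (ust G T).real (cyl K S)) U
      (𝓝 ((ν : Measure (Sym2 ℕ → Bool)).real (cyl K S))) := h2
  rwa [← tendsto_nhds_unique (hL.mono_left (Ultrafilter.of_le _)) h3]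

open Classical in
/-- the free uniform spanning forest law (a point mass for disconnected graphs) -/
noncomputable def fusf (G : SimpleGraph ℕ) : Measure (Sym2 ℕ → Bool) :=
  if h : G.Connected then ((exists_fusf h).choose : Measure (Sym2 ℕ → Bool))
  else Measure.dirac fun _ => false

instance (G : SimpleGraph ℕ) : IsProbabilityMeasure (fusf G) := by
  unfold fusf; split_ifs <;> infer_instance

lemma tendsto_fusf {G : SimpleGraph ℕ} (h : G.Connected) (K S : Finset (Sym2 ℕ)) :
    Tendsto (fun T => (ust G T).real (cyl K S)) (exh G) (𝓝 ((fusf G).real (cyl K S))) := by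
  rw [fusf, dif_pos h]
  exact (exists_fusf h).choose_spec K S

lemma good_dirac {E : Type*} : Good (Measure.dirac (fun _ => false) : Measure (E → Bool)) := by
  have e : (Measure.dirac (fun _ => false) : Measure (E → Bool)) = unif {∅} := by
    have : indS (∅ : Finset E) = fun _ => false := by funext j; simp [indS]
    simp [unif, this]
  rw [e]
  refine good_of_stable _ fun F => ⟨F, subset_refl F, fun z _ => ?_⟩
  rw [genPoly_unif (Finset.singleton_nonempty _) (by simp)]
  simp

theorem good_fusf (G : SimpleGraph ℕ) : Good (fusf G) := by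
  by_cases h : G.Connected
  · have := exh_neBot h
    exact Good.of_tendsto (νs := fun T => ust G T) (tendsto_fusf h)
      ((eventually_conn G).mono fun S hS => good_ust hS)
  · rw [fusf, dif_neg h]; exact good_dirac

lemma fusf_nonedge {G : SimpleGraph ℕ} (h : G.Connected) {e : Sym2 ℕ} (he : e ∉ G.edgeSet) :
    fusf G {σ | σ e = true} = 0 := by
  have := exh_neBot h
  have h1 := tendsto_fusf h {e} {e}
  have h2 : Tendsto (fun T => (ust G T).real (cyl {e} {e})) (exh G) (𝓝 0) := by
    refine tendsto_const_nhds.congr' ?_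
    filter_upwards [eventually_conn G] with S hS
    rw [← ev_empty_eq_cyl, ust_ev_eq_zero hS (by simpa using he)]
  have h3 := tendsto_nhds_unique h1 h2
  have e1 : cyl {e} {e} = {σ : Sym2 ℕ → Bool | σ e = true} := by ext σ; simp [cyl]
  rw [e1] at h3
  exact (measureReal_eq_zero_iff (measure_ne_top _ _)).mp h3

section Equivariance

/-- relabelling of unordered pairs -/
def sym2Equiv {V : Type*} (σ : Equiv.Perm V) : Sym2 V ≃ Sym2 V where
  toFun := Sym2.map σ
  invFun := Sym2.map σ.symm
  left_inv e := by rw [Sym2.map_map]; simp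
  right_inv e := by rw [Sym2.map_map]; simp

variable {V : Type*} (σ : Equiv.Perm V) (G : SimpleGraph V)

lemma mem_edgesIn_comap (T : Finset V) (e : Sym2 V) :
    e ∈ edgesIn (G.comap σ) T ↔ sym2Equiv σ e ∈ edgesIn G (T.map σ.toEmbedding) := by
  induction e using Sym2.ind with
  | _ u v =>
  change _ ↔ s(σ u, σ v) ∈ _
  simp [mem_edgesIn]

lemma edgesIn_map (T : Finset V) : (edgesIn (G.comap σ) T).map (sym2Equiv σ).toEmbedding =
    edgesIn G (T.map σ.toEmbedding) := by
  ext e
  rw [Finset.mem_map_equiv, mem_edgesIn_comap, Equiv.apply_symm_apply]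

lemma rch_map (A : Finset (Sym2 V)) (u v : V) :
    Rch (A.map (sym2Equiv σ).toEmbedding) (σ u) (σ v) ↔ Rch A u v := by
  let φ : SimpleGraph.fromEdgeSet (A : Set (Sym2 V)) ≃g
      SimpleGraph.fromEdgeSet (A.map (sym2Equiv σ).toEmbedding : Set (Sym2 V)) :=
    { toEquiv := σ
      map_rel_iff' := by
        intro a b
        simp only [SimpleGraph.fromEdgeSet_adj, Finset.mem_coe, ne_eq, EmbeddingLike.apply_eq_iff_eq]
        rw [show s(σ a, σ b) = (sym2Equiv σ).toEmbedding s(a, b) from rfl, Finset.mem_map'] }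
  exact SimpleGraph.Iso.reachable_iff (φ := φ)

lemma forall_rch_map (A : Finset (Sym2 V)) (T : Finset V) :
    (∀ u ∈ T.map σ.toEmbedding, ∀ v ∈ T.map σ.toEmbedding,
      Rch (A.map (sym2Equiv σ).toEmbedding) u v) ↔ ∀ u ∈ T, ∀ v ∈ T, Rch A u v := by
  simp only [Finset.forall_mem_map, Equiv.coe_toEmbedding, rch_map]

lemma conn_map (T : Finset V) : Conn G (T.map σ.toEmbedding) ↔ Conn (G.comap σ) T := by
  rw [Conn, Conn, ← edgesIn_map, forall_rch_map, Finset.map_nonempty]

lemma mem_Trees_map (T : Finset V) (A : Finset (Sym2 V)) :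
    A.map (sym2Equiv σ).toEmbedding ∈ Trees G (T.map σ.toEmbedding) ↔
      A ∈ Trees (G.comap σ) T := by
  rw [mem_Trees, mem_Trees, ← edgesIn_map, forall_rch_map, Finset.map_subset_map,
    Finset.card_map, Finset.card_map]

lemma Trees_map (T : Finset V) : Trees G (T.map σ.toEmbedding) =
    (Trees (G.comap σ) T).map (sym2Equiv σ).finsetCongr.toEmbedding := by
  ext A
  rw [Finset.mem_map_equiv, ← mem_Trees_map]
  have : Finset.map (sym2Equiv σ).toEmbedding ((sym2Equiv σ).finsetCongr.symm A) = A :=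
    (sym2Equiv σ).finsetCongr.apply_symm_apply A
  rw [this]

lemma ust_comap_real {T : Finset V} (h : Conn (G.comap σ) T) {s : Set (Sym2 V → Bool)}
    (hs : MeasurableSet s) :
    (ust (G.comap σ) T).real s =
      (ust G (T.map σ.toEmbedding)).real ((fun ω => ω ∘ sym2Equiv σ) ⁻¹' s) := by
  classical
  rw [ust, ust, unif_real (Trees_nonempty h) hs, unif_real (Trees_nonempty ((conn_map σ G T).mpr h))
    (measurable_comp_equiv _ hs), Trees_map, Finset.filter_map, Finset.card_map, Finset.card_map]
  congr 3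
  refine Finset.filter_congr fun A _ => ?_
  have : indS (A.map (sym2Equiv σ).toEmbedding) ∘ sym2Equiv σ = indS A := by
    funext e
    rw [Bool.eq_iff_iff, Function.comp_apply, indS_eq_true, indS_eq_true]
    exact Finset.mem_map' _
  simp only [Function.comp_apply, mem_preimage]
  rw [← this]
  rfl

lemma preimage_cyl {I J : Type*} (e : J ≃ I) (K S : Finset J) :
    (fun ω : I → Bool => ω ∘ e) ⁻¹' cyl K S = cyl (K.map e.toEmbedding) (S.map e.toEmbedding) := by
  ext ω
  simp only [cyl, mem_preimage, mem_ofPred_eq, Finset.forall_mem_map, Finset.mem_map',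
    Function.comp_apply]
  rfl

theorem fusf_comap (σ : Equiv.Perm ℕ) (G : SimpleGraph ℕ) :
    fusf (G.comap σ) = (fusf G).map fun ω => ω ∘ sym2Equiv σ := by
  have hc : (G.comap σ).Connected ↔ G.Connected := (SimpleGraph.Iso.comap σ G).connected_iff
  by_cases h : G.Connected
  · have := Measure.isProbabilityMeasure_map (μ := fusf G)
      (measurable_comp_equiv (sym2Equiv σ)).aemeasurable
    have := exh_neBot (hc.mpr h)
    refine ext_cyl fun K S _ => tendsto_nhds_unique (tendsto_fusf (hc.mpr h) K S) ?_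
    have ht : Tendsto (fun T : Finset ℕ => T.map σ.toEmbedding) (exh (G.comap σ)) (exh G) := by
      refine tendsto_inf.mpr ⟨tendsto_inf_left ?_, tendsto_principal.mpr ?_⟩
      · let φ : Finset ℕ ≃o Finset ℕ := σ.finsetCongr.toOrderIso
          (fun _ _ h => Finset.map_subset_map.mpr h) (fun _ _ h => Finset.map_subset_map.mpr h)
        exact φ.tendsto_atTop
      · exact (eventually_conn _).mono fun T hT => (conn_map σ G T).mpr hT
    rw [map_measureReal_apply (measurable_comp_equiv _) (measurableSet_cyl K S), preimage_cyl]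
    refine ((tendsto_fusf h _ _).comp ht).congr' ?_
    filter_upwards [eventually_conn _] with T hT
    rw [ust_comap_real σ G hT (measurableSet_cyl K S), preimage_cyl]
    rfl
  · rw [fusf, fusf, dif_neg h, dif_neg (fun h' => h (hc.mp h')),
      Measure.map_dirac' (measurable_comp_equiv _)]
    rfl

end Equivariance

section Measurability

lemma measurable_of_table {β : Type*} [MeasurableSpace β] (n : ℕ) {f : (ℕ → ℕ → Bool) → β}
    (hf : ∀ p p' : ℕ → ℕ → Bool, (∀ i j, i < n → j < n → p i j = p' i j) → f p = f p') :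
    Measurable f := by
  let r : (ℕ → ℕ → Bool) → (Fin n → Fin n → Bool) := fun p i j => p i j
  let x : (Fin n → Fin n → Bool) → (ℕ → ℕ → Bool) := fun q i j =>
    if h : i < n ∧ j < n then q ⟨i, h.1⟩ ⟨j, h.2⟩ else false
  have e : f = (f ∘ x) ∘ r := by
    funext p
    exact hf _ _ fun i j hi hj => by simp [x, r, hi, hj]
  rw [e]
  refine Measurable.comp Measurable.of_discrete ?_
  exact measurable_pi_lambda _ fun i => measurable_pi_lambda _ fun j =>
    (measurable_pi_apply (j : ℕ)).comp (measurable_pi_apply (i : ℕ))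

lemma edgesIn_table {n : ℕ} {p p' : ℕ → ℕ → Bool} (h : ∀ i j, i < n → j < n → p i j = p' i j)
    {T : Finset ℕ} (hT : T ⊆ Finset.range n) :
    edgesIn (graphOfTable p) T = edgesIn (graphOfTable p') T := by
  ext e
  induction e using Sym2.ind with
  | _ u v =>
  simp only [mem_edgesIn, graphOfTable, SimpleGraph.fromRel_adj]
  refine and_congr_right fun hu => and_congr_right fun hv => ?_
  have hu' := Finset.mem_range.mp (hT hu)
  have hv' := Finset.mem_range.mp (hT hv)
  rw [h u v hu' hv', h v u hv' hu']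

lemma Sn_table {n : ℕ} {p p' : ℕ → ℕ → Bool}
    (h : ∀ i j, i < n + 1 → j < n + 1 → p i j = p' i j) :
    Sn (graphOfTable p) n = Sn (graphOfTable p') n := by
  ext v
  rw [mem_Sn, mem_Sn, edgesIn_table h (subset_refl _)]

lemma measurableSet_connected : MeasurableSet {p : ℕ → ℕ → Bool | (graphOfTable p).Connected} := by
  simp only [connected_iff_Sn, ofPred_forall, ofPred_exists]
  refine MeasurableSet.iInter fun v => MeasurableSet.iUnion fun n => ?_
  exact measurableSet_setOfPred.mpr (measurable_of_table (n + 1) fun p p' h => by rw [Sn_table h])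

theorem measurable_fusf (K S : Finset (Sym2 ℕ)) :
    Measurable fun p : ℕ → ℕ → Bool => (fusf (graphOfTable p)).real (cyl K S) := by
  classical
  refine measurable_of_tendsto_metrizable (f := fun n p =>
    if (graphOfTable p).Connected then
      (ust (graphOfTable p) (Sn (graphOfTable p) n)).real (cyl K S)
    else (Measure.dirac (fun _ => false) : Measure (Sym2 ℕ → Bool)).real (cyl K S))
    (fun n => ?_) (tendsto_pi_nhds.mpr fun p => ?_)
  · refine Measurable.ite measurableSet_connected ?_ measurable_const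
    refine measurable_of_table (n + 1) fun p p' h => ?_
    rw [Sn_table h, ust_congr (edgesIn_table h (T := Sn (graphOfTable p') n)
      fun v hv => Finset.mem_range.mpr (mem_Sn.mp hv).1)]
  · by_cases h : (graphOfTable p).Connected
    · simp only [h, if_true]
      exact (tendsto_fusf h K S).comp (tendsto_Sn h)
    · rw [fusf, dif_neg h]
      simp only [h, if_false]
      exact tendsto_const_nhds

end Measurability

end Crest.Agent.R168
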